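import Vale.Agent.P354YC.Ind

/-!
Local isometries from a chart into a spacetime.
-/

open scoped ContDiff
open Set Filter Topology Metric

namespace Vale.Agent.P354YC

open Vale.Agent.P354n
open Vale.Agent.P354I (X)
open Vale.Agent.P354R (Pull)
open Vale.Agent.P354XE (Tw Lor)
open Vale.Agent.P354RC
open Vale.Agent.P354XJ

variable {g g' : Tw} {D D' W : Set R4} {Xf Xf' ψ : R4 → R4} {p : R4} {M : Spc}
  {κ κ' : R4 → M.pt} {e : M.Chart}

/-- F is smooth, isometric and preserves the time orientation at p. -/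
def Is (g : Tw) (Xf : R4 → R4) (g' : Tw) (Xf' F : R4 → R4) (p : R4) : Prop :=
  ContDiffAt ℝ ∞ F p ∧ (∀ a b, g p a b = g' (F p) (fderiv ℝ F p a) (fderiv ℝ F p b)) ∧
    g' (F p) (fderiv ℝ F p (Xf p)) (Xf' (F p)) < 0

theorem iso_iff {A : Spc} {c : A.Chart} {F : R4 → R4} :
    Iso c e F p ↔ Is (A.g c) (A.X c) (M.g e) (M.X e) F p :=
  and_congr_right fun h => by simp only [(at_df h).lineDeriv_eq_fderiv]

theorem Is.congr {F : R4 → R4} (h : Is g Xf g' Xf' ψ p) (k : F =ᶠ[𝓝 p] ψ) :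
    Is g Xf g' Xf' F p := by
  rw [Is, k.fderiv_eq, k.self_of_nhds]
  exact ⟨h.1.congr_of_eventuallyEq k, h.2⟩

theorem Is.comp {g'' : Tw} {D'' : Set R4} {Xf'' F : R4 → R4} (h : Lor g D Xf) (h' : Lor g' D' Xf')
    (h'' : Lor g'' D'' Xf'') (hp : p ∈ D) (hq : ψ p ∈ D') (hr : F (ψ p) ∈ D'')
    (a : Is g Xf g' Xf' ψ p) (b : Is g' Xf' g'' Xf'' F (ψ p)) :
    Is g Xf g'' Xf'' (fun x => F (ψ x)) p := by
  rw [Is, fderiv_fun_comp p (at_df b.1) (at_df a.1)]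
  exact ⟨b.1.comp p a.1, fun u v => (a.2.1 u v).trans (b.2.1 _ _),
    (fut_map h' h'' hq hr b.2.1 b.2.2 (a.2.1 _ _ ▸ h.tl p hp) a.2.2 :)⟩

theorem Is.inj (h : Lor g D Xf) (h' : Lor g' D' Xf') (hp : p ∈ D) (hq : ψ p ∈ D')
    (a : Is g Xf g' Xf' ψ p) : Function.Injective (fderiv ℝ ψ p) :=
  (injective_iff_map_eq_zero _).2 fun u k => h.met.nondeg p hp u fun b => by
    rw [a.2.1, k]
    simpa using (bilin_of h' hq).smul_left 0 0 _

theorem pull_of (h : Lor g D Xf) (h' : Lor g' D' Xf') (hW : IsOpen W)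
    (k : ∀ p ∈ W, p ∈ D ∧ ψ p ∈ D' ∧ Is g Xf g' Xf' ψ p) : Pull ψ g W g' D' :=
  ⟨hW, h'.isOpen, h'.met, fun p a => (k p a).2.2.1.contDiffWithinAt, fun p a => (k p a).2.1,
    fun p a => (k p a).2.2.inj h h' (k p a).1 (k p a).2.1, fun p a => (k p a).2.2.2.1⟩

/-- κ is a local isometry at p. -/
structure LI (g : Tw) (Xf : R4 → R4) (κ : R4 → M.pt) (p : R4) : Prop where
  cont : ContinuousAt κ p
  iso : ∀ e, On e (κ p) → Is g Xf (M.g e) (M.X e) (fun x => co e (κ x)) p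

theorem LI.congr (h : LI g Xf κ p) (k : κ' =ᶠ[𝓝 p] κ) : LI g Xf κ' p :=
  ⟨h.cont.congr k.symm, fun e a => (h.iso e (k.self_of_nhds ▸ a)).congr (k.fun_comp (co e))⟩

theorem li_inv (hM : IsSpacetime IsSmooth M) (hp : p ∈ tgt e) : LI (M.g e) (M.X e) (inv e) p :=
  ⟨inv_cont hp, fun e' a => iso_iff.1 (isIsom_iff.1 hM.tensor e e' p hp a)⟩

variable (hL : ∀ e, Lor (M.g e) (tgt e) (M.X e)) (h : Lor g D Xf)
include hL h

theorem LI.comp (h' : Lor g' D' Xf') (hp : p ∈ D) (hq : ψ p ∈ D') (a : Is g Xf g' Xf' ψ p)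
    (b : LI g' Xf' κ (ψ p)) : LI g Xf (fun x => κ (ψ x)) p :=
  ⟨b.cont.comp a.1.continuousAt, fun e k =>
    Is.comp (F := fun x => co e (κ x)) h h' (hL e) hp hq (co_mem k) a (b.iso e k)⟩

/-- Two local isometries with the same first jet at a point near p agree near p. -/
theorem li_ball (k : ∀ᶠ x in 𝓝 p, x ∈ D ∧ LI g Xf κ x ∧ LI g Xf κ' x) (he : On e (κ p))
    (he' : On e (κ' p)) : ∃ r > 0, ∀ q ∈ ball p r, κ q = κ' q →
      fderiv ℝ (fun x => co e (κ x)) q = fderiv ℝ (fun x => co e (κ' x)) q →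
        EqOn κ κ' (ball p r) := by
  obtain ⟨r, r0, hr⟩ := Metric.eventually_nhds_iff_ball.1 (k.and
    ((k.self_of_nhds.2.1.cont.eventually (on_nhds he)).and
      (k.self_of_nhds.2.2.cont.eventually (on_nhds he'))))
  refine ⟨r, r0, fun q hq e0 e1 x hx => ?_⟩
  rw [← inv_co (hr x hx).2.1, ← inv_co (hr x hx).2.2]
  exact congrArg _ (rigS (pull_of h (hL e) isOpen_ball fun x a =>
      ⟨(hr x a).1.1, co_mem (hr x a).2.1, (hr x a).1.2.1.iso e (hr x a).2.1⟩)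
    (pull_of h (hL e) isOpen_ball fun x a =>
      ⟨(hr x a).1.1, co_mem (hr x a).2.2, (hr x a).1.2.2.iso e (hr x a).2.2⟩)
    (convex_ball p r).isPreconnected subset_rfl hq (congrArg (co e) e0) e1 hx)

/-- Unique continuation of local isometries. -/
theorem rigM (hW : IsOpen W) (c : IsPreconnected W)
    (k : ∀ x ∈ W, x ∈ D ∧ LI g Xf κ x ∧ LI g Xf κ' x) (hp : p ∈ W) (e0 : κ =ᶠ[𝓝 p] κ') :
    EqOn κ κ' W := fun x hx => by
  refine Eventually.self_of_nhds (p := fun z => κ z = κ' z) (c.subset_of_closure_inter_subset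
    isOpen_setOfPred_eventually_nhds ⟨p, hp, e0⟩ (fun z a => ?_) hx)
  have e1 : κ z = κ' z := (isClosed_diagonal.closure_subset
    (((k z a.2).2.1.cont.prodMk (k z a.2).2.2.cont).continuousWithinAt.mem_closure a.1
      fun _ b => Eventually.self_of_nhds (p := fun z => κ z = κ' z) b) :)
  obtain ⟨e, he⟩ := M.cover (κ z)
  obtain ⟨r, r0, hr⟩ := li_ball hL h (mem_of_superset (hW.mem_nhds a.2) k) he (e1 ▸ he)
  obtain ⟨q, q1, q2⟩ := mem_closure_iff_nhds.1 a.1 _ (ball_mem_nhds z r0)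
  replace q2 : κ =ᶠ[𝓝 q] κ' := q2
  exact mem_of_superset (ball_mem_nhds z r0)
    (hr q q1 q2.self_of_nhds (q2.fun_comp (co e)).fderiv_eq)

/-- Local isometries which agree on a spacelike slice agree near it. -/
theorem jetM {J : X → R4} {y : X} {n : R4} (hJ : DifferentiableAt ℝ J y)
    (S : Sp (g (J y)) (fderiv ℝ J y) n) (n1 : g (J y) n n = -1) (n2 : g (J y) n (Xf (J y)) < 0)
    (k : ∀ᶠ x in 𝓝 (J y), x ∈ D ∧ LI g Xf κ x ∧ LI g Xf κ' x)
    (e0 : ∀ᶠ z in 𝓝 y, κ (J z) = κ' (J z)) : κ =ᶠ[𝓝 (J y)] κ' := by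
  obtain ⟨e, he⟩ := M.cover (κ (J y))
  have e1 := e0.self_of_nhds
  obtain ⟨r, r0, hr⟩ := li_ball hL h k he (e1 ▸ he)
  obtain ⟨m, a, b⟩ := k.self_of_nhds
  replace a := a.iso e he
  replace b := b.iso e (e1 ▸ he)
  have m1 := co_mem he
  have o := fun {F} (a : Is g Xf (M.g e) (M.X e) F (J y)) m1 =>
    fut_map h (hL e) m m1 a.2.1 a.2.2 (by rw [n1]; norm_num) n2
  refine mem_of_superset (ball_mem_nhds _ r0) (hr _ (mem_ball_self r0) e1
    (S.jet n1 (bilin_of (hL e) m1) (b.inj h (hL e) m (e1 ▸ m1)) a.2.1 (e1 ▸ b.2.1) (fun u => ?_)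
      (o a m1) (e1 ▸ o b (e1 ▸ m1))))
  have := EventuallyEq.fderiv_eq (𝕜 := ℝ) (EventuallyEq.fun_comp e0 (co e))
  exact congrArg (· u) ((fderiv_comp y (at_df a.1) hJ).symm.trans
    (this.trans (fderiv_comp y (at_df b.1) hJ :)))

/-- The inverse function theorem. -/
theorem LI.loc (hp : p ∈ D) (a : LI g Xf κ p) :
    map κ (𝓝 p) = 𝓝 (κ p) ∧ ∃ N ∈ 𝓝 p, InjOn κ N := by
  obtain ⟨e, he⟩ := M.cover (κ p)
  have b := a.iso e he
  have i := b.inj h (hL e) hp (co_mem he)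
  have s : HasStrictFDerivAt (fun x => co e (κ x)) ((LinearEquiv.ofBijective
      (fderiv ℝ (fun x => co e (κ x)) p).toLinearMap
        ⟨i, surj_of_inj i⟩).toContinuousLinearEquiv : R4 →L[ℝ] R4) p :=
    b.1.hasStrictFDerivAt (by simp)
  refine ⟨?_, _, (s.toOpenPartialHomeomorph _).open_source.mem_nhds
    s.mem_toOpenPartialHomeomorph_source,
    InjOn.of_comp (g := co e) (s.toOpenPartialHomeomorph _).injOn⟩
  rw [← (M.toE e).symm_map_nhds_eq he, show M.toE e (κ p) = co e (κ p) from rfl,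
    ← s.map_nhds_eq_of_equiv, map_map]
  exact map_congr ((a.cont.eventually (on_nhds he)).mono fun x k => (inv_co k).symm)

/-- Images of future timelike segments. -/
theorem li_curve {a v : R4} (k : ∀ s ∈ Icc (0 : ℝ) 1, a + s • v ∈ D ∧ LI g Xf κ (a + s • v) ∧
    g (a + s • v) v v < 0 ∧ g (a + s • v) v (Xf (a + s • v)) < 0) :
    IsFutureCurve M 0 (Icc 0 1) fun s => κ (a + s • v) := by
  have c : ∀ s : ℝ, ContDiffAt ℝ ∞ (fun s : ℝ => a + s • v) s := fun s => by fun_prop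
  refine ⟨fun s hs => ((k s hs).2.1.cont.comp (f := fun s : ℝ => a + s • v)
    (c s).continuousAt).continuousWithinAt, fun s hs e he => ?_⟩
  obtain ⟨k1, k2, k3, k4⟩ := k s hs
  have b := k2.iso e he
  refine ⟨((b.1.comp s (c s)).of_le (by simp)).contDiffWithinAt, ?_⟩
  rintro _ w rfl hw
  have d : HasDerivAt (fun s : ℝ => a + s • v) v s := by
    simpa using ((hasDerivAt_id s).smul_const v).const_add a
  have d2 := ((at_df b.1).hasFDerivAt.comp_hasDerivAt s d).hasDerivWithinAt.derivWithin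
    (uniqueDiffOn_Icc one_pos s hs)
  rw [hw.trans d2, neg_zero]
  exact ⟨b.2.1 _ _ ▸ k3, fut_map h (hL e) k1 (co_mem he) b.2.1 b.2.2 k3 k4⟩

end Vale.Agent.P354YC
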