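import Vale.Agent.P354YC.Gus
import Vale.Agent.P354YC.Loc
import Vale.Agent.P354XV.Loc
import Vale.Agent.P354YO.Patch

/-!
GU from ROLL and UNQ.
-/

set_option maxSynthPendingDepth 3

open scoped ContDiff
open Set Filter Topology Metric

noncomputable section

namespace Vale.Agent.P354YC

open Vale.Agent.P354n (R4 mink)
open Vale.Agent.P354I (X Dat pd ee)
open Vale.Agent.P354R (Met Vac chr Pull)
open Vale.Agent.P354RC
open Vale.Agent.P354XD (tb rp_tb)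
open Vale.Agent.P354XE (Tw eT pt xs Lor pb)
open Vale.Agent.P354H (X3)
open Vale.Agent.P354XU (L4 Rol Adp th kk ROLL lens)
open Vale.Agent.P354XV (In0 Lv)

variable {g g' : Tw} {D D' Ω Ω' : Set R4} {p u v : R4} {b b' c : R4 → R4} {E E' A : R4 → L4}
  {d : Dat}

/-- The reflection of the time. -/
def Rf : R4 ≃L[ℝ] R4 := (ContinuousLinearEquiv.neg ℝ).prodCongr (.refl ℝ X3)

theorem Rf_ap (p : R4) : Rf p = (-p.1, p.2) := rfl
theorem Rf_Rf (p : R4) : Rf (Rf p) = p := by simp [Rf_ap]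
theorem Rf_symm (p : R4) : Rf.symm p = Rf p := rfl
theorem Rf_eT : Rf eT = -eT := by simp [Rf_ap, eT]
theorem Rf_sp (a : u.1 = 0) : Rf u = u := by rw [Rf_ap, a, neg_zero, ← z_eq a]

/-- The reflected frame. -/
def rE (E : R4 → L4) (p : R4) : L4 := E (Rf p) ∘L (Rf : R4 →L[ℝ] R4)

theorem fd_rf {F : Type} [NormedAddCommGroup F] [NormedSpace ℝ F] (f : R4 → F) (p u : R4) :
    fderiv ℝ (fun z => f (Rf z)) p u = fderiv ℝ f (Rf p) (Rf u) :=
  congrArg (· u) (Rf.comp_right_fderiv (f := f))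

theorem rE_cd (h : ContDiffAt ℝ ∞ E (Rf p)) : ContDiffAt ℝ ∞ (rE E) p :=
  (h.comp p Rf.contDiff.contDiffAt).clm_comp contDiffAt_const

theorem fd_rE (h : ContDiffAt ℝ ∞ E (Rf p)) (u v : R4) :
    fderiv ℝ (rE E) p u v = fderiv ℝ E (Rf p) (Rf u) (Rf v) := by
  rw [← fd_ap0 (rE_cd h), ← fd_ap0 h, ← fd_rf]
  rfl

theorem rol_rf (R : Rol g D Ω c A b E) : Rol g D (Rf ⁻¹' Ω) (fun p => -Rf (c (Rf p)))
    (fun p => -((Rf : R4 →L[ℝ] R4) ∘L rE A p)) (fun p => b (Rf p)) (rE E) where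
  isOpen := R.isOpen.preimage Rf.continuous
  sb := R.sb.comp Rf.contDiff.contDiffOn fun _ a => a
  sE _ a := (rE_cd (R.sE.contDiffAt (R.isOpen.mem_nhds a))).contDiffWithinAt
  maps _ a := R.maps a
  on p a v w := (R.on _ a _ _).trans (by simp [mink, P354n.cu, P354n.cv, P354n.c1, P354n.c2, Rf_ap])
  db p a := by simp [fd_rf, Rf_eT, R.db _ a, rE, Rf_Rf]
  dE p a v := by
    have := R.dE _ a (Rf v)
    rw [fd_rE (R.sE.contDiffAt (R.isOpen.mem_nhds a))]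
    simp only [rE, Rf_eT, map_neg, neg_apply, ContinuousLinearMap.comp_apply,
      ContinuousLinearEquiv.coe_coe, Rf_Rf]
    rw [← this, ← neg_one_smul ℝ (E _ (c _)), Gm_smul1, neg_one_smul, neg_add]

theorem th_rf (u : R4) : th (fun p => b (Rf p)) (rE E) p u = Rf (th b E (Rf p) (Rf u)) := by
  simp [th, rE, fd_rf, Rf_symm]

theorem adp_rf (a : Adp Ω b E) : Adp (Rf ⁻¹' Ω) (fun p => b (Rf p)) (rE E) := fun x k v => by
  rw [mem_preimage, Rf_sp rfl] at k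
  rw [th_rf, Rf_sp (u := (0, x)) rfl, Rf_sp (u := (0, v)) rfl, Rf_ap, a x k, neg_zero]

theorem kk_rf (m : Met g D) (R : Rol g D Ω c A b E) (hp : p ∈ Ω) (z : p.1 = 0) (a : u.1 = 0)
    (a' : v.1 = 0) : kk g (fun p => b (Rf p)) (rE E) u v p = -kk g b E u v p := by
  have s := at_fd (R.sb.contDiffAt (R.isOpen.mem_nhds ((Rf_sp z).symm ▸ hp)))
  have := fd_rE s u v
  rw [← show fderiv ℝ (fun p => b (Rf p)) = rE (fderiv ℝ b) from
    funext fun _ => Rf.comp_right_fderiv (f := b)] at this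
  simp only [kk, this, fd_rf, Rf_sp z, Rf_sp a, Rf_sp a', rE, ContinuousLinearMap.comp_apply,
    ContinuousLinearEquiv.coe_coe, Rf_eT, map_neg]
  rw [m.symm _ (R.maps hp), (m.lin _ (R.maps hp) _).map_neg, m.symm _ (R.maps hp)]

theorem causal_norm (k : mink u u ≤ 0) (k' : 0 < u.1) : ‖u‖ ≤ u.1 := by
  simp only [mink, P354n.cu, P354n.cv, P354n.c1, P354n.c2] at k
  simp only [Prod.norm_def, max_le_iff, Real.norm_eq_abs, abs_le]
  refine ⟨⟨by linarith, le_rfl⟩, ⟨?_, ?_⟩, ⟨?_, ?_⟩, ?_, ?_⟩ <;>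
    nlinarith [mul_self_nonneg u.2.1, mul_self_nonneg u.2.2.1, mul_self_nonneg u.2.2.2]

theorem cv_le (i : Fin 4) (u : R4) : |cv i u| ≤ ‖u‖ := by
  fin_cases i <;> simp [cv, Prod.norm_def]

theorem norm_le_cv {r : ℝ} (k : ∀ i, |cv i u| ≤ r) : ‖u‖ ≤ r := by
  simpa [cv, Prod.norm_def] using And.intro (k 0) (And.intro (k 1) (And.intro (k 2) (k 3)))

/-- UNQ near a point of the slice. -/
theorem near (hU : UNQ) (L : Lv g D) (R : Rol g D Ω c A b E) (a : Adp Ω b E) (L' : Lv g' D')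
    (R' : Rol g' D' Ω' c A b' E') (a' : Adp Ω' b' E') (z : p.1 = 0) {P : R4 → L4}
    (cP : ContinuousAt P p) (pos : 0 < (P p eT).1)
    (hP : ∀ᶠ q in 𝓝 p, q ∈ Ω ∧ q ∈ Ω' ∧ Function.Injective (fderiv ℝ b q) ∧
      (∀ u, P q (th b E q u) = u) ∧ (∀ w, (P q w).1 = w.1 * (P q eT).1) ∧ (q.1 = 0 → ∀ i j : Fin 3,
        th b' E' q (bs i.succ) = th b E q (bs i.succ) ∧
        kk g' b' E' (bs i.succ) (bs j.succ) q = kk g b E (bs i.succ) (bs j.succ) q)) :
    ∀ᶠ q in 𝓝 p, 0 ≤ q.1 → th b' E' q = th b E q := by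
  obtain ⟨r, r0, hr⟩ := nhds_basis_closedBall.eventually_iff.1 (hP.and
    ((cP.norm.eventually_lt_const (lt_add_one _)).and
      ((cP.clm_apply continuousAt_const).fst.eventually_const_lt (half_lt_self pos))))
  set M := (‖P p‖ + 1) / ((P p eT).1 / 2)
  have M0 : 0 < M := by positivity
  let l : Fin 4 × Bool → R4 →L[ℝ] ℝ := fun k => if k.2 then cv k.1 else -cv k.1
  have l1 : ∀ k u, |l k u| ≤ ‖u‖ := fun k u => by
    rcases k with ⟨i, _ | _⟩ <;> simpa [l] using cv_le i u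
  let φ : Fin 4 × Bool → R4 → ℝ := fun k q => (l k + (M + 1) • cv 0) q - (l k p + r)
  have f1 : ∀ k q, φ k q = l k (q - p) + (M + 1) * q.1 - r := fun k q => by
    simp only [φ, map_sub, add_apply, smul_apply, smul_eq_mul, show cv 0 q = q.1 from rfl]
    ring
  have f2 : ∀ k q u, fderiv ℝ (φ k) q u = l k u + (M + 1) * u.1 := fun k q u => by
    rw [((l k + (M + 1) • cv 0).hasFDerivAt.sub_const _).fderiv]
    rfl
  have s : ∀ T, lens φ T ⊆ closedBall p r := fun T q k =>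
    mem_closedBall_iff_norm.2 (norm_le_cv fun i => by
      have k1 := k.2 (i, true)
      have k2 := k.2 (i, false)
      have := mul_nonneg (by positivity : 0 ≤ M + 1) k.1.1
      simp only [f1, l, if_true, Bool.false_eq_true, if_false, neg_apply] at k1 k2
      exact abs_le.2 ⟨by linarith, by linarith⟩)
  have e := hU _ φ g D Ω c A b E (closedBall p r) r g' D' Ω' b' E' L.isOpen L.met L.vac R
    ⟨isCompact_closedBall _ _, s r, fun q k => (hr k).1.1, fun k => by fun_prop,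
      fun q k => (hr k).1.2.2.1, fun q _ k => ?_, fun q k u k1 k2 => ?_⟩ a L'.isOpen L'.met L'.vac R'
    (fun q k => (hr (s r k)).1.2.1) a'
    fun q k => (hr (s 0 k)).1.2.2.2.2.2 (le_antisymm k.1.2 k.1.1)
  · filter_upwards [ball_mem_nhds p (show 0 < r / (M + 2) by positivity)] with q k q0
    rw [mem_ball_iff_norm, lt_div_iff₀ (by positivity)] at k
    have n : q.1 ≤ ‖q - p‖ := by simpa [cv, z] using (le_abs_self _).trans (cv_le 0 (q - p))
    refine e q ⟨⟨q0, by nlinarith [norm_nonneg (q - p)]⟩, fun k => ?_⟩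
    rw [f1]
    nlinarith [(abs_le.1 (l1 k (q - p))).2]
  · have := (abs_le.1 (l1 k eT)).1
    rw [norm_eT] at this
    rw [f2, show eT.1 = 1 from rfl]
    linarith
  · obtain ⟨⟨-, -, -, b1, b2, -⟩, b3, b4⟩ := hr k
    have u1 := b2 (th b E q u)
    have u2 := (P q).le_of_opNorm_le_of_le b3.le (causal_norm k1 k2)
    rw [b1] at u1 u2
    have u3 : (P p eT).1 / 2 * (th b E q u).1 < u.1 := by nlinarith
    have u0 : 0 < u.1 := (mul_pos (half_pos pos) k2).trans u3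
    have u4 : ‖u‖ ≤ M * u.1 := u2.trans (by
      rw [div_mul_eq_mul_div, le_div_iff₀ (half_pos pos), mul_assoc]
      exact mul_le_mul_of_nonneg_left (by linarith) (by positivity))
    refine ⟨u0, fun i => ?_⟩
    rw [f2]
    linarith [(abs_le.1 (l1 i u)).1]

/-- Geometric uniqueness near a point of the slice t = 0. -/
theorem gu0 (hR : ROLL) (hU : UNQ) (L : Lv g D) (L' : Lv g' D') (z : p.1 = 0) (hp : p ∈ Og g D)
    (hp' : p ∈ Og g' D') (I : ∀ᶠ q in 𝓝 p, In0 g d (xs q) ∧ In0 g' d (xs q)) :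
    ∃ W b, p ∈ W ∧ Pull b g W g' D' ∧ (∀ q ∈ W, q.1 = 0 → b q = q) ∧
      0 < (fderiv ℝ b p eT).1 := by
  obtain ⟨Ω, b, E, R, S, s1, -, s2, -⟩ := exists_roll hR L.isOpen L.met L'.isOpen L'.met
  have m : p ∈ Ω := by rw [z_eq z] at hp hp' ⊢; exact s2 _ hp hp'
  have o := st_open (og_open L.isOpen L.met)
  have S0 := bs_id L.isOpen L.met o (st_sub _)
  have R0 := rol_id L.isOpen L.met o (st_sub _)
  have n := R.isOpen.mem_nhds m
  have cE := EE_cd L.isOpen L.met hp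
  have iv := fun q (k : q ∈ Ω) => (EE_inv L.isOpen L.met (st_sub _ (s1 k))).self_apply_inverse
  have e1 := near hU L R0 S0.adp L' R S.adp z cE.continuousAt (fr_pos hp.2) (by
    filter_upwards [n, I] with q k1 k2
    exact ⟨s1 k1, k1, by rw [fderiv_id]; exact Function.injective_id, fun u => by
      rw [th_id, iv q k1], fr_fst, fun z => base_eq S0 S (s1 k1) k1 z k2.1 k2.2⟩)
  have t : Tendsto Rf (𝓝 p) (𝓝 p) := by simpa [Rf_sp z] using Rf.continuous.tendsto p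
  have pf : ∀ q w, (((Rf : R4 →L[ℝ] R4) ∘L rE (EE g) q) w).1 = w.1 * (fr (tb g (Rf q)) eT).1 :=
    fun q w => (congrArg Neg.neg (fr_fst (Rf w))).trans (by simp [Rf_ap])
  have e2 := near hU L (rol_rf R0) (adp_rf S0.adp) L' (rol_rf R) (adp_rf S.adp) z
    (P := fun q => (Rf : R4 →L[ℝ] R4) ∘L rE (EE g) q)
    (contDiffAt_const.clm_comp (rE_cd ((Rf_sp z).symm ▸ cE))).continuousAt
    (by rw [pf, Rf_sp z]; exact mul_pos one_pos (fr_pos hp.2)) (by
      filter_upwards [t.eventually n, I] with q k1 k2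
      refine ⟨s1 k1, k1, (Rf.fderiv (x := q)).symm ▸ Rf.injective, fun u => by
        rw [th_rf, th_id]; simp [rE, Rf_Rf, iv _ k1], fun w => ?_, fun z i j => ?_⟩
      · rw [pf, pf, show eT.1 = 1 from rfl, one_mul]
      · have y : ∀ i : Fin 3, (bs i.succ).1 = 0 := fun i => by rw [bs_pt]; rfl
        rw [Rf_sp z] at k1
        have := base_eq S0 S (s1 k1) k1 z k2.1 k2.2 i j
        rw [th_rf, th_rf, kk_rf L.met R0 (s1 k1) z (y i) (y j), kk_rf L'.met R k1 z (y i) (y j),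
          Rf_sp z, Rf_sp (y i), this.1, this.2]
        exact ⟨rfl, rfl⟩)
  have e : ∀ᶠ q in 𝓝 p, q ∈ Ω ∧ th b E q = th id (EE g) q := by
    filter_upwards [n, e1, t.eventually e2] with q k0 k1 k2
    refine ⟨k0, (le_total 0 q.1).elim k1 fun k => ContinuousLinearMap.ext fun u => ?_⟩
    have := congrArg (· (Rf u)) (k2 (neg_nonneg.2 k))
    simpa only [th_rf, Rf_Rf, Rf.injective.eq_iff] using this
  obtain ⟨W, W1, W2, W3⟩ := _root_.eventually_nhds_iff.1 e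
  have is := fun q k => iso_eq L.isOpen L.met L'.met R.toFr (W1 q k).1 (st_sub _ (s1 (W1 q k).1))
    (W1 q k).2
  refine ⟨W, b, W3, ⟨W2, L'.isOpen, L'.met, R.sb.mono fun q k => (W1 q k).1,
    fun q k => R.maps (W1 q k).1, fun q k => (injective_iff_map_eq_zero _).2 fun u a =>
      L.met.nondeg q (st_sub _ (s1 (W1 q k).1)).1 u fun w => ?_, is⟩,
    fun q k z => by have := (W1 q k).1; rw [z_eq z] at this ⊢; exact (S.eq _ this).1, ?_⟩
  · rw [is q k, a, L'.met.symm _ (R.maps (W1 q k).1), (L'.met.lin _ (R.maps (W1 q k).1) _).map_zero]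
  · have := (W1 p W3).2
    rw [z_eq z] at this m hp ⊢
    exact db_fst L.isOpen L.met S m hp this

/-! ### Charts adapted to the slice -/

/-- The space part as a linear map. -/
def xsL : R4 →L[ℝ] X := ∑ i : Fin 3, (cv i.succ).smulRight (ee i)
def ptL : X →L[ℝ] R4 := ∑ i : Fin 3, (EuclideanSpace.proj i).smulRight (bs i.succ)

theorem xsL_eq : xs = xsL := by
  ext p i
  fin_cases i <;> simp [xsL, xs, Fin.sum_univ_three, cv, ee]

theorem ptL_eq : pt 0 = ptL := by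
  ext1 y
  simp [ptL, pt, Fin.sum_univ_three, bs]

theorem in0_of {y : X} (h : Lor g D fun _ => eT) (hp : pt 0 y ∈ D)
    (I : IndAt g (fun _ => eT) (pt 0) d y) (hd : (d.h y).PosDef) :
    In0 g d y ∧ pt 0 y ∈ Og g D := by
  have r := rp_tb h.isOpen h.met
  obtain ⟨m, -, -, S⟩ := I.sp h hp hd
  obtain ⟨G, n, c, n1, n2, k⟩ := I
  have e : ∀ i, pd i (pt 0) = fun _ => pt 0 (ee i) := fun i => by
    rw [ptL_eq]
    exact funext fun z => congrArg (· (ee i)) ptL.fderiv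
  simp only [e, P354XK.pd_const, zero_add] at k
  refine ⟨⟨n, n1, ?_, fun i j => ⟨(k i j).1, (k i j).2.1, ?_⟩⟩, hp,
    mem_UU (r.symm _ hp) (fun v v0 a => ?_) (r.eq _ hp _ _ ▸ h.tl _ hp)⟩
  · have z : tb g (pt 0 y) (n - n.1 • eT) n = 0 := by
      rw [sp_sum (u := n - n.1 • eT) (by simp [eT])]
      simp [← r.eq _ hp, bs_pt, fun i => (k i i).1]
    rw [map_sub, map_smul, sub_apply, smul_apply, ← r.eq _ hp, n1, r.symm _ hp, ← r.eq _ hp,
      smul_eq_mul] at z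
    nlinarith
  · rw [← (k i j).2.2, (r.conn hp).1 c, r.chr hp, ← r.gm hp, r.eq _ hp, r.symm _ hp]
  · have := S.pos (xs v) fun b => v0 (by rw [z_eq a]; exact (congrArg (pt 0) b).trans (by simp [pt]))
    rwa [ptL_eq, ptL.fderiv, ← ptL_eq, r.eq _ hp, show pt 0 (xs v) = v from (z_eq a).symm] at this

theorem Is.symm {X1 X2 S T : R4 → R4} (a : Is g X1 g' X2 S p) (hT : ContDiffAt ℝ ∞ T (S p))
    (e : T (S p) = p) (e' : ∀ᶠ q in 𝓝 (S p), S (T q) = q) (s : ∀ u v, g' (S p) u v = g' (S p) v u) :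
    Is g' X2 g X1 T (S p) := by
  have k : ∀ u, fderiv ℝ S p (fderiv ℝ T (S p) u) = u := fun u => by
    have := fd_comp (e.symm ▸ a.1) hT u
    rw [EventuallyEq.fderiv_eq (f := id) e', fderiv_id, e] at this
    exact this.symm
  exact ⟨hT, fun u v => by rw [e, a.2.1, k, k], by rw [e, a.2.1, k, s]; exact a.2.2⟩

theorem og_cone (hD : IsOpen D) (m : Met g D) (hp : p ∈ Og g D) (a : g p u u < 0) (a' : g p v v < 0)
    (c : 0 < u.1) (c' : 0 < v.1) : g p u v < 0 := by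
  obtain ⟨u, rfl⟩ := (EE_inv hD m hp).surjective u
  obtain ⟨v, rfl⟩ := (EE_inv hD m hp).surjective v
  rw [EE_on hD m hp] at a a' ⊢
  rw [EE, fr_fst] at c c'
  exact P354YO.mink_neg a a'.le (mul_pos (pos_of_mul_pos_left c (fr_pos hp.2).le)
    (pos_of_mul_pos_left c' (fr_pos hp.2).le))

/-- A chart in which the slice is t = 0. -/
theorem chart {Xf : R4 → R4} {J : X → R4} {O : Set X} {y : X} (h : Lor g D Xf) (hO : IsOpen O)
    (hy : y ∈ O) (hJ : ContDiffOn ℝ ∞ J O)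
    (k : ∀ z ∈ O, J z ∈ D ∧ (d.h z).PosDef ∧ IndAt g Xf J d z) :
    ∃ W S T, Lor (pb S g) W (fun _ => eT) ∧ pt 0 y ∈ Og (pb S g) W ∧ (∀ z, S (pt 0 z) = J z) ∧
      (∀ p ∈ W, S p ∈ D ∧ Is (pb S g) (fun _ => eT) g Xf S p) ∧
      (∀ᶠ q in 𝓝 (J y), q ∈ D ∧ T q ∈ W ∧ Is g Xf (pb S g) (fun _ => eT) T q) ∧
      (∀ᶠ z in 𝓝 y, T (J z) = pt 0 z) ∧ ∀ᶠ p in 𝓝 (pt 0 y), In0 (pb S g) d (xs p) := by
  obtain ⟨m, pd, I⟩ := k y hy
  obtain ⟨n, -, n2, Q⟩ := I.sp h m pd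
  set v := Xf (J y)
  let S : R4 → R4 := fun p => J (xs p) + p.1 • v
  have S0 : ∀ z, S (pt 0 z) = J z := fun z => by simp [S, P354XJ.xs_pt, show (pt 0 z).1 = 0 from rfl]
  have cx : ContDiff ℝ ∞ xs := xsL_eq ▸ xsL.contDiff
  have sm : ∀ p, xs p ∈ O → ContDiffAt ℝ ∞ S p ∧
      ∀ u, fderiv ℝ S p u = fderiv ℝ J (xs p) (xs u) + u.1 • v := fun p a => by
    have j := hJ.contDiffAt (hO.mem_nhds a)
    refine ⟨(j.comp p cx.contDiffAt).add (contDiffAt_fst.smul contDiffAt_const), fun u => ?_⟩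
    have := (((j.differentiableAt (by simp)).hasFDerivAt.comp p
      (xsL_eq ▸ xsL.hasFDerivAt (x := p))).add (hasFDerivAt_fst.smul_const v)).fderiv
    rw [show fderiv ℝ S p = _ from this, xsL_eq]
    rfl
  have y0 : xs (pt 0 y) ∈ O := by rwa [P354XJ.xs_pt]
  obtain ⟨s1, s2⟩ := sm _ y0
  have i : Function.Injective (fderiv ℝ S (pt 0 y)) :=
    (LinearMap.injective_iff_surjective (f := (fderiv ℝ S (pt 0 y)).toLinearMap)).2 fun w => by
      obtain ⟨⟨z, s⟩, rfl⟩ := Q.surj n2.ne w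
      exact ⟨pt s z, (s2 _).trans (by rw [P354XJ.xs_pt, P354XJ.xs_pt]; rfl)⟩
  obtain ⟨A, hA⟩ := inv_of i
  have st : HasStrictFDerivAt S (A : R4 →L[ℝ] R4) (pt 0 y) := hA ▸ s1.hasStrictFDerivAt (by simp)
  have t : Tendsto S (𝓝 (pt 0 y)) (𝓝 (J y)) := S0 y ▸ s1.continuousAt
  have c := fun {w : R4 → R4} (a : ContinuousAt w (J y)) (o : g (J y) v (w (J y)) < 0) =>
    t.eventually ((P354YO.met_cont h.met h.isOpen m continuousAt_const a).eventually
      (gt_mem_nhds o))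
  obtain ⟨W, W1, W2, W3⟩ := _root_.eventually_nhds_iff.1
    (((cx.continuous.continuousAt.eventually_mem (hO.mem_nhds y0)).and
      (t.eventually_mem (h.isOpen.mem_nhds m))).and ((st.eventually_left_inverse.and
      ((ContinuousLinearMap.continuous_det.continuousAt.comp (at_fd s1).continuousAt).eventually_ne
        fun a => LinearMap.det_eq_zero_iff_ker_ne_bot.1 a (LinearMap.ker_eq_bot.2 i))).and
      ((c continuousAt_const (h.tl _ m)).and
        (c (h.cont.continuousAt (h.isOpen.mem_nhds m)) (h.tl _ m)))))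
  have ev : ∀ p ∈ W, fderiv ℝ S p eT = v := fun p a => by
    rw [(sm p (W1 p a).1.1).2, xsL_eq]
    simp [xsL, eT, Fin.sum_univ_three, cv]
  have P : Pull S (pb S g) W g D := ⟨W2, h.isOpen, h.met,
    fun p a => (sm p (W1 p a).1.1).1.contDiffWithinAt, fun p a => (W1 p a).1.2,
    fun p a => LinearMap.ker_eq_bot.1 (by
      by_contra b
      exact (W1 p a).2.1.2 (LinearMap.det_eq_zero_iff_ker_ne_bot.2 b)), fun _ _ _ _ => rfl⟩
  have l := Lv.pull ⟨h.isOpen, h.met, h.vac, h.sig⟩ P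
  have h' : Lor (pb S g) W fun _ => eT := ⟨W2, l.met, l.vac, l.sig,
    fun p a => by rw [P354XE.pb, ev p a]; exact (W1 p a).2.2.1, continuousOn_const⟩
  have is : ∀ p ∈ W, S p ∈ D ∧ Is (pb S g) (fun _ => eT) g Xf S p := fun p a =>
    ⟨P.maps a, p_at P a, P.eq p a, by rw [ev p a]; exact (W1 p a).2.2.2⟩
  obtain ⟨T, T1, T2, T3⟩ := P354YO.exists_inv W2 P.smooth
    (LeftInvOn.injOn fun p a => (W1 p a).2.1.1) P.inj
  have nb : ∀ p ∈ W, S '' W ∈ 𝓝 (S p) := fun p a => T3 p a ▸ image_mem_map (W2.mem_nhds a)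
  have it : ∀ q ∈ S '' W, q ∈ D ∧ T q ∈ W ∧ Is g Xf (pb S g) (fun _ => eT) T q := by
    rintro _ ⟨p, a, rfl⟩
    refine ⟨P.maps a, by rwa [T1 p a], (is p a).2.symm (T2.contDiffAt (nb p a)) (T1 p a)
      (mem_of_superset (nb p a) ?_) (h.met.symm _ (P.maps a))⟩
    rintro _ ⟨p, a, rfl⟩
    exact congrArg S (T1 p a)
  have cp : Continuous (pt 0) := ptL_eq ▸ ptL.continuous
  have tj : ∀ z, pt 0 z ∈ W → ∀ᶠ z in 𝓝 z, T (J z) = pt 0 z := fun z a =>
    (cp.continuousAt.eventually_mem (W2.mem_nhds a)).mono fun z a => S0 z ▸ T1 _ a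
  have i0 : ∀ z, pt 0 z ∈ W → In0 (pb S g) d z ∧ pt 0 z ∈ Og (pb S g) W := fun z a => by
    have z0 : z ∈ O := P354XJ.xs_pt 0 z ▸ (W1 _ a).1.1
    have z1 : J z ∈ S '' W := ⟨_, a, S0 z⟩
    exact in0_of h' a (IndAt.pull h h' (pull_of h h' (W := S '' W)
      (isOpen_iff_mem_nhds.2 fun _ ⟨p, a, e⟩ => e ▸ nb p a) it) (k z z0).1 z1 (it _ z1).2.2.2.2 (hJ.contDiffAt (hO.mem_nhds z0)) (tj z a)
      (k z z0).2.2) (k z z0).2.1
  refine ⟨W, S, T, h', (i0 y W3).2, S0, is, mem_of_superset (S0 y ▸ nb _ W3) it, tj y W3, ?_⟩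
  exact ((cp.comp cx.continuous).continuousAt.eventually_mem (W2.mem_nhds
    (show pt 0 (xs (pt 0 y)) ∈ W from W3))).mono fun p a => (i0 _ a).1

/-- **GU.** -/
theorem gu_of (hR : ROLL) (hU : UNQ) : GU := by
  intro g g' D D' Xf Xf' J J' d O h h' hd hO s sJ sJ' m m' I y hy
  obtain ⟨W, S, T, a1, a2, -, -, a5, a6, a7⟩ := chart h hO hy sJ fun z k =>
    ⟨m k, (hd.2 z (s k)).1, (I z k).1⟩
  obtain ⟨W', S', -, b1, b2, b3, b4, -, -, b7⟩ := chart h' hO hy sJ' fun z k =>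
    ⟨m' k, (hd.2 z (s k)).1, (I z k).2⟩
  obtain ⟨V, b, c1, P, c2, c3⟩ := gu0 hR hU ⟨a1.isOpen, a1.met, a1.vac, a1.sig⟩
    ⟨b1.isOpen, b1.met, b1.vac, b1.sig⟩ rfl a2 b2 (a7.and b7)
  have sb := p_at P c1
  have c := P354XJ.g_cont (P354XJ.one_sp b1) (e := (⟨_, b2.1⟩ : W')) (p := b)
    (a := fun p => fderiv ℝ b p eT) (b := fun _ => eT) (P354XJ.one_tgt.symm.subset (P.maps c1))
    sb.continuousAt ((at_fd sb).continuousAt.clm_apply continuousAt_const) continuousAt_const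
  have o : pb S' g' (b (pt 0 y)) (fderiv ℝ b (pt 0 y) eT) eT < 0 := by
    have := P.eq _ c1 eT eT ▸ a1.tl _ a2.1
    rw [c2 _ c1 rfl] at this ⊢
    exact og_cone b1.isOpen b1.met b2 this (b1.tl _ b2.1) c3 one_pos
  have t : Tendsto T (𝓝 (J y)) (𝓝 (pt 0 y)) :=
    a6.self_of_nhds ▸ a5.self_of_nhds.2.2.1.continuousAt
  obtain ⟨U, U1, U2, U3⟩ := _root_.eventually_nhds_iff.1 (a5.and
    (t.eventually ((c.eventually (gt_mem_nhds o)).and (P.open'.mem_nhds c1))))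
  have is : ∀ q ∈ U, q ∈ D ∧ S' (b (T q)) ∈ D' ∧ Is g Xf g' Xf' (fun q => S' (b (T q))) q :=
    fun q k => by
      obtain ⟨⟨k1, k2, k3⟩, k4, k5⟩ := U1 q k
      obtain ⟨k6, k7⟩ := b4 _ (P.maps k5)
      exact ⟨k1, k6, Is.comp h b1 h' k1 (P.maps k5) k6
        (Is.comp h a1 b1 k1 k2 (P.maps k5) k3 ⟨p_at P k5, P.eq _ k5, k4⟩) k7⟩
  have e : ∀ᶠ z in 𝓝 y, S' (b (T (J z))) = J' z := by
    filter_upwards [a6, (ptL_eq ▸ ptL.continuous : Continuous (pt 0)).continuousAt.eventually_mem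
      (P.open'.mem_nhds c1)] with z k1 k2
    rw [k1, c2 _ k2 rfl, b3]
  exact ⟨U, _, U3, fun q k => (is q k).1, pull_of h h' U2 is,
    e.self_of_nhds ▸ (is _ U3).2.2.2.2, e⟩

end Vale.Agent.P354YC
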