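import Vale.Agent.P354XU.Defs

/-!
UNQ: uniqueness for two rollings with the same data.
-/

open scoped ContDiff
open Set Filter Topology

namespace Vale.Agent.P354YC

open Vale.Agent.P354n (R4)
open Vale.Agent.P354R (Met Vac)
open Vale.Agent.P354RC (bs)
open Vale.Agent.P354H (X3)
open Vale.Agent.P354XU

/-- UNQ: CSU for the difference zero. -/
def UNQ : Prop :=
  ∀ (ι : Type) [Fintype ι] (φ : ι → R4 → ℝ) g D Ω c A b E K T g' D' Ω' b' E',
    IsOpen D → Met g D → Vac g D → Rol g D Ω c A b E → Dep φ K Ω T b E → Adp Ω b E →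
    IsOpen D' → Met g' D' → Vac g' D' → Rol g' D' Ω' c A b' E' → lens φ T ⊆ Ω' → Adp Ω' b' E' →
    (∀ p ∈ lens φ 0, ∀ i j : Fin 3, th b' E' p (bs i.succ) = th b E p (bs i.succ) ∧
      kk g' b' E' (bs i.succ) (bs j.succ) p = kk g b E (bs i.succ) (bs j.succ) p) →
    ∀ p ∈ lens φ T, th b' E' p = th b E p

theorem unq_of (h : CSU) : UNQ := by
  intro ι _ φ g D Ω c A b E K T g' D' Ω' b' E' a1 a2 a3 a4 a5 a6 b1 b2 b3 b4 b5 b6 e p hp
  refine sub_eq_zero.1 (norm_le_zero_iff.1 (le_of_forall_pos_le_add fun ε ε0 => ?_))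
  obtain ⟨m, δ, δ0, k⟩ := h ι φ g D Ω c A b E K T a1 a2 a3 a4 a5 a6 0 ε ε0
  have z : ∀ {V : Type} [NormedAddCommGroup V] [NormedSpace ℝ V] {f : X3 → V},
      (∀ x, (0, x) ∈ lens φ 0 → f x = 0) → ∀ q ∈ lens φ 0, Jt m f q.2 δ :=
    fun {V} _ _ f hf q hq j _ => by
      have q0 : q = (0, q.2) := Prod.ext (le_antisymm hq.1.2 hq.1.1) rfl
      have : f =ᶠ[𝓝 q.2] fun _ => 0 := by
        filter_upwards [eventually_all.2 fun i => (((a5.sm i).continuous.comp
          (Continuous.prodMk_right 0)).continuousAt (x := q.2)).eventually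
            (gt_mem_nhds (show φ i (0, q.2) < 0 from q0 ▸ hq.2 i))] with x hx
        exact hf x ⟨⟨le_rfl, le_rfl⟩, hx⟩
      rw [(this.iteratedFDeriv ℝ j).eq_of_nhds]
      simpa using δ0.le
  simpa using (k T le_rfl g' D' Ω' b' E' b1 b2 b3 b4 b5 b6 (fun q hq i j =>
    ⟨z (fun x hx => sub_eq_zero.2 (e _ hx i j).1) q hq,
      z (fun x hx => sub_eq_zero.2 (e _ hx i j).2) q hq⟩) p hp).th 0 le_rfl

end Vale.Agent.P354YC
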