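import Vale.Agent.P354YC.Fr
import Vale.Agent.P354YC.Unq
import Vale.Agent.P354XV.Defs

/-!
The rolling of a metric along the identity map with the frame of Gram and Schmidt.
-/

set_option maxSynthPendingDepth 3

open scoped ContDiff
open Set Filter Topology Metric

noncomputable section

namespace Vale.Agent.P354YC

open Vale.Agent.P354n (R4 mink)
open Vale.Agent.P354I (X Dat ee)
open Vale.Agent.P354R (Met Vac chr)
open Vale.Agent.P354RC
open Vale.Agent.P354XD (tb rp_tb dh_eq)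
open Vale.Agent.P354XE (Tw eT pt xs)
open Vale.Agent.P354H (X3)
open Vale.Agent.P354XU
open Vale.Agent.P354XV (In0)

/-- The connection as a linear map in the second vector. -/
def GmL (h : R4 → B2) (y a : R4) : L4 :=
  (h y).inverse ∘L ((1 / 2 : ℝ) • (fderiv ℝ h y a + (fderiv ℝ h y).flip a -
    ((fderiv ℝ h y).flip a).flip))

theorem GmL_ap (h : R4 → B2) (y a b : R4) : GmL h y a b = Gm h y a b := rfl

/-- The frame, the velocity and the connection form along d/dt, and the domain. -/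
def EE (g : Tw) (p : R4) : L4 := fr (tb g p)
def cc (g : Tw) (p : R4) : R4 := (EE g p).inverse eT
def AA (g : Tw) (p : R4) : L4 :=
  (EE g p).inverse ∘L (fderiv ℝ (EE g) p eT + GmL (tb g) p eT ∘L EE g p)
def Og (g : Tw) (D : Set R4) : Set R4 := D ∩ tb g ⁻¹' UU

/-- The points whose vertical segments to the slice are in S. -/
def st (S : Set R4) : Set R4 := {p | ∀ s ∈ uIcc 0 p.1, (s, p.2) ∈ S}

theorem st_sub (S : Set R4) : st S ⊆ S := fun p a => a p.1 right_mem_uIcc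

theorem st_star (S : Set R4) : P354XU.Star (st S) := fun _ a _ b t c =>
  a t (uIcc_subset_uIcc_left b c)

theorem st_open {S : Set R4} (hS : IsOpen S) : IsOpen (st S) := by
  refine isOpen_iff_mem_nhds.2 fun p a => ?_
  have e : ∀ q : R4, ∀ s ∈ uIcc 0 q.1, ∃ t ∈ Icc (0 : ℝ) 1, s = t * q.1 := fun q s b => by
    rw [← segment_eq_uIcc, segment_eq_image] at b
    obtain ⟨t, c, rfl⟩ := b
    exact ⟨t, c, by simp⟩
  filter_upwards [(isCompact_Icc (a := (0 : ℝ)) (b := 1)).eventually_forall_of_forall_eventually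
    (x₀ := p) (P := fun q t => (t * q.1, q.2) ∈ S) fun t b =>
      ContinuousAt.eventually_mem (f := fun z : R4 × ℝ => (z.2 * z.1.1, z.1.2)) (by fun_prop)
        (hS.mem_nhds (a _ (by
          rw [← segment_eq_uIcc, segment_eq_image]
          exact ⟨t, b, by simp⟩)))] with q k s b
  obtain ⟨t, c, rfl⟩ := e q s b
  exact k t c

variable {g g' : Tw} {D D' Ω Ω' U : Set R4} {p u v : R4} {b b' c : R4 → R4} {E E' A : R4 → L4}
  {d : Dat}

theorem Fr.inv (m : Met g D) (F : Fr g D Ω b E) (hp : p ∈ Ω) : (E p).IsInvertible :=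
  on_inv (fun w => (m.symm _ (F.maps hp) _ _).trans (m.lin _ (F.maps hp) w).map_zero) (F.on p hp)

section
variable (hD : IsOpen D) (m : Met g D)
include hD m

theorem og_open : IsOpen (Og g D) := (rp_tb hD m).sm.continuousOn.isOpen_inter_preimage hD UU_open

theorem EE_cd (hp : p ∈ Og g D) : ContDiffAt ℝ ∞ (EE g) p :=
  (fr_cd hp.2).1.comp p ((rp_tb hD m).at hp.1)

theorem EE_inv (hp : p ∈ Og g D) : (EE g p).IsInvertible := fr_inv ((rp_tb hD m).symm p hp.1) hp.2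

theorem EE_on (hp : p ∈ Og g D) (v w : R4) : g p (EE g p v) (EE g p w) = mink v w :=
  ((rp_tb hD m).eq p hp.1 _ _).trans (fr_on ((rp_tb hD m).symm p hp.1) hp.2 v w)

theorem EEi_cd (hp : p ∈ Og g D) : ContDiffAt ℝ ∞ (fun p => (EE g p).inverse) p :=
  (EE_inv hD m hp).contDiffAt_map_inverse.comp p (EE_cd hD m hp)

theorem cc_cd (hp : p ∈ Og g D) : ContDiffAt ℝ ∞ (cc g) p :=
  (EEi_cd hD m hp).clm_apply contDiffAt_const

theorem AA_cd (hp : p ∈ Og g D) : ContDiffAt ℝ ∞ (AA g) p := by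
  have r := rp_tb hD m
  have k := at_fd (r.at hp.1)
  exact (EEi_cd hD m hp).clm_comp (((at_fd (EE_cd hD m hp)).clm_apply contDiffAt_const).add
    (((r.inv_cd hp.1).clm_comp ((((k.clm_apply contDiffAt_const).add
      ((at_flip k).clm_apply contDiffAt_const)).sub
        (at_flip ((at_flip k).clm_apply contDiffAt_const))).const_smul _)).clm_comp
      (EE_cd hD m hp)))

theorem EE_AA (hp : p ∈ Og g D) (v : R4) :
    EE g p (AA g p v) = fderiv ℝ (EE g) p eT v + Gm (tb g) p eT (EE g p v) :=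
  (EE_inv hD m hp).self_apply_inverse _

theorem AA_skew (hp : p ∈ Og g D) (v w : R4) : mink (AA g p v) w + mink v (AA g p w) = 0 := by
  have r := rp_tb hD m
  have k := fun v : R4 => (EE_cd hD m hp).clm_apply (contDiffAt_const (c := v))
  have e : (fun z => tb g z (EE g z v) (EE g z w)) =ᶠ[𝓝 p] fun _ => mink v w :=
    mem_of_superset ((og_open hD m).mem_nhds hp) fun z a => fr_on (r.symm z a.1) a.2 v w
  have := fd_ap ((r.at hp.1).clm_apply (k v)) (k w) eT
  rw [e.fderiv_eq, fd_ap (r.at hp.1) (k v), fd_ap0 (EE_cd hD m hp), fd_ap0 (EE_cd hD m hp),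
    add_apply, dh_eq r hp.1] at this
  rw [← EE_on hD m hp, ← EE_on hD m hp, EE_AA hD m hp, EE_AA hD m hp, r.eq p hp.1, r.eq p hp.1]
  simp only [map_add, add_apply]
  simp only [fderiv_fun_const, Pi.zero_apply, zero_apply] at this
  linarith

theorem rol_id (hU : IsOpen U) (s : U ⊆ Og g D) : Rol g D U (cc g) (AA g) id (EE g) where
  isOpen := hU
  sb := contDiffOn_id
  sE _ a := (EE_cd hD m (s a)).contDiffWithinAt
  maps _ a := (s a).1
  on _ a := EE_on hD m (s a)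
  db p a := by rw [fderiv_id, cc, (EE_inv hD m (s a)).self_apply_inverse]; rfl
  dE p a v := by rw [cc, (EE_inv hD m (s a)).self_apply_inverse, EE_AA hD m (s a)]; rfl

end

/-- On the slice, b is the identity and E is the frame of Gram and Schmidt. -/
structure Bs (g : Tw) (D Ω : Set R4) (b : R4 → R4) (E : R4 → L4) : Prop where
  op : IsOpen D
  met : Met g D
  fr : Fr g D Ω b E
  eq : ∀ x, (0, x) ∈ Ω → b (0, x) = (0, x) ∧ E (0, x) = EE g (0, x) ∧ (0, x) ∈ Og g D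

theorem exists_roll (hR : ROLL) (hD : IsOpen D) (m : Met g D) (hD' : IsOpen D') (m' : Met g' D') :
    ∃ Ω b E, Rol g' D' Ω (cc g) (AA g) b E ∧ Bs g' D' Ω b E ∧ Ω ⊆ st (Og g D) ∧ P354XU.Star Ω ∧
      (∀ x, (0, x) ∈ Og g D → (0, x) ∈ Og g' D' → (0, x) ∈ Ω) ∧
      ∀ p ∈ st (Og g D), (0, p.2) ∈ Og g' D' → ∀ K ⊆ D', IsCompact K → ∀ C,
        (∀ s ∈ uIcc 0 p.1, (s, p.2) ∈ Ω → b (s, p.2) ∈ K ∧ ‖E (s, p.2)‖ ≤ C) → p ∈ Ω := by
  have o := st_open (og_open hD m)
  have c : ContDiff ℝ ∞ fun x : X3 => ((0, x) : R4) := by fun_prop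
  obtain ⟨Ω, b, E, a1, a2, a3, a4, a5, a6⟩ := hR g' D' _ (cc g) (AA g)
    {x | (0, x) ∈ st (Og g D) ∩ Og g' D'} (fun x => (0, x)) (fun x => EE g' (0, x)) hD' m' o
    (st_star _) (fun _ a => (cc_cd hD m (st_sub _ a)).contDiffWithinAt)
    (fun _ a => (AA_cd hD m (st_sub _ a)).contDiffWithinAt) (fun _ a => AA_skew hD m (st_sub _ a))
    ((o.inter (og_open hD' m')).preimage c.continuous) c.contDiffOn
    (ContDiffOn.comp (g := EE g') (fun _ a => (EE_cd hD' m' a).contDiffWithinAt) c.contDiffOn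
      fun _ a => a.2)
    fun x a => ⟨a.1, a.2.1, EE_on hD' m' a.2⟩
  refine ⟨Ω, b, E, a1, ⟨hD', m', a1.toFr, fun x a =>
    ⟨(a5 x (a4 _ a)).2.1, (a5 x (a4 _ a)).2.2, (a4 _ a).2⟩⟩, a2, a3, fun x k k' =>
    (a5 x ⟨fun s a => ?_, k'⟩).1, fun p a k => a6 p a ⟨st_star _ p a 0 left_mem_uIcc, k⟩⟩
  rwa [show s = 0 by simpa using a]

theorem bs_id (hD : IsOpen D) (m : Met g D) (hU : IsOpen U) (s : U ⊆ Og g D) :
    Bs g D U id (EE g) :=
  ⟨hD, m, (rol_id hD m hU s).toFr, fun _ a => ⟨rfl, rfl, s a⟩⟩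

theorem z_eq (a : p.1 = 0) : p = (0, p.2) := Prod.ext a rfl

theorem fd_slice {F : Type} [NormedAddCommGroup F] [NormedSpace ℝ F] {f : R4 → F} {k : X3 → F}
    {x : X3} (hf : ContDiffAt ℝ ∞ f (0, x)) (e : ∀ᶠ z in 𝓝 x, f (0, z) = k z) (a : u.1 = 0) :
    fderiv ℝ f (0, x) u = fderiv ℝ k x u.2 := by
  rw [← EventuallyEq.fderiv_eq e, z_eq a]
  exact congrArg (· u.2) ((at_df hf).hasFDerivAt.comp x (hasFDerivAt_prodMk_right 0 x)).fderiv.symm

namespace Bs
variable (B : Bs g D Ω b E) {x : X3} (hx : (0, x) ∈ Ω)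
include B hx

theorem ev : ∀ᶠ z in 𝓝 x, (0, z) ∈ Ω :=
  (Continuous.prodMk_right 0).continuousAt.eventually_mem (B.fr.isOpen.mem_nhds hx)

theorem cd : ContDiffAt ℝ ∞ b (0, x) := B.fr.sb.contDiffAt (B.fr.isOpen.mem_nhds hx)

theorem d1 (a : u.1 = 0) : fderiv ℝ b (0, x) u = u := by
  rw [fd_slice (B.cd hx) ((B.ev hx).mono fun z k => (B.eq z k).1) a,
    (hasFDerivAt_prodMk_right 0 x).fderiv]
  exact (z_eq a).symm

theorem d2 (a : u.1 = 0) (a' : v.1 = 0) : fderiv ℝ (fderiv ℝ b) (0, x) u v = 0 := by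
  rw [← fd_ap0 (at_fd (B.cd hx)), fd_slice ((at_fd (B.cd hx)).clm_apply contDiffAt_const)
    ((B.ev hx).mono fun z k => B.d1 k a') a]
  simp

theorem th_eq (a : u.1 = 0) : th b E (0, x) u = (EE g (0, x)).inverse u := by
  rw [th, ContinuousLinearMap.comp_apply, B.d1 hx a, (B.eq x hx).2.1]

omit hx in
theorem adp : Adp Ω b E := fun x hx v => by
  have m := (B.eq x hx).2.2
  have := fr_fst (h := tb g (0, x)) ((EE g (0, x)).inverse (0, v))
  rw [B.th_eq hx rfl]
  exact (mul_eq_zero.1 (this.symm.trans (congrArg Prod.fst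
    ((EE_inv B.op B.met m).self_apply_inverse _)))).resolve_right (fr_pos m.2).ne'

theorem kk_eq (a : u.1 = 0) (a' : v.1 = 0) :
    kk g b E u v (0, x) = -chr g (0, x) u v (EE g (0, x) eT) := by
  have r := rp_tb B.op B.met
  obtain ⟨e1, e2, m, -⟩ := B.eq x hx
  rw [kk, B.d1 hx a, B.d1 hx a', B.d2 hx a a', e1, e2, zero_add, r.chr m, ← r.gm m, r.eq _ m,
    r.symm _ m]

end Bs

theorem bs_pt (i : Fin 3) : bs i.succ = pt 0 (ee i) := by
  fin_cases i <;> simp [bs, pt, ee]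

theorem sp_sum (a : u.1 = 0) : u = ∑ i : Fin 3, cv i.succ u • bs i.succ := by
  conv_lhs => rw [← sum_bs u, Fin.sum_univ_succ, show cv 0 u = 0 from a, zero_smul, zero_add]

/-- The data in terms of the frame. -/
theorem in0_fr (hD : IsOpen D) (m : Met g D) {x : X3} (hp : (0, x) ∈ Og g D)
    (I : In0 g d (xs (0, x))) (i j : Fin 3) :
    tb g (0, x) (bs i.succ) (bs j.succ) = d.h (xs (0, x)) i j ∧
      -chr g (0, x) (bs i.succ) (bs j.succ) (EE g (0, x) eT) = d.K (xs (0, x)) i j := by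
  have r := rp_tb hD m
  obtain ⟨n, n1, n2, k⟩ := I
  simp only [← bs_pt, show pt 0 (xs (0, x)) = (0, x) from rfl] at n1 k
  obtain ⟨w, rfl⟩ := (EE_inv hD m hp).surjective n
  have z : ∀ u : R4, u.1 = 0 → mink u w = 0 := fun u a => by
    rw [← EE_on hD m hp, r.eq _ hp.1, sp_sum (u := EE g (0, x) u) (by rw [EE, fr_fst, a, zero_mul])]
    simp [← r.eq _ hp.1, fun i => (k i i).1]
  have z1 := z (bs 1) rfl
  have z2 := z (bs 2) rfl
  have z3 := z (bs 3) rfl
  rw [EE_on hD m hp] at n1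
  rw [EE, fr_fst] at n2
  simp [mink, P354n.cu, P354n.cv, P354n.c1, P354n.c2, bs] at z1 z2 z3 n1
  obtain rfl : w = eT := Prod.ext (by
    simp only [z1, z2, z3] at n1
    have := pos_of_mul_pos_left n2 (fr_pos hp.2).le
    show w.1 = 1
    nlinarith) (Prod.ext z1 (Prod.ext z2 z3))
  exact ⟨(r.eq _ hp.1 _ _).symm.trans (k i j).2.1, by rw [← (k i j).2.2]⟩

theorem fr_eq (hD : IsOpen D) (m : Met g D) (hD' : IsOpen D') (m' : Met g' D') {x : X3}
    (hp : (0, x) ∈ Og g D) (hp' : (0, x) ∈ Og g' D') (I : In0 g d (xs (0, x)))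
    (I' : In0 g' d (xs (0, x))) (a : u.1 = 0) : EE g' (0, x) u = EE g (0, x) u :=
  fr_sp (fun v w a b => by
    rw [sp_sum a, sp_sum b]
    simp [fun i j => (in0_fr hD m hp I i j).1, fun i j => (in0_fr hD' m' hp' I' i j).1]) a

/-- The hypothesis of UNQ on the slice. -/
theorem base_eq (B : Bs g D Ω b E) (B' : Bs g' D' Ω' b' E') (hp : p ∈ Ω) (hp' : p ∈ Ω')
    (a : p.1 = 0) (I : In0 g d (xs p)) (I' : In0 g' d (xs p)) (i j : Fin 3) :
    th b' E' p (bs i.succ) = th b E p (bs i.succ) ∧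
      kk g' b' E' (bs i.succ) (bs j.succ) p = kk g b E (bs i.succ) (bs j.succ) p := by
  rw [z_eq a] at hp hp' I I' ⊢
  have z : ∀ i : Fin 3, (bs i.succ).1 = 0 := fun i => by rw [bs_pt]; rfl
  have m := (B.eq _ hp).2.2
  have m' := (B'.eq _ hp').2.2
  refine ⟨?_, by rw [B.kk_eq hp (z i) (z j), B'.kk_eq hp' (z i) (z j),
    (in0_fr B.op B.met m I i j).2, (in0_fr B'.op B'.met m' I' i j).2]⟩
  rw [B'.th_eq hp' (z i), (EE_inv B'.op B'.met m').inverse_apply_eq,
    fr_eq B.op B.met B'.op B'.met m m' I I' (by rw [z_eq (z i)]; exact B.adp _ hp _),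
    B.th_eq hp (z i), (EE_inv B.op B.met m).self_apply_inverse]

/-- Equal coframes give the derivative of b. -/
theorem db_eq (m' : Met g' D') (F : Fr g' D' Ω b E) (hp : p ∈ Ω)
    (e : th b E p = th id (EE g) p) (v : R4) : fderiv ℝ b p v = E p ((EE g p).inverse v) := by
  have := congrArg (fun L : L4 => E p (L v)) e
  simpa [th, (Fr.inv m' F hp).self_apply_inverse] using this

theorem iso_eq (hD : IsOpen D) (m : Met g D) (m' : Met g' D') (F : Fr g' D' Ω b E) (hp : p ∈ Ω)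
    (hq : p ∈ Og g D) (e : th b E p = th id (EE g) p) (v w : R4) :
    g p v w = g' (b p) (fderiv ℝ b p v) (fderiv ℝ b p w) := by
  rw [db_eq m' F hp e, db_eq m' F hp e, F.on p hp, ← EE_on hD m hq,
    (EE_inv hD m hq).self_apply_inverse, (EE_inv hD m hq).self_apply_inverse]

end Vale.Agent.P354YC
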