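import Vale.Agent.P354YC.Ini
import Vale.Agent.P354YC.Cor
import Vale.Agent.P354UR.Sym

/-!
UNQ: uniqueness for two rollings with the same data.
-/

set_option maxSynthPendingDepth 3
set_option linter.all false

open scoped ContDiff
open Set Filter Topology Asymptotics

noncomputable section

namespace Vale.Agent.P354YC

open Vale.Agent.P354n (R4 mink)
open Vale.Agent.P354R (Met Vac)
open Vale.Agent.P354RC
open Vale.Agent.P354XE (Tw eT)
open Vale.Agent.P354H (X3)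
open Vale.Agent.P354XU
open Vale.Agent.P354UR (HY)

section
variable {ι V : Type} [NormedAddCommGroup V] [NormedSpace ℝ V]

theorem bo_cpt {f : R4 → V} {S : Set R4} {p : ι → R4} (hS : IsCompact S) (hp : ∀ i, p i ∈ S)
    (h : ∀ q ∈ S, ContinuousAt f q) : Bo fun i => f (p i) := by
  obtain ⟨C, hC⟩ := hS.exists_bound_of_continuousOn fun q a => (h q a).continuousWithinAt
  exact Bo.of fun i => hC _ (hp i)

theorem bnd_cpt {C : Cd} {S : Set R4} {p : ι → R4} (a : C.Is) (hS : IsCompact S) (s : S ⊆ C.Ω)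
    (hp : ∀ i, p i ∈ S) : Bnd (fun _ => C) p :=
  ⟨fun _ => a, fun i => s (hp i), bo_cpt hS hp fun q m => (a.sθ q (s m)).continuousAt,
    bo_cpt hS hp fun q m => (a.sγ q (s m)).continuousAt,
    bo_cpt hS hp fun q m => (a.sρ q (s m)).continuousAt,
    fun w u v z => bo_cpt (f := fun q => C.σ q w u v z) hS hp fun q m => a.sσ q (s m) w u v z,
    bo_cpt hS hp fun q m => (at_fd (a.sθ q (s m))).continuousAt,
    bo_cpt hS hp fun q m => (at_fd (a.sγ q (s m))).continuousAt⟩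

theorem bs_sp (j : Fin 3) : (bs j.succ).1 = 0 ∧ ‖(bs j.succ).2‖ ≤ 1 := by
  fin_cases j <;> simp [bs, Prod.norm_def]

theorem jt_sl {f : R4 → V} {k : X3 → V} {x : X3} {δ : ℝ} (hf : ContDiffAt ℝ ∞ f (0, x))
    (e : ∀ᶠ z in 𝓝 x, f (0, z) = k z) (h : Jt 2 k x δ) : ‖f (0, x)‖ ≤ δ ∧
      (∀ j : Fin 3, ‖fderiv ℝ f (0, x) (bs j.succ)‖ ≤ δ) ∧
      ∀ l j : Fin 3, ‖fderiv ℝ (fderiv ℝ f) (0, x) (bs l.succ) (bs j.succ)‖ ≤ δ := by
  have h0 := h 0 (by simp)
  have h1 := h 1 (by simp)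
  have h2 := h 2 le_rfl
  rw [← norm_iteratedFDeriv_fderiv] at h1 h2
  rw [← norm_iteratedFDeriv_fderiv] at h2
  rw [norm_iteratedFDeriv_zero] at h0 h1 h2
  have d0 := (norm_nonneg _).trans h0
  have ck : ContDiffAt ℝ 2 k x :=
    ((hf.of_le ENat.LEInfty.out).comp x (contDiffAt_const.prodMk contDiffAt_id)).congr_of_eventuallyEq
      (EventuallyEq.symm e)
  refine ⟨e.self_of_nhds ▸ h0, fun j => ?_, fun l j => ?_⟩
  · rw [fd_slice hf e (bs_sp j).1]
    exact ((fderiv ℝ k x).le_of_opNorm_le_of_le h1 (bs_sp j).2).trans_eq (mul_one δ)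
  · have e2 : ∀ᶠ z in 𝓝 x, fderiv ℝ f (0, z) (bs j.succ) = fderiv ℝ k z (bs j.succ).2 := by
      filter_upwards [e.eventually_nhds, (Continuous.prodMk_right 0).continuousAt.eventually
        ((hf.of_le (show (1 : WithTop ℕ∞) ≤ ∞ by simp)).eventually (by simp))] with z a c
      rw [← EventuallyEq.fderiv_eq a, z_eq (bs_sp j).1]
      exact congrArg (· (bs j.succ).2) ((c.differentiableAt one_ne_zero).hasFDerivAt.comp z
        (hasFDerivAt_prodMk_right 0 z)).fderiv.symm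
    rw [← fd_ap0 (at_fd hf), fd_slice ((at_fd hf).clm_apply contDiffAt_const) e2 (bs_sp l).1,
      fderiv_clm_apply ((ck.fderiv_right (m := 1) (by norm_num)).differentiableAt one_ne_zero)
        (differentiableAt_const _)]
    simp only [fderiv_fun_const, Pi.zero_apply, ContinuousLinearMap.comp_zero, zero_add,
      ContinuousLinearMap.flip_apply]
    exact ((fderiv ℝ (fderiv ℝ k) x).le_of_opNorm₂_le_of_le h2 (bs_sp l).2 (bs_sp j).2).trans_eq
      (by ring)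

theorem fd_sub {f k : R4 → V} {p : R4} (a : ContDiffAt ℝ ∞ f p) (b : ContDiffAt ℝ ∞ k p) :
    fderiv ℝ (fun q => f q - k q) p = fderiv ℝ f p - fderiv ℝ k p ∧
      fderiv ℝ (fderiv ℝ fun q => f q - k q) p = fderiv ℝ (fderiv ℝ f) p - fderiv ℝ (fderiv ℝ k) p := by
  refine ⟨fderiv_fun_sub (at_df a) (at_df b), ?_⟩
  rw [← fderiv_fun_sub (at_df (at_fd a)) (at_df (at_fd b))]
  refine EventuallyEq.fderiv_eq ?_
  filter_upwards [(a.of_le (show (1 : WithTop ℕ∞) ≤ ∞ by simp)).eventually (by simp),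
    (b.of_le (show (1 : WithTop ℕ∞) ≤ ∞ by simp)).eventually (by simp)] with q c d
  exact fderiv_fun_sub (c.differentiableAt one_ne_zero) (d.differentiableAt one_ne_zero)

theorem fd2_ap {f : R4 → L4} {p : R4} (a : ContDiffAt ℝ ∞ f p) (u v w : R4) :
    fderiv ℝ (fderiv ℝ fun q => f q w) p u v = fderiv ℝ (fderiv ℝ f) p u v w := by
  rw [← fd_ap0 (at_fd (a.clm_apply contDiffAt_const)), ← fd20 (at_fd a)]
  refine congrArg (fun T : R4 →L[ℝ] R4 => T u) (EventuallyEq.fderiv_eq ?_)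
  filter_upwards [(a.of_le (show (1 : WithTop ℕ∞) ≤ ∞ by simp)).eventually (by simp)] with q c
  rw [fderiv_clm_apply (c.differentiableAt one_ne_zero) (differentiableAt_const _)]
  simp

theorem Fam.ini' {C' C : ι → Cd} {x : ι → X3} {e : ι → R4 → L4} {n : ι → ℝ}
    (F : Fam C' C (fun i => (0, x i)) e) (ad : ∀ i v, ((C i).θ (0, x i) (0, v)).1 = 0)
    {k : ι → Fin 3 → Fin 3 → X3 → ℝ} (hk : ∀ i j l, ∀ᶠ z in 𝓝 (x i),
      (C' i).k (bs j.succ) (bs l.succ) (0, z) - (C i).k (bs j.succ) (bs l.succ) (0, z) = k i j l z)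
    (h : ∀ i, ∀ j l : Fin 3, Jt 2 (fun z : X3 => (C' i).θ (0, z) (bs j.succ) -
      (C i).θ (0, z) (bs j.succ)) (x i) (n i) ∧ Jt 2 (k i j l) (x i) (n i)) :
    (fun i => ZZ (C' i) (C i) (0, x i)) =O[⊤] n := by
  have s' := fun i => (F.l.is i).sθ _ (F.l.mem i)
  have s := fun i => (F.r.is i).sθ _ (F.r.mem i)
  have c' := fun i (j : Fin 3) => (s' i).clm_apply (contDiffAt_const (c := bs j.succ))
  have c := fun i (j : Fin 3) => (s i).clm_apply (contDiffAt_const (c := bs j.succ))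
  have a := fun i j => jt_sl ((c' i j).sub (c i j)) (Eventually.of_forall fun _ => rfl) (h i j j).1
  have d' := fun i (j l : Fin 3) => Car.k_cd (F.l.is i) (F.l.mem i) (bs j.succ) (bs l.succ)
  have d := fun i (j l : Fin 3) => Car.k_cd (F.r.is i) (F.r.mem i) (bs j.succ) (bs l.succ)
  have b := fun i j l => jt_sl ((d' i j l).sub (d i j l)) (hk i j l) (h i j l).2
  refine F.ini ad (fun j => IsBigO.of_norm_le fun i => (a i j).1)
    (fun l j => IsBigO.of_norm_le fun i => ?_) (fun m l j => IsBigO.of_norm_le fun i => ?_)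
    (fun l j => IsBigO.of_norm_le fun i => (b i l j).1) fun m l j => IsBigO.of_norm_le fun i => ?_
  · have := (a i j).2.1 l
    rwa [(fd_sub (c' i j) (c i j)).1, sub_apply, fd_ap0 (s' i), fd_ap0 (s i)] at this
  · have := (a i j).2.2 m l
    rwa [(fd_sub (c' i j) (c i j)).2, sub_apply, sub_apply, fd2_ap (s' i), fd2_ap (s i)] at this
  · have := (b i l j).2.1 m
    rwa [(fd_sub (d' i l j) (d i l j)).1, sub_apply] at this

end

theorem lin0' {ι Y κ : Type} [Fintype ι] [NormedAddCommGroup Y] [NormedSpace ℝ Y] [Fintype κ]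
    [FiniteDimensional ℝ Y] {B : Y →L[ℝ] Y →L[ℝ] ℝ} {e : R4 → L4} {φ : ι → R4 → ℝ} {O K O' : Set R4}
    {T : ℝ} (h : HY φ (En (κ := κ) B e) O K T) {Z : R4 → Y × (κ → S6)} (o1 : IsOpen O')
    (o2 : lens φ T ⊆ O') (hZ : ∀ q ∈ O', ContDiffAt ℝ ∞ Z q)
    (H : ∀ D ⊆ lens φ T, IsCompact D → ∃ L, ∀ p : D,
      ∑ μ, En B e μ p (fderiv ℝ Z p (bs μ)) (Z p) ≤ L * ‖Z p‖ ^ 2)
    (h0 : ∀ p ∈ lens φ 0, Z p = 0) : ∀ p ∈ lens φ T, Z p = 0 :=
  h.lin0 o1 o2 (fun q a => ((hZ q a).of_le (by simp)).contDiffWithinAt)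
    (fun D a b => (H D a b).imp fun _ k p c => k ⟨p, c⟩) h0

theorem ZZ_zero {C' C : Cd} {p : R4} (h : ZZ C' C p = 0) : C'.θ p = C.θ p :=
  sub_eq_zero.1 (Prod.ext_iff.1 (Prod.ext_iff.1 h).1).1

/-- The data of a frame. -/
def cd (g : Tw) (Ω : Set R4) (b : R4 → R4) (E : R4 → L4) : Cd :=
  ⟨Ω, th b E, omL g b E, rhL g b E, sgL g b E⟩

variable {g g' : Tw} {D D' Ω Ω' K : Set R4} {p : R4} {b b' c : R4 → R4} {E E' A : R4 → L4}

theorem th_inv (m : Met g D) (F : Fr g D Ω b E) (hp : p ∈ Ω)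
    (i : Function.Injective (fderiv ℝ b p)) : (th b E p).IsInvertible :=
  inv_of fun u v e => i (by rw [← E_th m F hp, ← E_th m F hp, e])

theorem thi_cd (m : Met g D) (F : Fr g D Ω b E) (hp : p ∈ Ω)
    (i : Function.Injective (fderiv ℝ b p)) : ContDiffAt ℝ 1 (fun q => (th b E q).inverse) p :=
  ((th_inv m F hp i).contDiffAt_map_inverse.comp p (th_cd m F hp)).of_le (by simp)

theorem gauge (m : Met g D) (R : Rol g D Ω c A b E) (m' : Met g' D') (R' : Rol g' D' Ω' c A b' E')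
    (hp : p ∈ Ω) (hp' : p ∈ Ω') : ∀ᶠ q in 𝓝 p, (cd g' Ω' b' E').θ q eT = (cd g Ω b E).θ q eT ∧
      (cd g' Ω' b' E').γ q eT = (cd g Ω b E).γ q eT := by
  filter_upwards [R.isOpen.mem_nhds hp, R'.isOpen.mem_nhds hp'] with q a a'
  exact ⟨(th_eT m' R' a').trans (th_eT m R a).symm, (om_eT m' R' a').trans (om_eT m R a).symm⟩

theorem k_ev {x : X3} (m : Met g D) (F : Fr g D Ω b E) (m' : Met g' D') (F' : Fr g' D' Ω' b' E')
    (hp : (0, x) ∈ Ω) (hp' : (0, x) ∈ Ω') (u v : R4) : ∀ᶠ z in 𝓝 x,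
      (cd g' Ω' b' E').k u v (0, z) - (cd g Ω b E).k u v (0, z) =
        kk g' b' E' u v (0, z) - kk g b E u v (0, z) := by
  filter_upwards [(Continuous.prodMk_right 0).continuousAt.eventually_mem
    ((F.isOpen.inter F'.isOpen).mem_nhds ⟨hp, hp'⟩)] with z a
  rw [kk_eq m F a.1, kk_eq m' F' a.2]
  rfl

theorem cd_open {f : R4 → L4} : IsOpen {q | ContDiffAt ℝ 1 f q} :=
  isOpen_iff_mem_nhds.2 fun _ a => ContDiffAt.eventually a (by simp)

set_option maxRecDepth 20000 in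
/-- **UNQ.** -/
theorem unq : UNQ := by
  intro ι _ φ g D Ω c A b E K T g' D' Ω' b' E' a1 a2 a3 a4 a5 a6 b1 b2 b3 b4 b5 _ e p hp
  obtain ⟨B, B1, B2⟩ := ex_form (Y := L4 × W1)
  have I : (cd g Ω b E).Is := car a1 a2 a3 a4.toFr
  have I' : (cd g' Ω' b' E').Is := car b1 b2 b3 b4.toFr
  have iv := fun q (a : q ∈ K) => th_inv a2 a4.toFr (a5.dom a) (a5.inj q a)
  have ca := fun q (a : q ∈ K) u (k : mink u u ≤ 0) (k' : 0 < u.1) =>
    a5.cau q a ((th b E q).inverse u) (by rwa [(iv q a).self_apply_inverse])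
      (by rwa [(iv q a).self_apply_inverse])
  have fam : ∀ {S : Set R4}, S ⊆ lens φ T → IsCompact S → ∀ {κ : Type} {q : κ → R4}, (∀ i, q i ∈ S) →
      Fam (fun _ => cd g' Ω' b' E') (fun _ => cd g Ω b E) q fun _ q => (th b E q).inverse :=
    fun s hS κ q hq => ⟨bnd_cpt I' hS (s.trans b5) hq, bnd_cpt I hS (s.trans (a5.sub.trans a5.dom)) hq,
      fun i => gauge a2 a4 b2 b4 (a5.dom (a5.sub (s (hq i)))) (b5 (s (hq i))),
      fun i => (iv _ (a5.sub (s (hq i)))).self_apply_inverse, bo_cpt hS hq fun r k =>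
        (thi_cd a2 a4.toFr (a5.dom (a5.sub (s k))) (a5.inj r (a5.sub (s k)))).continuousAt⟩
  have H : HY φ (En (κ := Fin 4 × Fin 4) B fun q => (th b E q).inverse)
      {q | ContDiffAt ℝ 1 (fun q => (th b E q).inverse) q} K T :=
    ⟨cd_open, a5.cpt, fun q a => thi_cd a2 a4.toFr (a5.dom a) (a5.inj q a), a5.sub, a5.sm,
      En_cd fun q a => ContDiffAt.contDiffWithinAt a, fun μ q _ => En_symm B1 μ, fun q a z k => by
        simpa [Fin.sum_univ_four, cv_bs] using En_pos (p := q) B2 (ξ := cv 0) one_pos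
          (fun u k k' => (ca q a u k k').1) k,
      fun q a i => (a5.dt q a i).le, fun q a i z => by
        rcases eq_or_ne z 0 with rfl | k
        · simp
        · exact (En_pos B2 (a5.dt q a i) (fun u k k' => (ca q a u k k').2 i) k).le⟩
  have := lin0' H (Z := ZZ (cd g' Ω' b' E') (cd g Ω b E)) (b4.isOpen.inter a4.isOpen)
    (fun q a => ⟨b5 a, a5.dom (a5.sub a)⟩) (fun q a => ZZ_cd I' I a.1 a.2)
    (fun S s hS => ?_) (fun q a => ?_) p hp
  · exact ZZ_zero this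
  · have k := (fam s hS (q := fun i : S => i.1) fun i => i.2).est B
    beta_reduce at k
    exact k
  · have q0 : q = (0, q.2) := z_eq (le_antisymm a.1.2 a.1.1)
    have s : {(0, q.2)} ⊆ lens φ T := singleton_subset_iff.2
      (q0 ▸ ⟨⟨a.1.1, a.1.2.trans (hp.1.1.trans hp.1.2)⟩, a.2⟩)
    have z : ∀ {V : Type} [NormedAddCommGroup V] [NormedSpace ℝ V] {f : X3 → V},
        (∀ x, (0, x) ∈ lens φ 0 → f x = 0) → Jt 2 f q.2 0 := fun {V} _ _ f hf j _ => by
      have : f =ᶠ[𝓝 q.2] fun _ => 0 := by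
        filter_upwards [eventually_all.2 fun i => (((a5.sm i).continuous.comp
          (Continuous.prodMk_right 0)).continuousAt (x := q.2)).eventually
            (gt_mem_nhds (show φ i (0, q.2) < 0 from q0 ▸ a.2 i))] with x hx
        exact hf x ⟨⟨le_rfl, le_rfl⟩, hx⟩
      rw [(this.iteratedFDeriv ℝ j).eq_of_nhds]
      simp
    have m := a5.dom (a5.sub (s rfl))
    have := (fam s isCompact_singleton (q := fun _ : Unit => (0, q.2)) fun _ => rfl).ini'
      (n := fun _ => 0) (fun _ => a6 _ m) (fun _ j l => k_ev a2 a4.toFr b2 b4.toFr m (b5 (s rfl)) _ _)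
      fun _ j l => ⟨z fun x hx => sub_eq_zero.2 (e _ hx j l).1,
        z fun x hx => sub_eq_zero.2 (e _ hx j l).2⟩
    rw [q0]
    exact eventually_top.1 (isBigO_zero_right_iff.1 this) ()

end Vale.Agent.P354YC
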