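import Vale.Agent.P354F2.Parts

/-!
SIG: the roots for the normalisation of m.
-/

set_option linter.all false

open scoped ContDiff ComplexConjugate
open Set Filter Topology Complex

noncomputable section

namespace Vale.Agent.P354YC

open Vale.Agent.P354n (R4 mink cu)
open Vale.Agent.P354RC (bs)
open Vale.Agent.P354XG Vale.Agent.P354XD Vale.Agent.P354XR Vale.Agent.P354XI Vale.Agent.P354Z
open Vale.Agent.P354YK Vale.Agent.P354F2
open Vale.Agent.P354XG.Geo (hf two_hf)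

namespace Sg

theorem mink_pos {l n v : R4} (ll : mink l l = 0) (nn : mink n n = 0) (ln : mink l n < 0)
    (lv : mink l v = 0) (nv : mink n v = 0) (h : v ≠ 0) : 0 < mink v v := by
  obtain ⟨l0, l1, l2, l3⟩ := l
  obtain ⟨n0, n1, n2, n3⟩ := n
  obtain ⟨v0, v1, v2, v3⟩ := v
  simp only [mink, cu, P354n.cv, P354n.c1, P354n.c2] at *
  obtain ⟨t0, e0⟩ : ∃ t, t = l0 + n0 := ⟨_, rfl⟩
  obtain ⟨t1, e1⟩ : ∃ t, t = l1 + n1 := ⟨_, rfl⟩
  obtain ⟨t2, e2⟩ : ∃ t, t = l2 + n2 := ⟨_, rfl⟩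
  obtain ⟨t3, e3⟩ : ∃ t, t = l3 + n3 := ⟨_, rfl⟩
  have a : 0 < t0 ^ 2 - (t1 ^ 2 + t2 ^ 2 + t3 ^ 2) := by rw [e0, e1, e2, e3]; nlinarith
  have b : t0 * v0 = t1 * v1 + t2 * v2 + t3 * v3 := by rw [e0, e1, e2, e3]; linarith
  by_contra! k
  have c : (t0 * v0) ^ 2 ≤ (t1 ^ 2 + t2 ^ 2 + t3 ^ 2) * (v1 ^ 2 + v2 ^ 2 + v3 ^ 2) := by
    rw [b]
    nlinarith [sq_nonneg (t1 * v2 - t2 * v1), sq_nonneg (t1 * v3 - t3 * v1),
      sq_nonneg (t2 * v3 - t3 * v2)]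
  have k' : v1 ^ 2 + v2 ^ 2 + v3 ^ 2 ≤ v0 ^ 2 := by linarith
  have d := mul_le_mul_of_nonneg_left k' (show 0 ≤ t1 ^ 2 + t2 ^ 2 + t3 ^ 2 by positivity)
  have z : v0 ^ 2 = 0 := le_antisymm (nonpos_of_mul_nonpos_right (by linarith) a) (sq_nonneg _)
  have z1 : v1 ^ 2 = 0 := by linarith [sq_nonneg v1, sq_nonneg v2, sq_nonneg v3]
  have z2 : v2 ^ 2 = 0 := by linarith [sq_nonneg v1, sq_nonneg v2, sq_nonneg v3]
  have z3 : v3 ^ 2 = 0 := by linarith [sq_nonneg v1, sq_nonneg v2, sq_nonneg v3]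
  exact h (by rw [pow_eq_zero_iff two_ne_zero] at z z1 z2 z3; simp [z, z1, z2, z3])

/-- The real and the complex form. -/
def Qr (G : Fin 4 → Fin 4 → ℝ) (x y : Fin 4 → ℝ) : ℝ := ∑ a, ∑ b, G a b * x a * y b
def Qc (G : Fin 4 → Fin 4 → ℝ) (x y : Fin 4 → ℂ) : ℂ := ∑ a, ∑ b, (G a b : ℂ) * x a * y b

theorem pt {G : Fin 4 → Fin 4 → ℝ} (sy : ∀ x y, Qr G x y = Qr G y x)
    (hG : ∀ l n v, Qr G l l = 0 → Qr G n n = 0 → Qr G l n < 0 → Qr G l v = 0 → Qr G n v = 0 →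
      v ≠ 0 → 0 < Qr G v v) {l n m mb w : Fin 4 → ℂ} (hl : ∀ a, conj (l a) = l a)
    (hn : ∀ a, conj (n a) = n a) (hm : ∀ a, conj (m a) = mb a) (ll : Qc G l l = 0)
    (nn : Qc G n n = 0) (ln : Qc G l n = -1) (lm : Qc G l m = 0) (nm : Qc G n m = 0)
    (w1 : ∑ a, m a * w a ≠ 0) (w2 : ∑ a, mb a * w a = 0) : (∃ r : ℝ, 0 < r ∧ Qc G m mb = r) ∧
      ∃ r : ℝ, 0 < r ∧ Qc G m mb ^ 2 - Qc G m m * Qc G mb mb = r := by
  choose L hL using fun a => conj_eq_iff_real.1 (hl a)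
  choose N hN using fun a => conj_eq_iff_real.1 (hn a)
  obtain ⟨X, Y, e⟩ : ∃ X Y : Fin 4 → ℝ, ∀ a, m a = X a + Y a * I :=
    ⟨_, _, fun a => (re_add_im (m a)).symm⟩
  have e' : ∀ a, mb a = X a + (-Y) a * I := fun a => by rw [← hm, e]; simp
  have k : ∀ {u v : Fin 4 → ℂ} {x y z t : Fin 4 → ℝ}, (∀ a, u a = x a + y a * I) →
      (∀ a, v a = z a + t a * I) →
      Qc G u v = (Qr G x z - Qr G y t : ℝ) + (Qr G x t + Qr G y z : ℝ) * I := fun h1 h2 => by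
    apply Complex.ext <;> simp [Qc, Qr, Fin.sum_univ_four, h1, h2] <;> ring
  have L' : ∀ a, l a = L a + (0 : Fin 4 → ℝ) a * I := fun a => by simp [hL a]
  have N' : ∀ a, n a = N a + (0 : Fin 4 → ℝ) a * I := fun a => by simp [hN a]
  have z1 : ∀ x, Qr G 0 x = 0 := fun x => by simp [Qr]
  have z2 : ∀ x, Qr G x 0 = 0 := fun x => by simp [Qr]
  have g1 : ∀ x y, Qr G x (-y) = -Qr G x y := fun x y => by simp [Qr]
  have g2 : ∀ x y, Qr G (-x) y = -Qr G x y := fun x y => by simp [Qr]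
  rw [k L' L'] at ll
  rw [k N' N'] at nn
  rw [k L' N'] at ln
  rw [k L' e] at lm
  rw [k N' e] at nm
  simp [z1, z2, Complex.ext_iff] at ll nn ln lm nm
  have p : ∀ t s : ℝ, (t ≠ 0 ∨ s ≠ 0) → 0 < t ^ 2 * Qr G X X + 2 * t * s * Qr G X Y +
      s ^ 2 * Qr G Y Y := fun t s h => by
    have a : ∀ u, Qr G u (t • X + s • Y) = t * Qr G u X + s * Qr G u Y := fun u => by
      simp [Qr, Fin.sum_univ_four]; ring
    refine (hG L N (t • X + s • Y) ll nn (by linarith) (by simp [a, lm]) (by simp [a, nm])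
      fun z => ?_).trans_eq (by rw [a, sy _ X, sy _ Y, a, a, sy Y X]; ring)
    have b : ∀ a, (t - s * I) * m a + (t + s * I) * mb a = 0 := fun a => by
      have := congrFun z a
      simp only [Pi.add_apply, Pi.smul_apply, smul_eq_mul, Pi.zero_apply] at this
      apply Complex.ext <;> simp [e, e'] <;> linarith
    have c : (t - s * I) * ∑ a, m a * w a = 0 := by
      simp only [Fin.sum_univ_four] at w2 ⊢
      linear_combination w 0 * b 0 + w 1 * b 1 + w 2 * b 2 + w 3 * b 3 - (t + s * I) * w2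
    have := (mul_eq_zero.1 c).resolve_right w1
    simp [Complex.ext_iff] at this
    tauto
  have p1 : 0 < Qr G X X := by simpa using p 1 0 (.inl one_ne_zero)
  have p2 : 0 < Qr G Y Y := by simpa using p 0 1 (.inr one_ne_zero)
  have p3 := p (-Qr G X Y) (Qr G X X) (.inr p1.ne')
  refine ⟨⟨_, add_pos p1 p2, ?_⟩, 4 * (Qr G X X * Qr G Y Y - Qr G X Y ^ 2), by nlinarith, ?_⟩
  · rw [k e e']; simp [g1, sy Y X]
  · rw [k e e', k e e, k e' e']
    apply Complex.ext <;> simp [g1, g2, sy Y X, pow_two] <;> ring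

variable {A : Type} [CommRing A] [Algebra ℂ A] {K : Hp A} {p : Pm A}

theorem sep (h : K.Is) (q : p.Is K) (j : p.j1 = 0) (S : Geo A) :
    IsUnit (∑ a, (f1 K p S).m a * K.mub a) ∧ ∑ a, (f1 K p S).mb a * K.mub a = 0 := by
  have i := ii_sq (A := A)
  have e := h.hN
  have a0 : ∑ a, Hp.e0 A a * K.mub a = 0 := by simp [Fin.sum_univ_four, Hp.e0, Hp.mub]
  have a1 : ∑ a, K.om a * K.mub a = 0 := by
    simp [Fin.sum_univ_four, Hp.om, Hp.mub]
    linear_combination K.Ni ^ 2 * (K.z 4 * K.z 3 - K.z 2 * K.z 5) * (K.z 4 ^ 2 + K.z 5 ^ 2) * i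
  have a2 : ∑ a, K.mub a * K.mub a = 0 := by
    simp [Fin.sum_univ_four, Hp.mub]
    linear_combination K.Ni ^ 2 * (K.z 4 ^ 2 + K.z 5 ^ 2) ^ 2 * i
  have a3 : ∑ a, K.mu a * K.mub a = 2 := by
    simp [Fin.sum_univ_four, Hp.mu, Hp.mub, Hp.N] at e ⊢
    linear_combination -K.Ni ^ 2 * (K.z 2 ^ 2 + K.z 3 ^ 2) * (K.z 4 ^ 2 + K.z 5 ^ 2) * i +
      2 * (1 + (K.z 2 * K.z 4 + K.z 3 * K.z 5) * K.Ni) * e
  have v : ∀ e1 e2 e3 e4 e5 e6, ∑ a, K.prj ((kk K p).V e1 e2 e3 e4 e5 e6) a * K.mub a =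
      2 * (e4 * K.z 1) := fun e1 e2 e3 e4 e5 e6 => by
    have : ∀ a, K.prj ((kk K p).V e1 e2 e3 e4 e5 e6) a = (e1 - e2 * p.h1) * Hp.e0 A a +
        e2 * K.om a + e3 * K.z 1 * K.mub a + e4 * K.z 1 * K.mu a := fun a => by
      obtain ⟨b0, b1, b2, b3, b4, b5⟩ := h.tco a
      rw [Hp.prj, Geo.dv, KC.V_ap, R_ap j, show (kk K p).T (K.co a) = _ from b0, b0, b1,
        show (kk K p).P (K.co a) = _ from b2, show (kk K p).Q (K.co a) = _ from b3,
        show (kk K p).H (K.co a) = _ from b4, show (kk K p).B (K.co a) = _ from b5]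
      ring
    simp only [this, Fin.sum_univ_four] at a0 a1 a2 a3 ⊢
    linear_combination (e1 - e2 * p.h1) * a0 + e2 * a1 + e3 * K.z 1 * a2 + e4 * K.z 1 * a3
  have t : ∑ a, K.prj (K.d 0) a * K.mub a = 0 := by
    simpa only [Hp.prj, Geo.dv, (h.tco _).1] using a0
  have b1 := v 0 (kk K p).N 0 0 0 0
  have b2 : ∑ a, K.prj (oet (kk K p)) a * K.mub a = _ := v ..
  have b3 : ∑ a, K.prj (oep (kk K p)) a * K.mub a = _ := v ..
  have u : ∀ (Z : Vec A) (x y : A), ∑ a, (Z + x • (pre K p).gl S (hf A) +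
      y • (pre K p).gn S 1 (hf A) 1) a * K.mub a = ∑ a, Z a * K.mub a := fun Z x y => by
    simp only [Fr.gl, Fr.gn, pre, frO, oth, Pi.add_apply, Pi.smul_apply, smul_eq_mul,
      Fin.sum_univ_four] at b1 t ⊢
    generalize S.dot _ _ * hf A = c1
    generalize S.dot _ _ * hf A = c2
    generalize hf A * _ * _ = c3
    linear_combination (x + y * c3 * c2) * b1 + 2 * K.Ni * (x * c1 + y * c3) * t
  have k := kk_is h q
  have z := congrArg (kk K p).c k.z_ze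
  rw [map_mul, k.c_z, map_one] at z
  refine ⟨?_, (u ..).trans (b3.trans (by ring))⟩
  rw [show ∑ a, (f1 K p S).m a * K.mub a = _ from (u ..).trans b2]
  exact (IsUnit.of_mul_eq_one _ two_hf).mul ((IsUnit.of_mul_eq_one _ z).mul
    (IsUnit.of_mul_eq_one _ h.hr))

variable {O : Set E6}

/-- Positive functions. -/
def Ps (f : Sm (on O)) : Prop := ∀ x ∈ O, ∃ r : ℝ, 0 < r ∧ fv f x = r

theorem Ps.ex {f : Sm (on O)} (h : Ps f) (hO : IsOpen O) {φ : ℝ → ℝ}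
    (hφ : ∀ r, 0 < r → ContDiffAt ℝ ∞ φ r) :
    ∃ s : Sm (on O), ∀ x ∈ O, ∀ r : ℝ, fv f x = r → fv s x = φ r := by
  have c : ContDiffOn ℝ ∞ (fun x => ((φ (fv f x).re : ℝ) : ℂ)) O := fun x hx => by
    obtain ⟨r, r0, e⟩ := h x hx
    exact (ofRealCLM.contDiff.contDiffAt.comp x ((hφ _ (by simpa [e] using r0)).comp x
      (reCLM.contDiff.contDiffAt.comp x (fv_sm hO f hx)))).contDiffWithinAt
  exact ⟨of hO _ c, fun x hx r e => by rw [fv_of hO c hx, e, ofReal_re]⟩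

theorem Ps.sqrt {f : Sm (on O)} (h : Ps f) (hO : IsOpen O) :
    ∃ s : Sm (on O), s ^ 2 = f ∧ cj s = s ∧ Ps s := by
  obtain ⟨s, k⟩ := h.ex hO (φ := Real.sqrt) fun r hr => Real.contDiffAt_sqrt hr.ne'
  refine ⟨s, ext_fv hO fun x hx => ?_, ext_fv hO fun x hx => ?_, fun x hx => ?_⟩ <;>
    obtain ⟨r, r0, e⟩ := h x hx
  · rw [pow_two, fv_mul, k x hx r e, e, ← ofReal_mul, Real.mul_self_sqrt r0.le]
  · rw [fv_cj, k x hx r e, conj_ofReal]
  · exact ⟨_, Real.sqrt_pos.2 r0, k x hx r e⟩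

theorem Ps.inv {f : Sm (on O)} (h : Ps f) (hO : IsOpen O) : ∃ u : Sm (on O), f * u = 1 ∧ Ps u := by
  obtain ⟨s, k⟩ := h.ex hO (φ := fun r => r⁻¹) fun r hr => contDiffAt_inv ℝ hr.ne'
  refine ⟨s, ext_fv hO fun x hx => ?_, fun x hx => ?_⟩ <;> obtain ⟨r, r0, e⟩ := h x hx
  · rw [fv_mul, k x hx r e, e, ← ofReal_mul, mul_inv_cancel₀ r0.ne']
    exact (map_one (evO ⟨x, hx⟩)).symm
  · exact ⟨_, inv_pos.2 r0, k x hx r e⟩

theorem Ps.mul {f g : Sm (on O)} (h : Ps f) (k : Ps g) : Ps (f * g) := fun x hx =>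
  let ⟨r, r0, e⟩ := h x hx
  let ⟨s, s0, e'⟩ := k x hx
  ⟨_, mul_pos r0 s0, by rw [fv_mul, e, e', ofReal_mul]⟩

theorem Ps.add {f g : Sm (on O)} (h : Ps f) (k : Ps g) : Ps (f + g) := fun x hx =>
  let ⟨r, r0, e⟩ := h x hx
  let ⟨s, s0, e'⟩ := k x hx
  ⟨_, add_pos r0 s0, by rw [fv_add, e, e', ofReal_add]⟩

theorem vac {M0 R : ℝ} {g : P354XE.Tw} (h : Pre M0 R O g) : ∀ᶠ p in on O, VacAt g (pj p.2) :=
  on_of h.co.op fun x hx => let ⟨W, w, m⟩ := h.lv x hx; ⟨W, w.isOpen, m, w.met, w.vac⟩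

theorem bs_of {M0 R : ℝ} {g : P354XE.Tw} (h : Pre M0 R O g) (M a : ℝ) :
    Bs (hp _) (pO O M0 M a) (ge O g) :=
  ⟨cone_is h.co, pO_is h.co M0 M a, rfl, ⟨_, _, rfl⟩, geo_is (cone_pos h.co).off _ (vac h),
    h.rid.RR, h.rid.RT, h.rid.RO⟩

end Sg

open Sg in
/-- **SIG.** -/
theorem sig : SIG := fun M0 R M a O g h => by
  have b := bs_of h M a
  have o := h.co.op
  obtain ⟨r, f⟩ := b.rw.g1 b.hS b.e1
  obtain ⟨w1, w2⟩ := sep b.is b.pis rfl (ge O g)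
  rw [show (pre (hp _) (pO O M0 M a)).g1 (ge O g) 1 (hf _) 1 = f1 _ _ (ge O g) from rfl] at r f
  generalize f1 (hp _) (pO O M0 M a) (ge O g) = F at *
  have P : ∀ x ∈ O, (∃ r : ℝ, 0 < r ∧ fv ((ge O g).dot F.m F.mb) x = r) ∧ ∃ r : ℝ, 0 < r ∧
      fv ((ge O g).dot F.m F.mb ^ 2 - (ge O g).dot F.m F.m * (ge O g).dot F.mb F.mb) x = r := by
    intro x hx
    obtain ⟨W, w, m⟩ := h.lv x hx
    obtain ⟨L, l1, l2, l3⟩ := w.sig _ m
    let ev := evO (O := O) ⟨x, hx⟩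
    have d : ∀ Y Z, ev ((ge O g).dot Y Z) = Qc (fun a b => 1 / 2 * gc g a b (pj x))
        (fun a => ev (Y a)) fun a => ev (Z a) := fun Y Z => by
      simp only [Geo.dot, map_sum, map_mul, Qc]
      refine Finset.sum_congr rfl fun a _ => Finset.sum_congr rfl fun b _ => ?_
      rw [show ev ((ge O g).g a b) = _ from (fv_mul _ _ _).trans (by
        rw [fv_alg _ hx, fv_rs (rs_pb (cone_pos h.co).off ((vac h).mono fun _ v => v.sm_g a b)) hx]),
        ofReal_mul]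
    have c : ∀ {Y Z}, (ge O g).cv Y = Z → ∀ a, conj (ev (Y a)) = ev (Z a) := fun e a => by
      rw [← e]; exact (fv_cj _ _).symm
    have q : ∀ u v, Qr (fun a b => 1 / 2 * gc g a b (pj x)) u v =
        mink (L (∑ a, u a • bs a)) (L (∑ a, v a • bs a)) / 2 := fun u v => by
      simp only [Qr, gc, l3, Fin.sum_univ_four, l1.map_add, l1.map_smul, mink, cu, P354n.cv,
        P354n.c1, P354n.c2, Prod.fst_add, Prod.snd_add, Prod.smul_fst, Prod.smul_snd, smul_eq_mul]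
      ring
    have := pt (w := fun a => ev ((hp _).mub a)) (fun u v => by rw [q, q]; unfold mink; ring)
      (fun l n v a1 a2 a3 a4 a5 a6 => by
        rw [q] at *
        refine half_pos (mink_pos (l := L (∑ a, l a • bs a)) (n := L (∑ a, n a • bs a))
          (by linarith) (by linarith) (by linarith) (by linarith) (by linarith) fun e => a6 ?_)
        have := l2 (e.trans l1.map_zero.symm)
        simp [Fin.sum_univ_four, bs, Prod.ext_iff] at this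
        funext i
        fin_cases i <;> simp [this])
      (c r.c_l) (c r.c_n) (c r.c_m) (by rw [← d, f.ll, map_zero]) (by rw [← d, f.nn, map_zero])
      (by rw [← d, f.ln, map_neg, map_one]) (by rw [← d, f.lm, map_zero])
      (by rw [← d, f.nm, map_zero]) (by simpa only [map_sum, map_mul] using (w1.map ev).ne_zero)
      (by simpa only [map_sum, map_mul, map_zero] using congrArg ev w2)
    rwa [← d, ← d, ← d, ← map_pow, ← map_mul, ← map_sub] at this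
  obtain ⟨s, s1, s2, s3⟩ := Ps.sqrt (fun x hx => (P x hx).2) o
  have q := Ps.add (fun x hx => (P x hx).1) s3
  obtain ⟨u, u1, -⟩ := q.inv o
  obtain ⟨i, i1, i2⟩ := s3.inv o
  have t : Ps (hf (Sm (on O))) := fun x hx => ⟨1 / 2, one_half_pos, (fv_alg _ hx).trans (by simp)⟩
  obtain ⟨k, k1, k2, k3⟩ := ((t.mul q).mul (i2.mul i2)).sqrt o
  refine ⟨s, u, k, ⟨s1, s2, k2, u1, ?_⟩, fun x hx => ?_⟩
  · rw [k1]
    linear_combination ((ge O g).dot F.m F.mb + s) * ((s * i) ^ 2 * two_hf (A := Sm (on O)) +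
      (s * i + 1) * i1)
  · obtain ⟨a1, a2, a3⟩ := s3 x hx
    obtain ⟨b1, b2, b3⟩ := k3 x hx
    exact ⟨by rw [rv, a3]; exact a2.le, by rw [rv, b3]; exact b2.le⟩

end Vale.Agent.P354YC
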