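import Vale.Agent.P354SA.Far

/-!
JET: jets of solutions of an ODE with an integrable rate.
-/

set_option linter.all false

open scoped ContDiff Nat
open Set Filter Topology MeasureTheory

namespace Vale.Agent.P354YC

open Vale.Agent.P354YQ

theorem prim {g : ℝ → ℝ} {a b : ℝ} (hg : ContinuousOn g (Icc a b)) :
    ContinuousOn (fun s => ∫ t in a..s, g t) (Icc a b) ∧
      ∀ s ∈ Ioo a b, HasDerivAt (fun s => ∫ t in a..s, g t) (g s) s := by
  refine ⟨?_, fun s m => intervalIntegral.integral_hasDerivAt_right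
    ((hg.mono (Icc_subset_Icc_right m.2.le)).intervalIntegrable_of_Icc m.1.le)
    ((hg.mono Ioo_subset_Icc_self).stronglyMeasurableAtFilter isOpen_Ioo s m)
    (hg.continuousAt (Icc_mem_nhds m.1 m.2))⟩
  rcases le_or_gt a b with h | h
  · rw [← uIcc_of_le h] at hg ⊢
    exact intervalIntegral.continuousOn_primitive_interval hg.integrableOn_uIcc
  · simp [Icc_eq_empty_of_lt h]

/-- Gronwall's inequality in integral form. -/
theorem gron_int {μ N : ℝ → ℝ} {a b c : ℝ} (hμ : ContinuousOn μ (Icc a b))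
    (hN : ContinuousOn N (Icc a b)) (h0 : ∀ t ∈ Icc a b, 0 ≤ μ t)
    (h : ∀ s ∈ Icc a b, N s ≤ c + ∫ t in a..s, μ t * N t) :
    ∀ s ∈ Icc a b, N s ≤ c * Real.exp (∫ t in a..s, μ t) := fun s m => by
  have p := prim hμ
  have q := prim (hμ.mul hN)
  have d : ∀ s ∈ Ioo a b, HasDerivAt (fun s => (c + ∫ t in a..s, μ t * N t) *
      Real.exp (-∫ t in a..s, μ t)) _ s := fun s m =>
    ((q.2 s m).const_add c).mul (p.2 s m).neg.exp
  have := antitoneOn_of_deriv_nonpos (convex_Icc a b)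
    ((continuousOn_const.add q.1).mul p.1.neg.rexp)
    (fun s m => (d s (interior_Icc (a := a) ▸ m)).differentiableAt.differentiableWithinAt)
    (fun s m => by
      rw [interior_Icc] at m
      refine (d s m).deriv.trans_le ?_
      have := mul_le_mul_of_nonneg_left (h s (Ioo_subset_Icc_self m)) (h0 s (Ioo_subset_Icc_self m))
      have e := Real.exp_pos (-∫ t in a..s, μ t)
      simp only [Pi.mul_apply, Pi.neg_apply] at *
      nlinarith) (left_mem_Icc.2 (m.1.trans m.2)) m m.1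
  simp only [Pi.mul_apply, Pi.add_apply, Pi.neg_apply, intervalIntegral.integral_same, add_zero,
    neg_zero, Real.exp_zero, mul_one] at this
  rw [Real.exp_neg, ← div_eq_mul_inv, div_le_iff₀ (Real.exp_pos _)] at this
  exact (h s m).trans this

section
variable {X E : Type} [NormedAddCommGroup X] [NormedSpace ℝ X] [NormedAddCommGroup E]
  [NormedSpace ℝ E] {Z : ℝ × X → E} {A Ai : ℝ → E →L[ℝ] E} {W : ℝ → X × E → E} {a b : ℝ} {x : X}

theorem sa_sl {s : ℝ} (h : SA Z (s, x)) : SA (fun y => Z (s, y)) x :=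
  h.comp (f := fun q => (s, q)) (SA.of (by fun_prop))

theorem jet_cont (hA : ContinuousOn Ai (Icc a b)) (h : ∀ s ∈ Icc a b, SA Z (s, x)) (i : ℕ) :
    ContinuousOn (fun s => ‖iteratedFDeriv ℝ i (fun y => Ai s (Z (s, y))) x‖) (Icc a b) := by
  refine ContinuousOn.norm (ContinuousOn.congr (ContinuousOn.clm_apply
    ((ContinuousLinearMap.compContinuousMultilinearMapL ℝ (fun _ : Fin i => X) E E).continuous.comp_continuousOn
      hA) fun s m => (hasDerivAt_jet i E Z s x (h s m)).continuousAt.continuousWithinAt) fun s m => ?_)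
  exact (Ai s).iteratedFDeriv_comp_left (sa_sl (h s m)).at (le_inf i)

theorem jet_key {g : ℝ → ℝ} {i : ℕ} (hg : ContinuousOn g (Icc a b))
    (h : ∀ s ∈ Icc a b, SA Z (s, x) ∧ (∀ s' ∈ Icc a s, ‖(Ai s).comp (A s')‖ ≤ 1) ∧
      SA (fun y => W s (y, Ai s (Z (s, y)))) x ∧
      ‖iteratedFDeriv ℝ i (fun y => W s (y, Ai s (Z (s, y)))) x‖ ≤ g s ∧
      ∀ᶠ y in 𝓝 x, fderiv ℝ Z (s, y) (1, 0) = A s (W s (y, Ai s (Z (s, y))))) {s : ℝ}
    (m : s ∈ Icc a b) :
    ‖iteratedFDeriv ℝ i (fun y => Ai s (Z (s, y) - Z (a, y))) x‖ ≤ ∫ t in a..s, g t := by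
  have sub : Icc a s ⊆ Icc a b := Icc_subset_Icc_right m.2
  have d := fun t (k : t ∈ Icc a s) =>
    hasDerivAt_jet i E (fun p => Ai s (Z p)) t x ((h t (sub k)).1.clm (Ai s))
  have := norm_sub_le_integral_of_norm_deriv_le_of_le m.1
    (fun t k => (d t k).continuousAt.continuousWithinAt)
    (fun t k => (d t (Ioo_subset_Icc_self k)).differentiableAt.differentiableWithinAt)
    (ae_of_all _ fun t k => ?_) ((hg.mono sub).intervalIntegrable_of_Icc m.1)
  · simp only [map_sub]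
    rwa [fun_iteratedFDeriv_sub_apply (((sa_sl (h s m).1).clm (Ai s)).atn i)
      (((sa_sl (h a (sub (left_mem_Icc.2 m.1))).1).clm (Ai s)).atn i)]
  · have k' := Ioo_subset_Icc_self k
    obtain ⟨a1, -, a3, a4, a5⟩ := h t (sub k')
    have e : (fun q => fderiv ℝ (fun p => Ai s (Z p)) (t, q) (1, 0)) =ᶠ[𝓝 x]
        ((Ai s).comp (A t)) ∘ fun y => W t (y, Ai t (Z (t, y))) := by
      filter_upwards [a5, (show ContinuousAt (fun q : X => (t, q)) x by fun_prop).eventually a1.ev]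
        with y b1 b2
      rw [show fderiv ℝ (fun p => Ai s (Z p)) (t, y) = _ from
        ((Ai s).hasFDerivAt.comp _ b2.diff.hasFDerivAt).fderiv, ContinuousLinearMap.comp_apply, b1]
      rfl
    rw [(d t k').deriv, (e.iteratedFDeriv ℝ i).self_of_nhds]
    exact (ContinuousLinearMap.norm_iteratedFDeriv_comp_left _ a3.at (le_inf i)).trans
      ((mul_le_mul ((h s m).2.1 t k') a4 (norm_nonneg _) zero_le_one).trans_eq (one_mul _))

end

theorem jet_core (n : ℕ) (A0 C : ℝ) : ∃ D ≥ 1, ∀ (X E : Type) [NormedAddCommGroup X]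
    [NormedSpace ℝ X] [NormedAddCommGroup E] [NormedSpace ℝ E] (Z : ℝ × X → E)
    (A Ai : ℝ → E →L[ℝ] E) (W : ℝ → X × E → E) (m : ℝ → ℝ) (a b : ℝ) (x : X),
    ContinuousOn m (Icc a b) → ContinuousOn Ai (Icc a b) → ∫ s in a..b, m s ≤ A0 →
    (∀ s ∈ Icc a b, 0 ≤ m s ∧ SA Z (s, x) ∧ (∀ v, A s (Ai s v) = v) ∧
      (∀ s' ∈ Icc a s, ‖(Ai s).comp (A s')‖ ≤ 1) ∧ JD n (W s) (x, Ai s (Z (s, x))) (m s) ∧
      ∀ᶠ y in 𝓝 x, fderiv ℝ Z (s, y) (1, 0) = A s (W s (y, Ai s (Z (s, y))))) →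
    JD n (fun y => Ai a (Z (a, y))) x C → ∀ s ∈ Icc a b, JD n (fun y => Ai s (Z (s, y))) x D := by
  induction n with
  | zero => exact ⟨1, le_rfl, fun X E _ _ _ _ Z A Ai W m a b x _ _ _ h _ s k =>
      JD.zero ((sa_sl (h s k).2.1).clm _)⟩
  | succ n ih =>
    obtain ⟨D, D1, ih⟩ := ih
    have L0 : (0 : ℝ) ≤ 2 ^ n * (n ! * D ^ n) := by positivity
    refine ⟨(|C| + D) * Real.exp (2 ^ n * (n ! * D ^ n) * |A0|), one_le_mul_of_one_le_of_one_le
      (by linarith [abs_nonneg C]) (Real.one_le_exp (by positivity)),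
      fun X E _ _ _ _ Z A Ai W m a b x hm hA h0 h hC s k => ?_⟩
    have i := ih X E Z A Ai W m a b x hm hA h0 (fun s k => ⟨(h s k).1, (h s k).2.1, (h s k).2.2.1,
      (h s k).2.2.2.1, (h s k).2.2.2.2.1.ord n.le_succ, (h s k).2.2.2.2.2⟩) (hC.ord n.le_succ)
    obtain ⟨N, hN⟩ : ∃ N : ℝ → ℝ, N = fun s =>
      ‖iteratedFDeriv ℝ (n + 1) (fun y => Ai s (Z (s, y))) x‖ + D := ⟨_, rfl⟩
    have cN : ContinuousOn N (Icc a b) :=
      hN ▸ (jet_cont hA (fun s k => (h s k).2.1) _).add continuousOn_const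
    have j : ∀ s ∈ Icc a b, JD (n + 1) (fun y => Ai s (Z (s, y))) x (N s) := fun s k =>
      ⟨(i s k).sm, fun l l1 l2 => by
        rw [hN]
        rcases l2.eq_or_lt with rfl | l2
        · exact le_add_of_nonneg_right (by linarith)
        · exact ((i s k).le l l1 (by omega)).trans (le_add_of_nonneg_left (norm_nonneg _))⟩
    have cμ : ContinuousOn (fun s => 2 ^ n * (n ! * D ^ n) * m s) (Icc a b) :=
      continuousOn_const.mul hm
    have g := gron_int (c := |C| + D) cμ cN (fun t k => mul_nonneg L0 (h t k).1) (fun s k => ?_) s k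
    · refine (j s k).mono (g.trans (mul_le_mul_of_nonneg_left (Real.exp_le_exp.2 ?_) (by positivity)))
      rw [intervalIntegral.integral_const_mul]
      refine mul_le_mul_of_nonneg_left (le_trans ?_ (h0.trans (le_abs_self _))) L0
      exact intervalIntegral.integral_mono_interval le_rfl k.1 k.2
        ((ae_restrict_iff' measurableSet_Ioc).2 (ae_of_all _ fun t e => (h t (Ioc_subset_Icc_self e)).1))
        (hm.intervalIntegrable_of_Icc (k.1.trans k.2))
    have ka : a ∈ Icc a b := left_mem_Icc.2 (k.1.trans k.2)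
    have a1 := jet_key (i := n + 1) (Z := Z) (A := A) (Ai := Ai) (W := W) (x := x) (cμ.mul cN)
      (fun t e => ?_) k
    · have a2 := (hC.clm ((Ai s).comp (A a))).le (n + 1) (by omega) le_rfl
      simp only [ContinuousLinearMap.comp_apply, (h a ka).2.2.1] at a2
      have a3 : ‖(Ai s).comp (A a)‖ * C ≤ |C| := (mul_le_mul_of_nonneg_left (le_abs_self C)
        (norm_nonneg _)).trans (mul_le_of_le_one_left (abs_nonneg C)
          ((h s k).2.2.2.1 a (left_mem_Icc.2 k.1)))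
      simp only [map_sub] at a1
      rw [fun_iteratedFDeriv_sub_apply (((sa_sl (h s k).2.1).clm (Ai s)).atn _)
        (((sa_sl (h a ka).2.1).clm (Ai s)).atn _)] at a1
      have := norm_le_norm_sub_add (iteratedFDeriv ℝ (n + 1) (fun y => Ai s (Z (s, y))) x)
        (iteratedFDeriv ℝ (n + 1) (fun y => Ai s (Z (a, y))) x)
      have e : N s = ‖iteratedFDeriv ℝ (n + 1) (fun y => Ai s (Z (s, y))) x‖ + D := by rw [hN]
      simp only [Pi.mul_apply] at a1
      linarith
    · obtain ⟨-, b2, -, b4, b5, b6⟩ := h t e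
      have f1 := (JD.id.mono D1).prod (i t e)
      have f2 := (JD.id.mono (D1.trans (show D ≤ N t by
        rw [hN]; exact le_add_of_nonneg_left (norm_nonneg _)))).prod (j t e)
      have c := JD.of_fderiv (SA.comp (f := fun y => (y, Ai t (Z (t, y)))) b5.sm f1.sm)
        (((JB.comp (f := fun y => (y, Ai t (Z (t, y)))) b5.fderiv f1 D1).ccomp f2.fderiv).congr
        (fderiv_ev (f := fun y => (y, Ai t (Z (t, y)))) b5.sm f1.sm))
      exact ⟨b2, b4, c.sm, (c.le _ (by omega) le_rfl).trans_eq (by simp only [Pi.mul_apply]; ring), b6⟩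

/-- **JET.** -/
theorem jet : P354SA.JET := by
  intro n A0 C
  obtain ⟨D, D1, h⟩ := jet_core n A0 C
  have p : (0 : ℝ) ≤ n ! * D ^ n := by positivity
  refine ⟨D + n ! * D ^ n, by linarith, fun X E _ _ _ _ _ Z A Ai W m a b x hm hA h0 H hC s k => ?_⟩
  have i := h X E Z A Ai W m a b x hm hA h0 H hC
  refine ⟨(i s k).mono (by linarith), ((sa_sl (H s k).2.1).sub
    (sa_sl (H a (left_mem_Icc.2 (k.1.trans k.2))).2.1)).clm _, fun l l1 l2 => ?_⟩
  refine (jet_key (A := A) (W := W) (g := fun t => n ! * D ^ n * m t) (continuousOn_const.mul hm)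
    (fun t e => ?_) k).trans ?_
  · obtain ⟨b1, b2, -, b4, b5, b6⟩ := H t e
    have c := JD.comp (f := fun y => (y, Ai t (Z (t, y)))) b5 ((JD.id.mono D1).prod (i t e)) D1 b1
    exact ⟨b2, b4, c.sm, (c.le l l1 l2).trans_eq (by ring), b6⟩
  · rw [intervalIntegral.integral_const_mul]
    exact mul_le_mul_of_nonneg_right (by linarith) (intervalIntegral.integral_nonneg k.1
      fun t e => (H t ⟨e.1, e.2.trans k.2⟩).1)

end Vale.Agent.P354YC
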