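import Vale.Agent.P354YC.Hyn1
import Vale.Agent.P354XA.Xi

/-!
HYN: the bounds for the components of the metric in the far chart, for bounded radius.
-/

set_option linter.all false
set_option maxSynthPendingDepth 3

open scoped ContDiff
open Set Filter Topology

noncomputable section

namespace Vale.Agent.P354YC.Hn

open Vale.Agent.P354n (R4)
open Vale.Agent.P354I (rp Sg)
open Vale.Agent.P354R (Met Del)
open Vale.Agent.P354E (sg sg_sq)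
open Vale.Agent.P354XD (tb)
open Vale.Agent.P354XE Vale.Agent.P354XA
open Vale.Agent.P354SA (Th Tq ps e0 e1 ey dv gm yc)
open Vale.Agent.P354SC Vale.Agent.P354YI
open Vale.Agent.P354YO hiding sg sg_sq

theorem kc_kc (σ : Bool) (ψ : ℝ) (y : ℝ × ℝ) (b c : Fin 2) : kc σ ψ y b 0 * kc σ ψ y c 0 +
    kc σ ψ y b 1 * kc σ ψ y c 1 + kc σ ψ y b 2 * kc σ ψ y c 2 = g0 b c y := by
  have n := (qq_pos y).ne'
  have t := Real.cos_sq_add_sin_sq ψ
  have k : ∀ b c, tg σ y b 0 * tg σ y c 0 + tg σ y b 1 * tg σ y c 1 + tg σ y b 2 * tg σ y c 2 =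
      g0 b c y := fun b c => by
    fin_cases b <;> fin_cases c <;> cases σ <;> simp [tg, g0, sg] <;> field_simp <;> unfold qq <;> ring
  have e : ∀ b c, rt ψ (tg σ y b) 0 * rt ψ (tg σ y c) 0 + rt ψ (tg σ y b) 1 * rt ψ (tg σ y c) 1 +
      rt ψ (tg σ y b) 2 * rt ψ (tg σ y c) 2 = g0 b c y := fun b c => by
    rw [← k]
    simp only [rt, Matrix.cons_val]
    linear_combination (tg σ y b 0 * tg σ y c 0 + tg σ y b 1 * tg σ y c 1) * t
  have s := sg_sq σ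
  have e1 := e 0 0
  have e2 := e 0 1
  have e3 := e 1 1
  fin_cases b <;> fin_cases c <;> simp [kc, g0] at e1 e2 e3 ⊢
  · linear_combination sg σ * sg σ * e3 + 4 / qq y ^ 2 * s
  · linear_combination -sg σ * sg σ * e2
  · linear_combination -sg σ * sg σ * e2
  · linear_combination sg σ * sg σ * e1 + 4 / qq y ^ 2 * s

theorem kc_om (σ : Bool) (ψ : ℝ) (y : ℝ × ℝ) (b : Fin 2) : kc σ ψ y b 0 * rt ψ (om σ y) 0 +
    kc σ ψ y b 1 * rt ψ (om σ y) 1 + kc σ ψ y b 2 * rt ψ (om σ y) 2 = 0 := by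
  have n := (qq_pos y).ne'
  have t := Real.cos_sq_add_sin_sq ψ
  have k : ∀ b, tg σ y b 0 * om σ y 0 + tg σ y b 1 * om σ y 1 + tg σ y b 2 * om σ y 2 = 0 :=
    fun b => by fin_cases b <;> cases σ <;> simp [tg, om, sg] <;> field_simp <;> unfold qq <;> ring
  fin_cases b <;> simp [kc, rt]
  · linear_combination sg σ * k 1 + sg σ * (tg σ y 1 0 * om σ y 0 + tg σ y 1 1 * om σ y 1) * t
  · linear_combination -sg σ * k 0 - sg σ * (tg σ y 0 0 * om σ y 0 + tg σ y 0 1 * om σ y 1) * t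

/-- The angle form, and the coefficient of the null form. -/
def ch (M a : ℝ) (σ : Bool) (b : Fin 2) (x : R4) : ℝ :=
  kc σ (ps M a x.2.1) x.2.2 b 2 * (rt (ps M a x.2.1) (om σ x.2.2) 0 * rt (ps M a x.2.1) (om σ x.2.2) 0 +
    rt (ps M a x.2.1) (om σ x.2.2) 1 * rt (ps M a x.2.1) (om σ x.2.2) 1) - om σ x.2.2 2 *
    (kc σ (ps M a x.2.1) x.2.2 b 0 * rt (ps M a x.2.1) (om σ x.2.2) 0 +
      kc σ (ps M a x.2.1) x.2.2 b 1 * rt (ps M a x.2.1) (om σ x.2.2) 1)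
def fK (M a : ℝ) (σ : Bool) (x : R4) : ℝ := 2 * M * x.2.1 / (x.2.1 ^ 2 + a ^ 2 * om σ x.2.2 2 ^ 2)

/-- The components of the Kerr metric in the chart. -/
theorem ks {M a c : ℝ} {σ : Bool} {x : R4} (h : |a| < M) (hr : rp M a < x.2.1) :
    pb (Th M a σ c) (gin M a) x e1 e1 = 0 ∧ pb (Th M a σ c) (gin M a) x e1 (-1, 0, 0, 0) = -1 ∧
    (∀ b, pb (Th M a σ c) (gin M a) x e1 (ey b) = a * ch M a σ b x) ∧
    pb (Th M a σ c) (gin M a) x (-1, 0, 0, 0) (-1, 0, 0, 0) = -1 + fK M a σ x ∧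
    (∀ b, pb (Th M a σ c) (gin M a) x (-1, 0, 0, 0) (ey b) = -(fK M a σ x * (a * ch M a σ b x))) ∧
    ∀ b d, pb (Th M a σ c) (gin M a) x (ey b) (ey d) = x.2.1 ^ 2 * g0 b d x.2.2 +
      (a * a * (om σ x.2.2 2 * om σ x.2.2 2) * g0 b d x.2.2 +
        (1 + fK M a σ x) * (a * ch M a σ b x * (a * ch M a σ d x))) := by
  obtain ⟨-, h1, h2, -, -, h5, -⟩ := hor h
  have r0 : 0 < x.2.1 := (h1.trans_lt h2).trans hr
  have r := rd_Th (M := M) (a := a) (σ := σ) (c := c) r0.le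
  have n : rd (Th M a σ c x) ≠ 0 := r ▸ r0.ne'
  have nD : Del M a (rd (Th M a σ c x)) ≠ 0 := by
    rw [r, h5]; exact mul_ne_zero (sub_pos.2 hr).ne' (sub_pos.2 (h2.trans hr)).ne'
  have f1 : fderiv ℝ (Th M a σ c) x e1 = Lo M a (Th M a σ c x) := by simp [Th_fd h hr, e1, yc]
  have f0 : fderiv ℝ (Th M a σ c) x (-1, 0, 0, 0) = eT := by simp [Th_fd h hr, yc]
  have f2 : ∀ b, fderiv ℝ (Th M a σ c) x (ey b) =
      ∑ i, kc σ (ps M a x.2.1) x.2.2 b i • Om i (Th M a σ c x) := fun b => by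
    fin_cases b <;> simp [Th_fd h hr, ey, yc]
  have S : Sg a (rd (Th M a σ c x)) (xs (Th M a σ c x)) = x.2.1 ^ 2 + a ^ 2 * om σ x.2.2 2 ^ 2 := by
    rw [Sg_eq, r, Th_eq]
    simp only [rt, Matrix.cons_val]
    field_simp
  have y1 : ∀ b, (fderiv ℝ (Th M a σ c) x (ey b)).1 = 0 := fun b => by
    simp [f2, Fin.sum_univ_three, Om_fst]
  have y0 : ∀ b, ip (Th M a σ c x) (fderiv ℝ (Th M a σ c) x (ey b)) = 0 := fun b => by
    simp [f2, Fin.sum_univ_three, Om, ip]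
    ring
  have y2 : ∀ b, dr (Th M a σ c x) (fderiv ℝ (Th M a σ c) x (ey b)) = 0 := fun b => by
    rw [dr_eq, y0, zero_div]
  have y3 : ∀ b, dq (Th M a σ c x) (fderiv ℝ (Th M a σ c) x (ey b)) = ch M a σ b x := fun b => by
    rw [dq_eq, r, f2, Th_eq, ch, show om σ x.2.2 2 = rt (ps M a x.2.1) (om σ x.2.2) 2 from rfl]
    simp [Fin.sum_univ_three, Om]
    field_simp
    ring
  have y4 : ∀ b d, ip (fderiv ℝ (Th M a σ c) x (ey b)) (fderiv ℝ (Th M a σ c) x (ey d)) =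
      x.2.1 ^ 2 * g0 b d x.2.2 := fun b d => by
    have k := rd_sq (Th M a σ c x)
    rw [r] at k
    rw [f2, f2, ← kc_kc σ (ps M a x.2.1)]
    have k1 := kc_om σ (ps M a x.2.1) x.2.2 b
    simp [Fin.sum_univ_three, Om, ip, Th_eq] at k ⊢
    linear_combination -(kc σ (ps M a x.2.1) x.2.2 b 0 * kc σ (ps M a x.2.1) x.2.2 d 0 +
      kc σ (ps M a x.2.1) x.2.2 b 1 * kc σ (ps M a x.2.1) x.2.2 d 1 +
      kc σ (ps M a x.2.1) x.2.2 b 2 * kc σ (ps M a x.2.1) x.2.2 d 2) * k - x.2.1 ^ 2 *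
      (kc σ (ps M a x.2.1) x.2.2 d 0 * rt (ps M a x.2.1) (om σ x.2.2) 0 +
      kc σ (ps M a x.2.1) x.2.2 d 1 * rt (ps M a x.2.1) (om σ x.2.2) 1 +
      kc σ (ps M a x.2.1) x.2.2 d 2 * rt (ps M a x.2.1) (om σ x.2.2) 2) * k1
  have q0 : dq (Th M a σ c x) eT = 0 := by simp [dq_eq, eT]
  refine ⟨?_, ?_, fun b => ?_, ?_, fun b => ?_, fun b d => ?_⟩ <;> rw [pb]
  · rw [f1, gin_Lo' n nD, dr_Lo n, dq_Lo n, Lo_fst, lo1, P354YT.qm, P354YR.zc_c, div_pow]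
    field_simp
    unfold Del
    ring
  · rw [f1, f0, gin_Lo n nD (dr_T _), q0]
    simp [eT]
  · rw [f1, gin_Lo n nD (y2 b), y1, y3, neg_zero, zero_add]
  · rw [f0, gin_T (dr_T _), q0, S, r, fK]
    simp [eT]
  · rw [f0, gin_T (y2 b), y1, y3, S, r, fK]
    ring
  · rw [gin, kf, kf, rnd_eq, y0, y0, y1, y1, y2, y2, y3, y3, y4, S, r, fK]
    field_simp
    ring

/-- The data of the statement. -/
structure Pt where
  q : Par
  ε : ℝ
  g : Tw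
  D : Set R4
  T : ℝ
  z : R4

structure Pt.Ok (j : Pt) (M a E : ℝ) (m : ℕ) (σ : Bool) : Prop where
  nr : j.q.Near M a j.ε
  sm : j.ε ≤ 1 ∧ 2 * j.ε ≤ M - |a|
  r : 4 * (M + 1) + 1 ≤ j.z.2.1
  y : ‖j.z.2.2‖ ≤ E
  op : IsOpen j.D
  met : Met j.g j.D
  mem : Tq j.q σ j.T j.z ∈ j.D
  bd : Bd m (j.g - gin M a) (Tq j.q σ j.T j.z) j.ε

variable {M a E : ℝ} {m : ℕ} {σ : Bool}

theorem adm {J : Type} {P : J → Pt} (h : ∀ j, (P j).Ok M a E m σ) :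
    Adm (M + 1) E (fun j => (P j).q.M) (fun j => (P j).q.a) fun j => (P j).z :=
  ⟨fun j => by
    have := abs_sub_abs_le_abs_sub (P j).q.a a
    linarith [(abs_lt.1 (h j).nr.1).1, (h j).nr.2.1, (h j).sm.2],
  fun j => by linarith [(abs_lt.1 (h j).nr.1).2, (h j).sm.1], fun j => (h j).r, fun j => (h j).y⟩

/-- The difference to the Kerr metric with the final parameters. -/
def df (σ : Bool) (j : Pt) (v w x : R4) : ℝ :=
  pb (Tq j.q σ j.T) j.g x v w - pb (Th j.q.M j.q.a σ j.T) (gin j.q.M j.q.a) x v w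

theorem dif (M a E : ℝ) (m : ℕ) (σ : Bool) (ρ : ℝ) : ∃ C, 0 ≤ C ∧ ∀ (j : Pt) v w, j.Ok M a E m σ →
    12 * j.ε * ρ ≤ 1 → j.z.2.1 ≤ ρ → ‖v‖ ≤ 1 → ‖w‖ ≤ 1 →
    ContDiffAt ℝ ∞ (fun ξ => df σ j v w (ds j.z ξ)) 0 ∧
      Jb m (fun ξ => df σ j v w (ds j.z ξ)) 0 (C * j.ε) := by
  obtain ⟨C, c0, hC⟩ := kerr_bd M a ρ m
  let J := {i : Pt × R4 × R4 // i.1.Ok M a E m σ ∧ 12 * i.1.ε * ρ ≤ 1 ∧ i.1.z.2.1 ≤ ρ ∧
    ‖i.2.1‖ ≤ 1 ∧ ‖i.2.2‖ ≤ 1}
  let P : J → Pt := fun i => i.1.1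
  have ok : ∀ i, (P i).Ok M a E m σ := fun i => i.2.1
  have h := adm ok
  let p : J → R4 := fun i => Th (P i).q.M (P i).q.a σ (P i).T (P i).z
  have r : ∀ i, rd (p i) = (P i).z.2.1 := fun i => rd_Th (h.r0 i).le
  have r0 : ∀ i, 0 < rd (p i) := fun i => r i ▸ h.r0 i
  have rl : ∀ i, 0 < rd ((P i).q.lin (p i)) := fun i => by rw [rd_lin (ok i).nr.2.2.2.1]; exact r0 i
  have sl : ∀ i, ContDiffAt ℝ ∞ (P i).q.lin (p i) := fun i => (linL _).contDiff.contDiffAt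
  have sg : ∀ i, Sb (P i).g ((P i).q.lin (p i)) := fun i =>
    ⟨mem_of_superset ((ok i).op.mem_nhds (ok i).mem) fun _ hy => met_bil (ok i).met hy,
      fun v w => ((ok i).met.smooth v w).contDiffAt ((ok i).op.mem_nhds (ok i).mem)⟩
  have n0 : ∀ i, 0 ≤ (P i).ε := fun i => ((abs_nonneg _).trans_lt (ok i).nr.1).le
  have a1 := oj_pb sl (m := m) ((Oj.const (v := fun i => linL (P i).q) (fun _ => zero_le_one)
    ⟨4, fun i => by
      have := norm_le_norm_sub_add (linL (P i).q) 1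
      have := ContinuousLinearMap.norm_id_le (𝕜 := ℝ) (E := R4)
      linarith [lin_nr (ok i).nr, (ok i).sm.1, Pi.one_apply (M := fun _ => ℝ) i,
        show ‖(1 : R4 →L[ℝ] R4)‖ ≤ 1 from this]⟩).congr' fun i y => (linL _).fderiv)
    (fun i => (sg i).sub (sb_gin (rl i))) (oj_of_bd (fun i => (sg i).sub (sb_gin (rl i)))
      fun i => (ok i).bd)
  have s2 : ∀ i, Sb (pb (P i).q.lin (gin M a) - gin (P i).q.M (P i).q.a) (p i) := fun i =>
    ((sb_gin (rl i)).pull (sl i)).sub (sb_gin (r0 i))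
  have a2 := (oj_of_bd s2 fun i => hC _ _ _ (ok i).nr i.2.2.1 (r i ▸ h.r1 i) (r i ▸ i.2.2.2.1)).wt
    (c := C) n0 fun _ => le_rfl
  have A := fun m => o_dTh (n := m) (c := fun i => (P i).T) h (fun i => i.2.2.2.1) σ
  have a3 := Oj.comp (h.Th_sm (c := fun i => (P i).T) σ) m (A _)
    (G := fun i y => tb (pb (P i).q.lin ((P i).g - gin M a)) y +
      tb (pb (P i).q.lin (gin M a) - gin (P i).q.M (P i).q.a) y)
    (by simpa only [Pi.zero_apply, ds_zero] using a1.add a2)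
  have b : ∀ {u : J → R4}, (∀ i, ‖u i‖ ≤ 1) →
      Oj m (0 : J → R4) (fun i _ => dL (P i).z.2.1⁻¹ (u i)) 1 := fun {u} k =>
    .const (fun _ => zero_le_one) ⟨1, fun i => by
      have k2 := (norm_snd_le _).trans (k i)
      rw [Pi.one_apply, one_mul]
      exact max_le ((norm_fst_le (u i)).trans (k i)) (max_le ((abs_mul _ _).trans_le (mul_le_one₀
        ((abs_of_pos (inv_pos.2 (h.r0 i))).trans_le (h.ri1 i)) (abs_nonneg _)
        ((norm_fst_le _).trans k2))) ((norm_snd_le (u i).2).trans k2))⟩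
  have a4 : Oj m 0 (fun i ξ => df σ (P i) i.1.2.1 i.1.2.2 (ds (P i).z ξ)) fun i => (P i).ε := by
    refine ((a3.apl ((A m).apl (b fun i => i.2.2.2.2.1))).apl
      ((A m).apl (b fun i => i.2.2.2.2.2))).congr fun i => ?_
    have t := Th_cd (σ := σ) (c := (P i).T) (h.ha i) (h.rp_lt i)
    filter_upwards [fd_ds t, ev_ds (P354YI.ev_dif t), ev_ds (t.continuousAt.eventually
      ((((sg i).sub (sb_gin (rl i))).pull (sl i)).bl.and (s2 i).bl))] with ξ k1 k2 k3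
    simp only [← k1, dL_inv (h.r0 i).ne', add_apply]
    rw [tb_ap k3.1, tb_ap k3.2]
    simp only [Pi.sub_apply, pb_lin, df]
    rw [pb, pb, Tq, show fderiv ℝ ((P i).q.lin ∘ _) _ = _ from
      ((linL (P i).q).hasFDerivAt.comp _ k2.hasFDerivAt).fderiv]
    exact (sub_add_sub_cancel _ _ _).symm
  obtain ⟨C', c1, k⟩ := a4.bd
  exact ⟨C', c1, fun j v w h1 h2 h3 h4 h5 =>
    ⟨a4.sm ⟨(j, v, w), h1, h2, h3, h4, h5⟩, k ⟨(j, v, w), h1, h2, h3, h4, h5⟩⟩⟩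

theorem hyn1 (M a E : ℝ) (n : ℕ) (σ : Bool) : ∀ᶠ K in atTop, ∀ ρ : ℝ, ∀ᶠ ε0 in 𝓝[>] (0 : ℝ),
    ∀ j : Pt, j.Ok M a E (n + 1) σ → j.ε ≤ ε0 → j.z.2.1 ≤ ρ → ∀ e w d, 0 ≤ e → 0 ≤ w → 0 ≤ d →
      Hy n K e w d 1 (pb (Tq j.q σ j.T) j.g) 0 j.z := by
  choose C c0 hC using dif M a E (n + 1) σ
  let J := {i : Pt × ℝ // i.1.Ok M a E (n + 1) σ ∧ 12 * i.1.ε * i.2 ≤ 1 ∧ i.1.z.2.1 ≤ i.2 ∧
    C i.2 * i.1.ε * i.2 ^ 3 ≤ 1}
  let P : J → Pt := fun i => i.1.1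
  have ok : ∀ i, (P i).Ok M a E (n + 1) σ := fun i => i.2.1
  have h := adm ok
  have i0 := fun i => inv_nonneg.2 (h.r0 i).le
  have D : ∀ v w : R4, ‖v‖ ≤ 1 → ‖w‖ ≤ 1 → Oj (n + 1) 0 (fun i ξ => df σ (P i) v w (ds (P i).z ξ))
      fun i => (P i).z.2.1⁻¹ ^ 3 := fun v w hv hw =>
    .of (fun i => (hC _ _ v w (ok i) i.2.2.1 i.2.2.2.1 hv hw).1) fun i =>
      (hC _ _ v w (ok i) i.2.2.1 i.2.2.2.1 hv hw).2.mono le_rfl (by
        rw [inv_pow, ← one_div, le_div_iff₀ (pow_pos (h.r0 i) 3)]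
        exact (mul_le_mul_of_nonneg_left (pow_le_pow_left₀ (h.r0 i).le i.2.2.2.1 3) (mul_nonneg
          (c0 _) ((abs_nonneg _).trans_lt (ok i).nr.1).le)).trans i.2.2.2.2)
  have D1 := fun v w hv hw => (D v w hv hw).mono le_rfl fun i =>
    pow_le_of_le_one (i0 i) (h.ri1 i) three_ne_zero
  have D2 := fun v w hv hw => (D1 v w hv hw).mono (ν := 1) le_rfl h.ri1
  have n1 : ‖e1‖ ≤ 1 := by simp [e1]
  have n0 : ‖((-1, 0, 0, 0) : R4)‖ ≤ 1 := by simp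
  have n2 : ∀ b, ‖ey b‖ ≤ 1 := fun b => by fin_cases b <;> simp [ey]
  have ev := fun i => (h.ev i).mono fun ξ k => ks (σ := σ) (c := (P i).T) (h.ha i) k
  have o2 := h.o_fy (n := n + 1) (om_cd σ 2)
  have oc : ∀ b, Oj (n + 1) 0 (fun i ξ => (P i).q.a * ch (P i).q.M (P i).q.a σ b (ds (P i).z ξ)) 1 :=
    fun b => o_mull h.o_a ((o_mull (h.o_kc σ b 2) ((o_mull (h.o_rt (om_cd σ) 0) (h.o_rt (om_cd σ) 0)).add
      (o_mull (h.o_rt (om_cd σ) 1) (h.o_rt (om_cd σ) 1)))).sub (o_mull o2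
        ((o_mull (h.o_kc σ b 0) (h.o_rt (om_cd σ) 0)).add (o_mull (h.o_kc σ b 1) (h.o_rt (om_cd σ) 1)))))
  have oF : Oj (n + 1) 0 (fun i ξ => fK (P i).q.M (P i).q.a σ (ds (P i).z ξ))
      fun i => (P i).z.2.1⁻¹ := (o_mull (o_mull (o_par i0) (o_mull (o_sm 2 h.o_M) Adm.o_x))
    (o_inv ((o_mull Adm.o_x Adm.o_x).add (o_mull (o_mull (o_bd h.ar) o2) (o_mull (o_bd h.ar) o2)))
      one_pos fun i => by simpa using mul_self_nonneg _)).congr' fun i ξ => by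
        have := (h.r0 i).ne'
        rw [fK, ds_r, show ∀ x y a w : ℝ, x ≠ 0 → (x * y) ^ 2 + a ^ 2 * w ^ 2 =
          x ^ 2 * (y * y + a / x * w * (a / x * w)) from fun x y a w k => by field_simp, div_eq_mul_inv,
          mul_inv]
        · field_simp
        · exact this
  have oF1 := oF.mono (ν := 1) le_rfl h.ri1
  filter_upwards [hy_of (G := fun i => pb (Tq (P i).q σ (P i).T) (P i).g) h
    ((D _ _ n1 n1).congr fun i => (ev i).mono fun ξ k => by simp only [df, k.1, sub_zero])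
    ((D1 _ _ n1 n0).congr fun i => (ev i).mono fun ξ k => by simp only [df, k.2.1, sub_neg_eq_add])
    (fun b => ((D2 _ _ n1 (n2 b)).add (oc b)).congr fun i => (ev i).mono fun ξ k => by
      simp only [df, k.2.2.1, sub_add_cancel])
    (((D1 _ _ n0 n0).add oF).congr fun i => (ev i).mono fun ξ k => by
      simp only [df, k.2.2.2.1]; ring)
    (fun b => ((D2 _ _ n0 (n2 b)).sub (o_mull oF1 (oc b))).congr fun i => (ev i).mono fun ξ k => by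
      simp only [df, k.2.2.2.2.1]; ring)
    fun b c => (((D2 _ _ (n2 b) (n2 c)).add ((o_mull (o_mull (o_mull h.o_a h.o_a) (o_mull o2 o2))
      (h.o_fy (g0_cd b c))).add (o_mull ((Oj.cst 1).add oF1) (o_mull (oc b) (oc c))))).mono le_rfl
        h.r1).congr fun i => (ev i).mono fun ξ k => by simp only [df, k.2.2.2.2.2]; ring] with K k ρ
  have t : ∀ c : ℝ, ∀ᶠ ε0 in 𝓝[>] (0 : ℝ), |c| * ε0 ≤ 1 := fun c => nhdsWithin_le_nhds
    ((show ContinuousAt (fun x : ℝ => |c| * x) 0 by fun_prop).eventually_le_const (by simp))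
  filter_upwards [t (12 * ρ), t (C ρ * ρ ^ 3)] with ε0 k1 k2 j h1 h2 h3
  have u : ∀ c, |c| * ε0 ≤ 1 → c * j.ε ≤ 1 := fun c e => (mul_le_mul (le_abs_self c) h2
    ((abs_nonneg _).trans_lt h1.nr.1).le (abs_nonneg c)).trans e
  exact k ⟨(j, ρ), h1, by linarith [u _ k1], h3, by linarith [u _ k2]⟩

end Hn

/-- **HYN.** -/
theorem hyn : P354SC.HYN := fun M a E h n => by
  obtain ⟨K, k⟩ := (eventually_all.2 (Hn.hyn1 M a E n)).exists
  refine ⟨K, fun ρ => ?_⟩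
  obtain ⟨ε0, k1, k2, k3⟩ := ((eventually_all.2 fun σ => k σ ρ).and (Ioo_mem_nhdsGT
    (lt_min one_pos (half_pos (sub_pos.2 h))))).exists
  refine ⟨ε0, k2, fun q ε N g D σ T z e w d a1 a2 a3 a4 a5 a6 a7 a8 a9 b1 => ?_⟩
  rw [lt_min_iff] at k3
  exact k1 σ ⟨q, ε, g, D, T, z⟩ ⟨a1, ⟨by linarith [k3.1], by linarith [k3.2]⟩, a4, a6, a7, a8, a9,
    P354YO.bd_mono b1 (by omega) le_rfl⟩ a2 a5 e w d

end Vale.Agent.P354YC
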