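import Vale.Agent.P354XU.Defs

/-!
The frame of Gram and Schmidt as a smooth function of the bilinear form.
-/

set_option maxSynthPendingDepth 3

open scoped ContDiff
open Set Filter Topology Metric

noncomputable section

namespace Vale.Agent.P354YC

open Vale.Agent.P354n (R4 mink)
open Vale.Agent.P354RC
open Vale.Agent.P354XE (eT)
open Vale.Agent.P354XU (L4)

/-- Normalisation and projection. -/
def nm (h : B2) (s : ℝ) (v : R4) : R4 := (√(s * h v v))⁻¹ • v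
def pj (h : B2) (v e : R4) : R4 := v - h v e • e

/-- The vectors of the frame. -/
def e1 (h : B2) : R4 := nm h 1 (bs 1)
def f2 (h : B2) : R4 := pj h (bs 2) (e1 h)
def e2 (h : B2) : R4 := nm h 1 (f2 h)
def f3 (h : B2) : R4 := pj h (pj h (bs 3) (e1 h)) (e2 h)
def e3 (h : B2) : R4 := nm h 1 (f3 h)
def f0 (h : B2) : R4 := pj h (pj h (pj h (bs 0) (e1 h)) (e2 h)) (e3 h)
def e0 (h : B2) : R4 := nm h (-1) (f0 h)

/-- The frame and its domain. -/
def fr (h : B2) : L4 :=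
  (cv 0).smulRight (e0 h) + (cv 1).smulRight (e1 h) + (cv 2).smulRight (e2 h) +
    (cv 3).smulRight (e3 h)
def UU : Set B2 :=
  {h | 0 < 1 * h (bs 1) (bs 1) ∧ 0 < 1 * h (f2 h) (f2 h) ∧ 0 < 1 * h (f3 h) (f3 h) ∧
    0 < -1 * h (f0 h) (f0 h)}

variable {h h' : B2} {s : ℝ} {v w e : R4}

theorem fr_ap (v : R4) :
    fr h v = v.1 • e0 h + v.2.1 • e1 h + v.2.2.1 • e2 h + v.2.2.2 • e3 h := rfl

section
variable {v e : B2 → R4} (hv : ContDiffAt ℝ ∞ v h) (he : ContDiffAt ℝ ∞ e h)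
include hv he

theorem ap_cd : ContDiffAt ℝ ∞ (fun h => h (v h) (e h)) h :=
  (contDiffAt_id.clm_apply hv).clm_apply he

theorem pj_cd : ContDiffAt ℝ ∞ (fun h => pj h (v h) (e h)) h := hv.sub ((ap_cd hv he).smul he)

omit he in
theorem nm_cd (p : 0 < s * h (v h) (v h)) : ContDiffAt ℝ ∞ (fun h => nm h s (v h)) h :=
  (((contDiffAt_const.mul (ap_cd hv hv)).sqrt p.ne').inv (Real.sqrt_pos.2 p).ne').smul hv

omit he in
theorem pos_ev (p : 0 < s * h (v h) (v h)) : ∀ᶠ h in 𝓝 h, 0 < s * h (v h) (v h) :=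
  (contDiffAt_const.mul (ap_cd hv hv)).continuousAt.eventually (lt_mem_nhds p)

end

theorem fr_cd (k : h ∈ UU) : ContDiffAt ℝ ∞ fr h ∧ UU ∈ 𝓝 h := by
  have c : ∀ i, ContDiffAt ℝ ∞ (fun _ : B2 => bs i) h := fun _ => contDiffAt_const
  have a1 := nm_cd (c 1) k.1
  have b2 := pj_cd (c 2) a1
  have a2 := nm_cd b2 k.2.1
  have b3 := pj_cd (pj_cd (c 3) a1) a2
  have a3 := nm_cd b3 k.2.2.1
  have b0 := pj_cd (pj_cd (pj_cd (c 0) a1) a2) a3
  exact ⟨(((contDiffAt_const.smulRight (nm_cd b0 k.2.2.2)).add (contDiffAt_const.smulRight a1)).add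
      (contDiffAt_const.smulRight a2)).add (contDiffAt_const.smulRight a3),
    (pos_ev (c 1) k.1).and ((pos_ev b2 k.2.1).and ((pos_ev b3 k.2.2.1).and (pos_ev b0 k.2.2.2)))⟩

theorem UU_open : IsOpen UU := isOpen_iff_mem_nhds.2 fun _ k => (fr_cd k).2

theorem nm_nm (p : 0 < s * h v v) (q : s * s = 1) : h (nm h s v) (nm h s v) = s := by
  simp only [nm, map_smul, smul_apply, smul_eq_mul]
  rw [← mul_assoc, ← mul_inv, Real.mul_self_sqrt p.le, inv_mul_eq_iff_eq_mul₀ p.ne']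
  linear_combination (-h v v) * q

theorem nm_l (k : h v w = 0) : h (nm h s v) w = 0 := by simp [nm, k]
theorem pj_e (k : h e e = 1) : h (pj h v e) e = 0 := by simp [pj, k]
theorem pj_l (k : h v w = 0) (k' : h e w = 0) : h (pj h v e) w = 0 := by simp [pj, k, k']
theorem nm_r (p : 0 < s * h v v) (k : h w (nm h s v) = 0) : h w v = 0 := by
  simpa [nm, (Real.sqrt_pos.2 p).ne'] using k
theorem pj_r (k : h w (pj h v e) = 0) (k' : h w e = 0) : h w v = 0 := by simpa [pj, k'] using k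

/-- The products of the first three vectors and of f0. -/
theorem prods (p1 : 0 < 1 * h (bs 1) (bs 1))
    (p2 : 0 < 1 * h (f2 h) (f2 h)) (p3 : 0 < 1 * h (f3 h) (f3 h)) :
    (h (e1 h) (e1 h) = 1 ∧ h (e2 h) (e2 h) = 1 ∧ h (e3 h) (e3 h) = 1) ∧
      (h (e2 h) (e1 h) = 0 ∧ h (e3 h) (e1 h) = 0 ∧ h (e3 h) (e2 h) = 0) ∧
      h (f0 h) (e1 h) = 0 ∧ h (f0 h) (e2 h) = 0 ∧ h (f0 h) (e3 h) = 0 := by
  have a1 := nm_nm p1 (one_mul 1)
  have a2 := nm_nm p2 (one_mul 1)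
  have a3 := nm_nm p3 (one_mul 1)
  have b21 : h (e2 h) (e1 h) = 0 := nm_l (pj_e a1)
  have b31 : h (e3 h) (e1 h) = 0 := nm_l (pj_l (pj_e a1) b21)
  have b32 : h (e3 h) (e2 h) = 0 := nm_l (pj_e a2)
  exact ⟨⟨a1, a2, a3⟩, ⟨b21, b31, b32⟩, pj_l (pj_l (pj_e a1) b21) b31, pj_l (pj_e a2) b32, pj_e a3⟩

theorem fr_on (sy : ∀ a b, h a b = h b a) (k : h ∈ UU) (v w : R4) :
    h (fr h v) (fr h w) = mink v w := by
  obtain ⟨⟨a1, a2, a3⟩, ⟨b1, b2, b3⟩, c1, c2, c3⟩ := prods k.1 k.2.1 k.2.2.1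
  have a0 : h (e0 h) (e0 h) = -1 := nm_nm k.2.2.2 (by norm_num)
  have d1 : h (e0 h) (e1 h) = 0 := nm_l c1
  have d2 : h (e0 h) (e2 h) = 0 := nm_l c2
  have d3 : h (e0 h) (e3 h) = 0 := nm_l c3
  simp only [fr_ap, map_add, map_smul, add_apply, smul_apply, smul_eq_mul, a0, a1, a2, a3, b1, b2,
    b3, d1, d2, d3, sy (e1 h) (e2 h), sy (e1 h) (e3 h), sy (e2 h) (e3 h), sy (e1 h) (e0 h),
    sy (e2 h) (e0 h), sy (e3 h) (e0 h), mink, P354n.cu, P354n.cv, P354n.c1, P354n.c2]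
  ring

theorem e_fst : (e1 h).1 = 0 ∧ (e2 h).1 = 0 ∧ (e3 h).1 = 0 ∧ (f0 h).1 = 1 := by
  simp [e1, e2, e3, f0, f2, f3, nm, pj, bs]

theorem fr_fst (v : R4) : (fr h v).1 = v.1 * (fr h eT).1 := by simp [fr_ap, e_fst, eT]

theorem fr_pos (k : h ∈ UU) : 0 < (fr h eT).1 := by
  simpa [fr_ap, e_fst, eT, e0, nm] using k.2.2.2

theorem mem_UU (sy : ∀ a b, h a b = h b a) (sp : ∀ v : R4, v ≠ 0 → v.1 = 0 → 0 < h v v) {u : R4}
    (tl : h u u < 0) : h ∈ UU := by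
  have p1 : 0 < 1 * h (bs 1) (bs 1) := (sp _ (by simp [bs]) rfl).trans_eq (one_mul _).symm
  have p2 : 0 < 1 * h (f2 h) (f2 h) := (sp _ (fun k => by
    simpa [f2, e1, nm, pj, bs] using congrArg (·.2.2.1) k) (by
      simp [f2, pj, e_fst, bs])).trans_eq (one_mul _).symm
  have p3 : 0 < 1 * h (f3 h) (f3 h) := (sp _ (fun k => by
    simpa [f3, e2, f2, e1, nm, pj, bs] using congrArg (·.2.2.2) k) (by
      simp [f3, pj, e_fst, bs])).trans_eq (one_mul _).symm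
  refine ⟨p1, p2, p3, ?_⟩
  obtain ⟨-, -, c1, c2, c3⟩ := prods p1 p2 p3
  have d1 := nm_r p1 c1
  have d2 := pj_r (nm_r p2 c2) c1
  have d3 := pj_r (pj_r (nm_r p3 c3) c2) c1
  obtain ⟨t, w, w0, rfl⟩ : ∃ (t : ℝ) (w : R4), w.1 = 0 ∧ u = t • f0 h + w :=
    ⟨u.1, u - u.1 • f0 h, by simp [e_fst], by abel⟩
  have z : h (f0 h) w = 0 := by
    rw [← sum_bs w]
    simp [Fin.sum_univ_four, d1, d2, d3, show cv 0 w = 0 from w0]
  have n : 0 ≤ h w w := by
    rcases eq_or_ne w 0 with rfl | a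
    exacts [by simp, (sp w a w0).le]
  simp only [map_add, map_smul, add_apply, smul_apply, smul_eq_mul, sy w (f0 h), z] at tl
  nlinarith [mul_self_nonneg t]

theorem nm_eq (k : ∀ v w : R4, v.1 = 0 → w.1 = 0 → h v w = h' v w) (a : v.1 = 0) :
    nm h s v = nm h' s v := by rw [nm, nm, k v v a a]
theorem pj_eq (k : ∀ v w : R4, v.1 = 0 → w.1 = 0 → h v w = h' v w) (a : v.1 = 0) (b : e.1 = 0) :
    pj h v e = pj h' v e := by rw [pj, pj, k v e a b]

/-- The spatial part of the frame depends on the spatial part of the form only. -/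
theorem fr_sp (k : ∀ v w : R4, v.1 = 0 → w.1 = 0 → h v w = h' v w) (a : v.1 = 0) :
    fr h v = fr h' v := by
  have a1 : e1 h = e1 h' := nm_eq k rfl
  have a2 : e2 h = e2 h' := by
    rw [e2, e2, nm_eq k (by simp [f2, pj, e_fst, bs]), f2, f2, pj_eq k rfl e_fst.1, a1]
  have a3 : e3 h = e3 h' := by
    rw [e3, e3, nm_eq k (by simp [f3, pj, e_fst, bs]), f3, f3,
      pj_eq k (by simp [pj, e_fst, bs]) e_fst.2.1, pj_eq k rfl e_fst.1, a1, a2]
  rw [fr_ap, fr_ap, a, zero_smul, zero_smul, a1, a2, a3]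

theorem mink_nd (k : ∀ w, mink v w = 0) : v = 0 := by
  have k0 := k (bs 0)
  have k1 := k (bs 1)
  have k2 := k (bs 2)
  have k3 := k (bs 3)
  simp [mink, P354n.cu, P354n.cv, P354n.c1, P354n.c2, bs] at k0 k1 k2 k3
  exact Prod.ext k0 (Prod.ext k1 (Prod.ext k2 k3))

theorem inv_of {E : L4} (i : Function.Injective E) : E.IsInvertible :=
  ⟨(LinearEquiv.ofBijective E.toLinearMap ⟨i, surj_of_inj i⟩).toContinuousLinearEquiv, rfl⟩

theorem on_inv {E : L4} {B : R4 → R4 → ℝ} (z : ∀ w, B 0 w = 0)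
    (k : ∀ v w, B (E v) (E w) = mink v w) : E.IsInvertible :=
  inv_of ((injective_iff_map_eq_zero _).2 fun v a => mink_nd fun w => by rw [← k, a, z])

theorem fr_inv (sy : ∀ a b, h a b = h b a) (k : h ∈ UU) : (fr h).IsInvertible :=
  on_inv (B := fun a b => h a b) (by simp) (fr_on sy k)

theorem h_inv (sy : ∀ a b, h a b = h b a) (k : h ∈ UU) : h.IsInvertible :=
  inv_of_inj fun a z => by
    obtain ⟨v, rfl⟩ := (fr_inv sy k).surjective a
    rw [mink_nd (v := v) fun w => by rw [← fr_on sy k, z], map_zero]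

/-- The forms with bounds. -/
def KK (B : ℝ) : Set B2 :=
  {h | (∀ a b, h a b = h b a) ∧ ‖h‖ ≤ B ∧ (∀ v : R4, v.1 = 0 → ‖v‖ ^ 2 ≤ B * h v v) ∧
    ∃ u, ‖u‖ ≤ B ∧ B * h u u ≤ -1}

theorem KK_sub {B : ℝ} (k : h ∈ KK B) : h ∈ UU := by
  obtain ⟨sy, -, sp, u, u1, u2⟩ := k
  have B0 : 0 ≤ B := (norm_nonneg _).trans u1
  exact mem_UU sy (fun v v0 a => pos_of_mul_pos_right
    ((pow_pos (norm_pos_iff.2 v0) 2).trans_le (sp v a)) B0) (u := u)
    (neg_of_mul_neg_right (u2.trans_lt neg_one_lt_zero) B0)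

theorem KK_cpt (B : ℝ) : IsCompact (KK B) := by
  have : KK B = Prod.fst '' ((closedBall 0 B ×ˢ closedBall 0 B) ∩ {z : B2 × R4 |
      (∀ a b, z.1 a b = z.1 b a) ∧ (∀ v : R4, v.1 = 0 → ‖v‖ ^ 2 ≤ B * z.1 v v) ∧
        B * z.1 z.2 z.2 ≤ -1}) := by
    ext h
    simp only [KK, mem_image, mem_inter_iff, mem_prod, mem_closedBall_zero_iff, mem_ofPred_eq,
      Prod.exists, exists_and_right, exists_eq_right]
    tauto
  rw [this]
  refine (((isCompact_closedBall _ _).prod (isCompact_closedBall _ _)).inter_right ?_).image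
    continuous_fst
  simp only [ofPred_and, ofPred_forall]
  exact (isClosed_iInter fun _ => isClosed_iInter fun _ =>
    isClosed_eq (by fun_prop) (by fun_prop)).inter ((isClosed_iInter fun _ =>
      isClosed_iInter fun _ => isClosed_le (by fun_prop) (by fun_prop)).inter
        (isClosed_le (by fun_prop) (by fun_prop)))

theorem KK_bd (B : ℝ) : ∃ C ≥ 1, B ≤ C ∧ ∀ h ∈ KK B, ‖fr h‖ ≤ C ∧ ‖(fr h).inverse‖ ≤ C ∧
    ‖fderiv ℝ fr h‖ ≤ C ∧ ‖h.inverse‖ ≤ C := by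
  obtain ⟨C, hC⟩ := (KK_cpt B).exists_bound_of_continuousOn
    (f := fun h => (fr h, (fr h).inverse, fderiv ℝ fr h, h.inverse)) fun h k => by
      have a := (fr_cd (KK_sub k)).1
      exact (a.continuousAt.prodMk ((((fr_inv k.1 (KK_sub k)).contDiffAt_map_inverse
        (n := ∞)).comp h a).continuousAt.prodMk ((a.continuousAt_fderiv (by simp)).prodMk
          ((h_inv k.1 (KK_sub k)).contDiffAt_map_inverse (n := 0)).continuousAt))).continuousWithinAt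
  refine ⟨max (max 1 B) C, le_max_of_le_left (le_max_left _ _),
    le_max_of_le_left (le_max_right _ _), fun h k => ?_⟩
  simpa only [norm_prod_le_iff] using (hC h k).trans (le_max_right (max 1 B) C)

end Vale.Agent.P354YC
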