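import Vale.Agent.P354YC.Loc
import Vale.Agent.P354P.Main

/-!
COL: the collar of a spacelike slice.
-/

open scoped ContDiff
open Set Filter Topology Metric

namespace Vale.Agent.P354YC

open Vale.Agent.P354n
open Vale.Agent.P354I (X Dat IsDev)
open Vale.Agent.P354R (Pull)
open Vale.Agent.P354XE (Tw Lor Tm Cut Ind)
open Vale.Agent.P354J (PDy)
open Vale.Agent.P354RC
open Vale.Agent.P354XJ

/-- A locally injective map which embeds a subset is injective near the subset. -/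
theorem god {ι A B : Type} [TopologicalSpace ι] [PseudoMetricSpace A] [PseudoMetricSpace B]
    {J : ι → A} {κ : A → B} (hJ : Continuous J) (hj : IsInducing fun i => κ (J i))
    (hc : ∀ i, ContinuousAt κ (J i)) (inj : ∀ i, ∃ N ∈ 𝓝 (J i), InjOn κ N) :
    ∃ V, (∀ i, V ∈ 𝓝 (J i)) ∧ InjOn κ V := by
  have ex : ∀ i, ∃ r s : ℝ, 0 < s ∧ s ≤ r ∧ InjOn κ (ball (J i) (2 * r)) ∧
      ∀ k, dist (κ (J k)) (κ (J i)) < 2 * s → dist (J k) (J i) < r := fun i => by
    obtain ⟨N, hN, a⟩ := inj i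
    obtain ⟨r, r0, b⟩ := Metric.mem_nhds_iff.1 hN
    have c := hJ.continuousAt (x := i) (ball_mem_nhds _ (half_pos r0))
    rw [mem_map, hj.nhds_eq_comap] at c
    obtain ⟨t, t1, t2⟩ := c
    obtain ⟨s, s0, t3⟩ := Metric.mem_nhds_iff.1 t1
    refine ⟨r / 2, min (s / 2) (r / 2), by positivity, min_le_right _ _,
      a.mono (by rwa [mul_div_cancel₀ _ two_ne_zero]), fun k hk => t2 (t3 (hk.trans_le ?_))⟩
    linarith [min_le_left (s / 2) (r / 2)]
  choose r s s0 sr a b using ex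
  have key : ∀ i k p q, s k ≤ s i → dist p (J i) < s i ∧ dist (κ p) (κ (J i)) < s i →
      dist q (J k) < s k ∧ dist (κ q) (κ (J k)) < s k → κ p = κ q → p = q :=
    fun i k p q l u v e => by
      have c := b i k (by
        linarith [dist_triangle_left (κ (J k)) (κ (J i)) (κ q), v.2, e ▸ u.2])
      refine a i (mem_ball.2 ?_) (mem_ball.2 ?_) e
      · linarith [u.1, sr i, s0 i]
      · linarith [dist_triangle q (J k) (J i), v.1, sr i]
  refine ⟨{p | ∃ i, dist p (J i) < s i ∧ dist (κ p) (κ (J i)) < s i}, fun i => ?_,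
    fun p ⟨i, u⟩ q ⟨k, v⟩ e => (le_total (s k) (s i)).elim (fun l => key i k p q l u v e)
      fun l => (key k i q p l v u e.symm).symm⟩
  filter_upwards [ball_mem_nhds (J i) (s0 i), hc i (ball_mem_nhds _ (s0 i))] with p u v
  exact ⟨i, u, v⟩

variable {g : Tw} {D : Set R4} {Xf : R4 → R4} {J : X → R4} {d : Dat} {M : Spc}
  {j : X → M.pt} {y : X}

theorem nz (hy : y ≠ 0) : ({0}ᶜ : Set X) ∈ 𝓝 y := isOpen_compl_singleton.mem_nhds hy

theorem cont_j (hM : IsDev d M j) (hy : y ≠ 0) : ContinuousAt j y :=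
  (continuousOn_iff_continuous_domRestrict.2 hM.embedding.continuous).continuousAt (nz hy)

/-- The induced data in any chart. -/
theorem ind_chart (hM : IsDev d M j) {e : M.Chart} (hy : y ≠ 0) (he : On e (j y)) :
    ContDiffAt ℝ ∞ (fun z => co e (j z)) y ∧ IndAt (M.g e) (M.X e) (fun z => co e (j z)) d y := by
  have hL := lor_chart hM.spacetime hM.vacuum
  obtain ⟨e', _, G, n, rfl, a1, a2, a3⟩ := hM.induced y hy
  have m := co_mem a1
  have m' : On e (inv e' (co e' (j y))) := by rwa [inv_co a1]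
  have I := (li_inv hM.spacetime m).iso e m'
  have ev : ∀ᶠ z in 𝓝 y, co e (inv e' (co e' (j z))) = co e (j z) :=
    ((cont_j hM hy).eventually (on_nhds a1)).mono fun z k => by rw [inv_co k]
  obtain ⟨W, W1, W2, W3⟩ := _root_.eventually_nhds_iff.1
    (((inv_cont m).eventually (on_nhds m')).and ((isOpen_tgt e').mem_nhds m))
  exact ⟨(I.1.comp (f := fun z => co e' (j z)) y a2).congr_of_eventuallyEq
      (ev.mono fun _ k => k.symm),
    IndAt.pull (hL e') (hL e) (pull_of (hL e') (hL e) W2 fun p k => ⟨(W1 p k).2,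
      co_mem (W1 p k).1, (li_inv hM.spacetime (W1 p k).2).iso e (W1 p k).1⟩) m W3 I.2.2 a2 ev
      ⟨G, n, a3⟩⟩

variable {ρ : R4 → ℝ} (hG : GU) (S : Cut D g Xf ρ J) (hd : PDy d) (hI : Ind g Xf J d)
  (hM : IsDev d M j)
include hG S hd hI hM

/-- The local isometry near a point of the slice. -/
theorem loc_iso (hy : y ≠ 0) : ∃ κ : R4 → M.pt,
    (∀ᶠ p in 𝓝 (J y), p ∈ D ∧ LI g Xf κ p) ∧ ∀ᶠ z in 𝓝 y, κ (J z) = j z := by
  have hL := lor_chart hM.spacetime hM.vacuum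
  obtain ⟨e, he⟩ := M.cover (j y)
  have ev := (cont_j hM hy).eventually (on_nhds he)
  obtain ⟨O, O1, O2, O3⟩ := _root_.eventually_nhds_iff.1 (ev.and (nz hy))
  obtain ⟨W, ψ, a1, a2, P, o, a3⟩ := hG g (M.g e) D (tgt e) Xf (M.X e) J (fun z => co e (j z)) d O
    S.lor (hL e) hd O2 (fun z k => (O1 z k).2) (S.sm.mono fun z k => (O1 z k).2)
    (fun z k => (ind_chart hM (O1 z k).2 (O1 z k).1).1.contDiffWithinAt)
    (fun z k => (S.mem z (O1 z k).2).1) (fun z k => co_mem (O1 z k).1)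
    (fun z k => ⟨hI z (O1 z k).2, (ind_chart hM (O1 z k).2 (O1 z k).1).2⟩) y O3
  rw [← a3.self_of_nhds] at o
  have s := p_at P a1
  have c := g_cont hM.spacetime (p := ψ) (a := fun p => fderiv ℝ ψ p (Xf p))
    (b := fun p => M.X e (ψ p)) (P.maps a1) s.continuousAt ((at_fd s).continuousAt.clm_apply
      (S.lor.cont.continuousAt (S.lor.isOpen.mem_nhds (a2 a1))))
    (((hL e).cont.continuousAt ((isOpen_tgt e).mem_nhds (P.maps a1))).comp s.continuousAt)
  refine ⟨fun p => inv e (ψ p), ?_, (a3.and ev).mono fun z k =>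
    (congrArg _ k.1).trans (inv_co k.2)⟩
  filter_upwards [P.open'.mem_nhds a1, c.eventually (gt_mem_nhds o)] with p k1 k2
  exact ⟨a2 k1, .comp hL S.lor (hL e) (a2 k1) (P.maps k1) ⟨p_at P k1, P.eq p k1, k2⟩
    (li_inv hM.spacetime (P.maps k1))⟩

/-- The local isometries fit together. -/
theorem glue : ∃ κ : R4 → M.pt, ∀ y ≠ 0,
    (∀ᶠ p in 𝓝 (J y), p ∈ D ∧ LI g Xf κ p) ∧ κ (J y) = j y := by
  have hL := lor_chart hM.spacetime hM.vacuum
  have ex : ∀ y : ({0}ᶜ : Set X), ∃ (κ : R4 → M.pt) (r : ℝ), 0 < r ∧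
      ∀ p ∈ ball (J y) (3 * r), (p ∈ D ∧ LI g Xf κ p) ∧ ∀ z ≠ 0, J z = p → κ p = j z := fun y => by
    obtain ⟨κ, a, b⟩ := loc_iso hG S hd hI hM y.2
    have c := continuous_subtype_val.continuousAt.eventually b
    rw [S.emb.nhds_eq_comap, eventually_comap] at c
    obtain ⟨r, r0, k⟩ := Metric.eventually_nhds_iff_ball.1 (a.and c)
    refine ⟨κ, r / 3, by positivity, fun p hp => ?_⟩
    rw [mul_div_cancel₀ _ three_ne_zero] at hp
    exact ⟨(k p hp).1, fun z hz e => e ▸ (k p hp).2 ⟨z, hz⟩ e⟩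
  choose κ r r0 k using ex
  have sub : ∀ y, ball (J y.1) (r y) ⊆ ball (J y) (3 * r y) := fun y =>
    ball_subset_ball (by linarith [r0 y])
  have key : ∀ y z p, r z ≤ r y → p ∈ ball (J y.1) (r y) → p ∈ ball (J z.1) (r z) →
      κ y p = κ z p := fun y z p l a b => by
    have s : ball (J z) (r z) ⊆ ball (J y) (3 * r y) := fun x c => mem_ball.2 (by
      linarith [mem_ball.1 a, mem_ball.1 b, mem_ball.1 c, dist_triangle x (J z) (J y),
        dist_triangle_left (J z) (J y) p])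
    have u := fun x c => (⟨(k y x (s c)).1.1, (k y x (s c)).1.2, (k z x (sub z c)).1.2⟩ :
      x ∈ D ∧ LI g Xf (κ y) x ∧ LI g Xf (κ z) x)
    obtain ⟨n, n1, n2, T⟩ := IndAt.sp S.lor (S.mem z z.2).1 (hd.2 z z.2).1 (hI z z.2)
    have sm := S.sm.contDiffAt (nz z.2)
    refine rigM hL S.lor isOpen_ball (convex_ball _ _).isPreconnected u (mem_ball_self (r0 z))
      (jetM hL S.lor (sm.differentiableAt (by simp)) T n1 n2
        (mem_of_superset (ball_mem_nhds _ (r0 z)) u) ?_) b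
    filter_upwards [nz z.2, sm.continuousAt (ball_mem_nhds _ (r0 z))] with w w1 w2
    rw [(k y _ (s w2)).2 w w1 rfl, (k z _ (sub z w2)).2 w w1 rfl]
  have ex : ∀ p, ∃ q, ∀ y, p ∈ ball (J y.1) (r y) → q = κ y p := fun p => by
    by_cases c : ∃ y, p ∈ ball (J y.1) (r y)
    · obtain ⟨y, a⟩ := c
      exact ⟨_, fun z b => (le_total (r z) (r y)).elim (fun l => key y z p l a b)
        fun l => (key z y p l b a).symm⟩
    · exact ⟨j 0, fun y a => absurd ⟨y, a⟩ c⟩
  choose K hK using ex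
  refine ⟨K, fun y hy => ⟨mem_of_superset (ball_mem_nhds _ (r0 ⟨y, hy⟩)) fun p a => ?_, ?_⟩⟩
  · exact ⟨(k _ p (sub ⟨y, hy⟩ a)).1.1, (k _ p (sub ⟨y, hy⟩ a)).1.2.congr
      (mem_of_superset (isOpen_ball.mem_nhds a) fun x => hK x ⟨y, hy⟩)⟩
  · have m := mem_ball_self (x := J y) (r0 ⟨y, hy⟩)
    exact (hK _ ⟨y, hy⟩ m).trans ((k _ _ (sub ⟨y, hy⟩ m)).2 y hy rfl)

omit hG in
/-- The two sides of the slice. -/
theorem sides {κ : R4 → M.pt} {τ : M.pt → ℝ} (hT : Tim M j τ)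
    (e : ∀ y ≠ 0, κ (J y) = j y) (hy : y ≠ 0) (k : ∀ᶠ p in 𝓝 (J y), p ∈ D ∧ LI g Xf κ p) :
    ∀ᶠ p in 𝓝 (J y), (0 < ρ p ↔ 0 < τ (κ p)) ∧ (ρ p < 0 ↔ τ (κ p) < 0) := by
  have hL := lor_chart hM.spacetime hM.vacuum
  obtain ⟨m, t⟩ := S.mem y hy
  obtain ⟨n, -, n2, T⟩ := IndAt.sp S.lor m (hd.2 y hy).1 (hI y hy)
  set v := Xf (J y)
  have c := fun {b : R4 → R4} (hb : ContinuousAt b (J y)) (o : g (J y) v (b (J y)) < 0) =>
    (g_cont (one_sp S.lor) (e := (⟨_, m⟩ : D)) (p := id) (a := fun _ => v) (b := b)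
      (one_tgt.symm.subset m) continuousAt_id continuousAt_const hb).eventually (gt_mem_nhds o)
  obtain ⟨r, r0, hr⟩ := Metric.eventually_nhds_iff_ball.1 ((k.and (tm_ev S.lor m t)).and
    ((c continuousAt_const (S.lor.tl _ m)).and
      (c (S.lor.cont.continuousAt (S.lor.isOpen.mem_nhds m)) (S.lor.tl _ m))))
  have seg : ∀ a ∈ ball (J y) r, ∀ s > (0 : ℝ), a + s • v ∈ ball (J y) r →
      ρ a < ρ (a + s • v) ∧ τ (κ a) < τ (κ (a + s • v)) := fun a ha s s0 hb => by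
    have u : ∀ t ∈ Icc (0 : ℝ) 1, a + t • s • v ∈ D ∧ LI g Xf κ (a + t • s • v) ∧
        (g (a + t • s • v) (s • v) (s • v) < 0 ∧ g (a + t • s • v) (s • v) (Xf (a + t • s • v)) < 0) ∧
        Tm g Xf ρ (a + t • s • v) := fun t ht => by
      obtain ⟨⟨⟨u1, u2⟩, u3⟩, u4, u5⟩ := hr _ ((convex_ball _ _).add_smul_mem ha hb ht)
      have B := bilin_of S.lor u1
      rw [B.smul_left, B.smul_right, B.smul_left]
      exact ⟨u1, u2, ⟨mul_neg_of_pos_of_neg s0 (mul_neg_of_pos_of_neg s0 u4),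
        mul_neg_of_pos_of_neg s0 u5⟩, u3⟩
    constructor
    · have := P354P.mono_of_der (f := fun t : ℝ => ρ (a + t • s • v)) (convex_Icc 0 1)
        (fun t ht => ⟨_, tm_pos S.lor (u t ht).1 (u t ht).2.2.2 (fun z => ?_) (u t ht).2.2.1.1.le
          (u t ht).2.2.1.2.le, ((u t ht).2.2.2.1.differentiableAt
            one_ne_zero).hasFDerivAt.comp_hasDerivAt (f := fun t : ℝ => a + t • s • v) t
              (by simpa using ((hasDerivAt_id t).smul_const (s • v)).const_add a)⟩)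
        (left_mem_Icc.2 zero_le_one) (right_mem_Icc.2 zero_le_one) one_pos
      · simpa using this
      · have := (bilin_of S.lor (u t ht).1).smul_left 0 (s • v) (s • v)
        rw [zero_smul, zero_mul] at this
        exact (u t ht).2.2.1.1.ne ((congrArg (g _ · _) z).trans this)
    · simpa using hT.mono _ (li_curve hL S.lor fun t ht =>
        ⟨(u t ht).1, (u t ht).2.1, (u t ht).2.2.1⟩)
  have sm := S.sm.contDiffAt (nz hy)
  have dv : HasStrictFDerivAt (fun x : X × ℝ => J x.1 + x.2 • v)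
      ((fderiv ℝ J y).coprod ((ContinuousLinearMap.id ℝ ℝ).smulRight v)) (y, 0) :=
    (((sm.hasStrictFDerivAt (by simp)).comp (y, (0 : ℝ)) hasStrictFDerivAt_fst).add
      (hasStrictFDerivAt_snd.smul_const v)).congr_fderiv (by ext <;> simp)
  have mp := dv.map_nhds_eq_of_surj (LinearMap.range_eq_top.2 (T.surj n2.ne))
  rw [zero_smul, add_zero] at mp
  rw [← mp, eventually_map]
  filter_upwards [continuousAt_fst.eventually (inter_mem (nz hy)
    (sm.continuousAt (ball_mem_nhds _ r0))), mp.le (ball_mem_nhds _ r0)] with ⟨z, s⟩ ⟨z0, z1⟩ z2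
  have r1 : ρ (J z) = 0 := (S.zero _ (S.mem z z0).1).2 ⟨z, z0, rfl⟩
  have r2 : τ (κ (J z)) = 0 := e z z0 ▸ hT.zero z z0
  rcases lt_trichotomy s 0 with l | rfl | l
  · have := seg _ z2 (-s) (neg_pos.2 l) (by simpa using z1)
    rw [neg_smul, add_neg_cancel_right, r1, r2] at this
    simp [this, this.1.not_gt, this.2.not_gt]
  · simp [r1, r2]
  · have := seg _ z1 s l z2
    rw [r1, r2] at this
    simp [this, this.1.not_gt, this.2.not_gt]

/-- The collar. -/
theorem collar [TopologicalSpace.PseudoMetrizableSpace M.pt] {τ : M.pt → ℝ} (hT : Tim M j τ) :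
    ∃ (U : Set R4) (κ : R4 → M.pt), IsOpen U ∧ InjOn κ U ∧ (∀ y ≠ 0, J y ∈ U ∧ κ (J y) = j y) ∧
      ∀ p ∈ U, (p ∈ D ∧ LI g Xf κ p) ∧ (0 < ρ p ↔ 0 < τ (κ p)) ∧ (ρ p < 0 ↔ τ (κ p) < 0) := by
  let := TopologicalSpace.pseudoMetrizableSpacePseudoMetric M.pt
  obtain ⟨κ, k⟩ := glue hG S hd hI hM
  obtain ⟨V, V1, V2⟩ := god (κ := κ) S.emb.continuous
    ((funext fun y : ({0}ᶜ : Set X) => (k y y.2).2).symm ▸ hM.embedding.isInducing)
    (fun y => (k y y.2).1.self_of_nhds.2.cont) fun y => ((k y y.2).1.self_of_nhds.2.loc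
      (lor_chart hM.spacetime hM.vacuum) S.lor (S.mem y y.2).1).2
  refine ⟨interior (V ∩ {p | (p ∈ D ∧ LI g Xf κ p) ∧ (0 < ρ p ↔ 0 < τ (κ p)) ∧
    (ρ p < 0 ↔ τ (κ p) < 0)}), κ, isOpen_interior, V2.mono fun p a => (interior_subset a).1,
    fun y hy => ⟨mem_interior_iff_mem_nhds.2 (inter_mem (V1 ⟨y, hy⟩) ((k y hy).1.and
      (sides S hd hI hM hT (fun y hy => (k y hy).2) hy (k y hy).1))), (k y hy).2⟩,
    fun p a => (interior_subset a).2⟩

omit hG S hd hI hM

open Vale.Agent.P354P in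
/-- The time function of a double null spacetime. -/
theorem tim_sp {δ : ℝ} {C : Bool → ℕ → R4 → ℝ} (h : IsDN δ C) :
    Tim (sp δ C) (jX δ) fun p => uu δ p + vv δ p := by
  refine ⟨fun y _ => by simp [uu, vv, jX, jj, Real.exp_log h.pos], fun c hc => ?_⟩
  refine strictMonoOn_of_deriv_pos (f := fun s => uu δ (c s) + vv δ (c s)) (convex_Icc 0 1)
    (Continuous.comp_continuousOn (g := fun p : Pt => uu δ p + vv δ p)
      (by unfold uu vv; fun_prop) hc.1) (fun s hs => ?_) (left_mem_Icc.2 zero_le_one)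
    (right_mem_Icc.2 zero_le_one) one_pos
  obtain ⟨σ, k, -⟩ := exists_in δ (c s)
  obtain ⟨w, k1, -, k2, k3⟩ := vel_of_curve h hc (mem_interior_iff_mem_nhds.1 hs) k
  exact (add_pos k2 k3).trans_eq ((der_uu k1).fun_add (der_vv k1)).deriv.symm

/-- The restriction of a local isometry to an open set. -/
theorem li_res (hL : ∀ e, Lor (M.g e) (tgt e) (M.X e)) (h : Lor g D Xf) {U : Set R4}
    (hU : IsOpen U) {κ : R4 → M.pt} (i : InjOn κ U) (k : ∀ p ∈ U, p ∈ D ∧ LI g Xf κ p) :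
    IsOpenEmbedding (fun p : U => κ p) ∧ IsIsom (M := one U hU g Xf) fun p : U => κ p := by
  refine ⟨.of_continuous_injective_isOpenMap (continuous_iff_continuousAt.2 fun p =>
    (k p p.2).2.cont.comp continuous_subtype_val.continuousAt) i.injective
    (isOpenMap_iff_nhds_le.2 fun p => ?_), isIsom_iff.2 fun c e y hy he => ?_⟩
  · rw [← ((k p p.2).2.loc hL h (k p p.2).1).1, ← hU.isOpenEmbedding_subtypeVal.map_nhds_eq, map_map]
    rfl
  · have m := one_tgt.subset hy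
    rw [one_inv m] at he
    refine iso_iff.2 (((k y m).2.iso e he).congr ?_)
    filter_upwards [hU.mem_nhds m] with z hz
    rw [one_inv hz]

/-- The inverse of an injective local isometry. -/
theorem li_symm (hM : IsSpacetime IsSmooth M) (hV : IsVacuum M) (h : Lor g D Xf) {U : Set R4}
    (hU : IsOpen U) {κ : R4 → M.pt} (i : InjOn κ U) (k : ∀ p ∈ U, p ∈ D ∧ LI g Xf κ p) :
    ∃ (O : Set M.pt) (hO : IsOpen O) (ψ : O → D), IsOpenEmbedding ψ ∧
      IsIsom (M := res M O hO) (N := one D h.isOpen g Xf) ψ ∧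
      (∀ p ∈ U, ∃ a : κ p ∈ O, (ψ ⟨κ p, a⟩).1 = p) ∧ ∀ q : O, (ψ q).1 ∈ U ∧ κ (ψ q) = q := by
  obtain ⟨o, s⟩ := li_res (lor_chart hM hV) h hU i k
  have sub : U ⊆ D := fun p a => (k p a).1
  let θ := o.isEmbedding.toHomeomorph
  have A : IsSpacetime IsSmooth (one U hU g Xf) := one_spacetime
    ⟨fun p k => h.sig p (sub k), fun p k => h.tl p (sub k), h.cont.mono sub,
      fun u v => (h.met.smooth u v).mono sub⟩
  refine ⟨_, o.isOpen_range, fun q => inclusion sub (θ.symm q),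
    (IsOpenEmbedding.inclusion sub (hU.preimage continuous_subtype_val)).comp θ.symm.isOpenEmbedding,
    isIsom_iff.2 fun c e y hy _ => ?_, fun p a => ⟨⟨⟨p, a⟩, rfl⟩,
      congrArg Subtype.val (θ.symm_apply_apply ⟨p, a⟩)⟩,
    fun q => ⟨(θ.symm q).2, congrArg Subtype.val (θ.apply_symm_apply q)⟩⟩
  have e1 := θ.apply_symm_apply (inv c y)
  have := iso_span (κ := θ) (κ' := inclusion sub) A (pl_spacetime hM) (one_sp h)
    θ.isOpenEmbedding (continuous_inclusion sub) (isom_to_pl (f := Subtype.val) s)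
    (isom_to_one.2 fun c y hy => iso_iff.2 (Is.congr (ψ := id) ⟨contDiffAt_id,
      fun _ _ => by rw [fderiv_id]; rfl, by rw [fderiv_id]; exact A.timelike c y hy⟩ ?_))
    (e1 := c) (e2 := e) (a := θ.symm (inv c y)) (e1.symm ▸ inv_mem hy :)
    (one_on _) (F := fun y => co e (inclusion sub (θ.symm (inv c y))))
    fun b k _ => by
      rw [inv_co k]
      exact congrArg (fun x => co e (inclusion sub x)) (θ.symm_apply_apply b)
  · exact ((congrArg (co c) e1).trans (co_inv hy)) ▸ this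
  · filter_upwards [(isOpen_tgt c).mem_nhds hy] with z hz
    exact co_inv hz

/-- **COL.** -/
theorem col (hG : GU) : P354XE.COL := by
  intro D g Xf ρ J S d δ V hd hI hV
  obtain ⟨dn, hM⟩ := P354P.dev P354Q.vac P354J.ind P354JK.inv d δ V hV
  have : TopologicalSpace.PseudoMetrizableSpace (P354P.sp δ (P354P.coef V)).pt :=
    inferInstanceAs (TopologicalSpace.PseudoMetrizableSpace P354P.Pt)
  obtain ⟨U, κ, hU, i, a, b⟩ := collar hG S hd hI hM (tim_sp dn)
  obtain ⟨O, hO, ψ, o, s, k1, k2⟩ := li_symm hM.spacetime hM.vacuum S.lor hU i fun p k => (b p k).1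
  refine ⟨O, hO, ψ, o, s, fun y hy => (a y hy).2 ▸ k1 _ (a y hy).1, fun q => ?_⟩
  have e : ∀ q : P354P.Pt, P354P.uu δ q + P354P.vv δ q = 2 * (Real.exp q.1 - δ) := fun q => by
    unfold P354P.uu P354P.vv
    ring
  have c := (b _ (k2 q).1).2
  rw [(k2 q).2, e] at c
  refine ⟨c.1.trans ?_, c.2.trans ?_⟩
  · rw [Real.log_lt_iff_lt_exp dn.pos, mul_pos_iff_of_pos_left two_pos, sub_pos]
  · rw [Real.lt_log_iff_exp_lt dn.pos]
    constructor <;> intro <;> linarith

end Vale.Agent.P354YC
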