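import Vale.Agent.P354YC.Cor

/-!
GUS from ROLL and UNQ.
-/

set_option maxSynthPendingDepth 3

open scoped ContDiff
open Set Filter Topology Metric

namespace Vale.Agent.P354YC

open Vale.Agent.P354n (R4 mink)
open Vale.Agent.P354R (Met Vac chr)
open Vale.Agent.P354RC
open Vale.Agent.P354XD (tb rp_tb)
open Vale.Agent.P354XE (Tw eT pt xs)
open Vale.Agent.P354H (X3)
open Vale.Agent.P354XU
open Vale.Agent.P354XV (In0 Nice GUS clens)

variable {g g' : Tw} {D D' Ω : Set R4} {p : R4} {b : R4 → R4} {E : R4 → L4} {B C : ℝ}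

theorem nice_KK (hD : IsOpen D) (m : Met g D) (hp : p ∈ D) (N : Nice 1 B g Prod.fst p) :
    tb g p ∈ KK B ∧ ‖fderiv ℝ (tb g) p‖ ≤ B := by
  have r := rp_tb hD m
  obtain ⟨u, u1, u2⟩ := N.tl
  have B0 : 0 ≤ B := (norm_nonneg _).trans u1
  refine ⟨⟨r.symm p hp, ContinuousLinearMap.opNorm_le_bound₂ _ B0 fun v w => ?_, fun v a => ?_,
    u, u1, r.eq p hp u u ▸ u2⟩, ContinuousLinearMap.opNorm_le_bound _ B0 fun a =>
      ContinuousLinearMap.opNorm_le_bound₂ _ (by positivity) fun v w => ?_⟩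
  · have := N.bd 0 zero_le_one v w
    rwa [norm_iteratedFDeriv_zero, r.eq p hp, ← mul_assoc] at this
  · exact r.eq p hp v v ▸ N.sp v (by rw [fderiv_fst]; exact a)
  · have := N.bd 1 le_rfl v w
    rw [norm_iteratedFDeriv_one] at this
    rw [← r.der hp, der_eq .rfl ((m.smooth v w).contDiffAt (hD.mem_nhds hp))]
    exact ((ContinuousLinearMap.le_opNorm _ _).trans
      (mul_le_mul_of_nonneg_right this (norm_nonneg _))).trans_eq (by ring)

theorem GmL_le {h : R4 → B2} (k1 : ‖(h p).inverse‖ ≤ C) (k2 : ‖fderiv ℝ h p‖ ≤ C) (a : R4) :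
    ‖GmL h p a‖ ≤ 2 * C * C * ‖a‖ := by
  have C0 := (norm_nonneg _).trans k1
  have a1 := (fderiv ℝ h p).le_of_opNorm_le k2 a
  have a2 := (fderiv ℝ h p).flip.le_of_opNorm_le ((ContinuousLinearMap.opNorm_flip _).trans_le k2) a
  have a3 := (ContinuousLinearMap.opNorm_flip _).trans_le a2
  have a4 := norm_sub_le_of_le (norm_add_le_of_le a1 a2) a3
  refine (ContinuousLinearMap.opNorm_comp_le _ _).trans ((mul_le_mul k1
    ((norm_smul_le _ _).trans (mul_le_mul_of_nonneg_left a4 (norm_nonneg _))) (norm_nonneg _)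
      C0).trans ?_)
  rw [Real.norm_of_nonneg one_half_pos.le]
  nlinarith [mul_nonneg C0 (mul_nonneg C0 (norm_nonneg a))]

theorem norm_eT : ‖eT‖ = 1 := by simp [eT]

theorem det_pos {L : ℝ → L4} {a : ℝ} (ha : 0 ≤ a) (c : ContinuousOn L (Icc 0 a))
    (i : ∀ s ∈ Icc 0 a, Function.Injective (L s)) (h0 : 0 < (L 0).det) : 0 < (L a).det := by
  by_contra! k
  obtain ⟨s, a1, a2⟩ := intermediate_value_Icc' ha
    (ContinuousLinearMap.continuous_det.comp_continuousOn c) ⟨k, h0.le⟩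
  exact (LinearMap.det_eq_zero_iff_ker_ne_bot.1 a2) (LinearMap.ker_eq_bot.2 (i s a1))

theorem det_pos0 {L : L4} (k : ∀ v : R4, v.1 = 0 → L v = v) (o : 0 < (L eT).1) : 0 < L.det := by
  have := det_pos (L := fun s => (1 - s) • .id ℝ R4 + s • L) zero_le_one (by fun_prop)
    (fun s hs => (injective_iff_map_eq_zero _).2 fun v z => ?_) (by simp [ContinuousLinearMap.det])
  · simpa using this
  have e : (L v).1 = v.1 * (L eT).1 := by
    have := k (v - v.1 • eT) (by simp [eT])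
    rw [map_sub, map_smul, sub_eq_iff_eq_add] at this
    simp [this, eT]
  have v0 : v.1 = 0 := by
    have := congrArg Prod.fst z
    simp only [add_apply, smul_apply, ContinuousLinearMap.id_apply, Prod.fst_add, Prod.smul_fst, e,
      smul_eq_mul, Prod.fst_zero] at this
    refine (mul_eq_zero.1 (show v.1 * (1 - s + s * (L eT).1) = 0 by linarith)).resolve_right
      (ne_of_gt ?_)
    rcases hs.1.eq_or_lt with rfl | s0
    · simp
    · linarith [mul_pos s0 o, hs.2]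
  simpa [k v v0, ← add_smul] using z

theorem db_fst (hD : IsOpen D) (m : Met g D) (S : Bs g' D' Ω b E) {x : X3} (hx : (0, x) ∈ Ω)
    (hq : (0, x) ∈ Og g D) (e : th b E (0, x) = th id (EE g) (0, x)) :
    0 < (fderiv ℝ b (0, x) eT).1 := by
  have := congrArg Prod.fst ((EE_inv hD m hq).self_apply_inverse eT)
  rw [db_eq S.met S.fr hx e, (S.eq x hx).2.1, EE, fr_fst]
  rw [EE, fr_fst] at this
  exact mul_pos (pos_of_mul_pos_left (this ▸ one_pos) (fr_pos hq.2).le) (fr_pos (S.eq x hx).2.2.2)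

theorem th_id (u : R4) : th id (EE g) p u = (EE g p).inverse u := by simp [th]

/-- The a priori bound along a vertical line. -/
theorem line_bd (C1 : 1 ≤ C) (BC : B ≤ C) (hC : ∀ h ∈ KK B, ‖fr h‖ ≤ C ∧ ‖(fr h).inverse‖ ≤ C ∧
      ‖fderiv ℝ fr h‖ ≤ C ∧ ‖h.inverse‖ ≤ C) (hD : IsOpen D) (m : Met g D)
    (R : Rol g' D' Ω (cc g) (AA g) b E) (S : Bs g' D' Ω b E) {x : X3} {t T : ℝ} (t0 : 0 ≤ t)
    (tT : t ≤ T) (KT : 15 * C ^ 5 * T ≤ 1)
    (k : ∀ s ∈ Icc 0 t, (s, x) ∈ Ω ∧ (s, x) ∈ D ∧ Nice 1 B g Prod.fst (s, x))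
    (k' : ∀ q, dist q (0, x) ≤ 15 * C ^ 5 * T → q ∈ D' ∧ Nice 1 B g' Prod.fst q) :
    dist (b (t, x)) (0, x) ≤ 15 * C ^ 5 * t ∧ ‖E (t, x)‖ ≤ 2 * C := by
  have C0 : 0 < C := one_pos.trans_le C1
  have hx := (k 0 (left_mem_Icc.2 t0)).1
  have le : ∀ s ∈ Icc 0 t, 15 * C ^ 5 * s ≤ 15 * C ^ 5 * T := fun s a => by
    gcongr
    exact a.2.trans tT
  have fin : ∀ s ∈ Icc 0 t, ‖(b (s, x) - (0, x), E (s, x) - E (0, x))‖ ≤ 15 * C ^ 5 * s →
      dist (b (s, x)) (0, x) ≤ 15 * C ^ 5 * s ∧ ‖E (s, x)‖ ≤ 2 * C := fun s a n => by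
    obtain ⟨n1, n2⟩ := norm_prod_le_iff.1 n
    obtain ⟨a1, a2⟩ := k' (0, x) (by rw [dist_self]; exact le_trans (by simp) (le 0 ⟨le_rfl, t0⟩))
    have := (hC _ (nice_KK S.op S.met a1 a2).1).1
    rw [← EE, ← (S.eq x hx).2.1] at this
    exact ⟨(dist_eq_norm _ _).trans_le n1,
      by linarith [norm_le_norm_add_norm_sub' (E (s, x)) (E (0, x)), le s a]⟩
  have d : ∀ s ∈ Icc 0 t, HasDerivAt (fun s => (b (s, x) - (0, x), E (s, x) - E (0, x)))
      (fderiv ℝ b (s, x) eT, fderiv ℝ E (s, x) eT) s := fun s a => by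
    have n := R.isOpen.mem_nhds (k s a).1
    have l : HasDerivAt (fun s : ℝ => ((s, x) : R4)) eT s :=
      (hasDerivAt_id s).prodMk (hasDerivAt_const s x)
    exact (((at_df (R.sb.contDiffAt n)).hasFDerivAt.comp_hasDerivAt s l).sub_const _).prodMk
      (((at_df (R.sE.contDiffAt n)).hasFDerivAt.comp_hasDerivAt s l).sub_const _)
  refine fin t (right_mem_Icc.2 t0) (image_norm_le_of_norm_deriv_right_lt_deriv_boundary
    (fun s a => (d s a).continuousAt.continuousWithinAt)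
    (fun s a => (d s (Ico_subset_Icc_self a)).hasDerivWithinAt) (B := fun s => 15 * C ^ 5 * s)
    (B' := fun _ => 15 * C ^ 5) (by simp [(S.eq x hx).1])
    (fun s => by simpa using (hasDerivAt_id s).const_mul (15 * C ^ 5)) (fun s a n => ?_)
    (right_mem_Icc.2 t0))
  replace a := Ico_subset_Icc_self a
  obtain ⟨f1, f2⟩ := fin s a n.le
  obtain ⟨a1, a2, a3⟩ := k s a
  obtain ⟨b1, b2⟩ := k' _ (f1.trans (le s a))
  obtain ⟨c1, c2⟩ := nice_KK hD m a2 a3
  obtain ⟨c3, c4⟩ := nice_KK S.op S.met b1 b2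
  obtain ⟨h1, h2, h3, h4⟩ := hC _ c1
  have n1 : ‖cc g (s, x)‖ ≤ C := by
    simpa [norm_eT, cc, EE] using (fr _).inverse.le_of_opNorm_le h2 eT
  have n2 : ‖fderiv ℝ (EE g) (s, x) eT‖ ≤ C * C := by
    have := fderiv_comp (s, x) ((fr_cd (KK_sub c1)).1.differentiableAt (by simp))
      (at_df ((rp_tb hD m).at a2))
    rw [show fderiv ℝ (EE g) (s, x) = _ from this]
    simpa [norm_eT] using ContinuousLinearMap.le_of_opNorm_le_of_le _ h3
      (ContinuousLinearMap.le_of_opNorm_le _ (c2.trans BC) eT)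
  have n3 : ‖AA g (s, x)‖ ≤ C * (C * C + 2 * C * C * 1 * C) :=
    (ContinuousLinearMap.opNorm_comp_le _ _).trans (mul_le_mul h2 (norm_add_le_of_le n2
      ((ContinuousLinearMap.opNorm_comp_le _ _).trans (mul_le_mul
        (norm_eT ▸ GmL_le h4 (c2.trans BC) eT) h1 (norm_nonneg _) (by positivity))))
      (norm_nonneg _) C0.le)
  have n4 := (E (s, x)).le_of_opNorm_le_of_le f2 n1
  have n5 := (GmL_le (hC _ c3).2.2.2 (c4.trans BC) _).trans
    (mul_le_mul_of_nonneg_left n4 (by positivity))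
  have e : fderiv ℝ E (s, x) eT = E (s, x) ∘L AA g (s, x) -
      GmL (tb g') (b (s, x)) (E (s, x) (cc g (s, x))) ∘L E (s, x) :=
    ContinuousLinearMap.ext fun v => by
      rw [sub_apply, ContinuousLinearMap.comp_apply, ← R.dE _ a1 v, ContinuousLinearMap.comp_apply,
        GmL_ap, add_sub_cancel_right]
  have n6 := norm_sub_le_of_le ((ContinuousLinearMap.opNorm_comp_le _ _).trans
    (mul_le_mul f2 n3 (norm_nonneg _) (by positivity))) ((ContinuousLinearMap.opNorm_comp_le _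
      _).trans (mul_le_mul n5 f2 (norm_nonneg _) (by positivity)))
  have p1 := pow_le_pow_right₀ C1 (show 4 ≤ 5 by norm_num)
  have p2 := pow_le_pow_right₀ C1 (show 2 ≤ 5 by norm_num)
  have p3 := pow_pos C0 5
  rw [Prod.norm_def, R.db _ a1, e]
  exact max_lt (n4.trans_lt (by linarith)) (n6.trans_lt (by linarith))

/-- **GUS.** -/
theorem gus_of (hR : ROLL) (hU : UNQ) : GUS := by
  intro B
  obtain ⟨C, C1, BC, hC⟩ := KK_bd B
  refine ⟨15 * C ^ 5, by positivity, fun ι _ φ T g D g' D' d L L' T0 KT sm cp sub sr H I => ?_⟩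
  obtain ⟨Ω, b, E, R, S, s1, s2, -, ex⟩ := exists_roll hR L.isOpen L.met L'.isOpen L'.met
  have og : clens φ T ⊆ Og g D := fun p a =>
    ⟨sub a, KK_sub (nice_KK L.isOpen L.met (sub a) (H p a).1).1⟩
  have s3 : clens φ T ⊆ st (Og g D) := fun p a s c => og (sr p a s c)
  have lc : ∀ t ≤ T, lens φ t ⊆ clens φ T := fun t c p a =>
    ⟨⟨a.1.1, a.1.2.trans c⟩, fun i => (a.2 i).le⟩
  have bd : ∀ p ∈ clens φ T, p ∈ Ω → dist (b p) (0, p.2) ≤ 15 * C ^ 5 * p.1 ∧ ‖E p‖ ≤ 2 * C :=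
    fun p a c => line_bd C1 BC hC L.isOpen L.met R S a.1.1 a.1.2 KT (fun s k =>
      ⟨s2 p c s (Icc_subset_uIcc k), sub (sr p a s (Icc_subset_uIcc k)),
        (H _ (sr p a s (Icc_subset_uIcc k))).1⟩) (H p a).2.2
  have s4 : clens φ T ⊆ Ω := fun p a => by
    obtain ⟨a1, a2⟩ := (H p a).2.2 (0, p.2) (by rw [dist_self]; positivity)
    refine ex p (s3 a) ⟨a1, KK_sub (nice_KK L'.isOpen L'.met a1 a2).1⟩
      (closedBall (0, p.2) (15 * C ^ 5 * T)) (fun q c => ((H p a).2.2 q c).1)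
      (isCompact_closedBall _ _) (2 * C) fun s c k => ?_
    obtain ⟨b1, b2⟩ := bd _ (sr p a s c) k
    exact ⟨b1.trans (mul_le_mul_of_nonneg_left (sr p a s c).1.2 (by positivity)), b2⟩
  have o := st_open (og_open L.isOpen L.met)
  have S0 := bs_id L.isOpen L.met o (st_sub _)
  have e := hU ι φ g D _ _ _ id (EE g) (clens φ T) T g' D' Ω b E L.isOpen L.met L.vac
    (rol_id L.isOpen L.met o (st_sub _)) ⟨cp, lc T le_rfl, s3, sm,
      fun _ _ => by rw [fderiv_id]; exact Function.injective_id, fun p a i => ((H p a).2.1 i).1,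
      fun p a u k1 k2 => ?_⟩ S0.adp L'.isOpen L'.met L'.vac R ((lc T le_rfl).trans s4) S.adp
    fun p a => by
      have c := lc 0 T0.le a
      have z : p.1 = 0 := le_antisymm a.1.2 a.1.1
      have := I (xs p) (by rw [z_eq z] at c ⊢; exact c)
      exact base_eq S0 S (s3 c) (s4 c) z this.1 this.2
  swap
  · rw [th_id] at k1 k2
    have i := (EE_inv L.isOpen L.met (og a)).self_apply_inverse u
    have u0 : 0 < u.1 := by
      rw [← i, EE, fr_fst]
      exact mul_pos k2 (fr_pos (og a).2)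
    exact ⟨u0, fun j => ((H p a).2.1 j).2 u (by rwa [← EE_on L.isOpen L.met (og a), i] at k1) u0⟩
  have dn : ∀ p ∈ lens φ T, ∀ s ∈ Icc 0 p.1, (s, p.2) ∈ lens φ T := fun p a s c => by
    refine ⟨⟨c.1, c.2.trans a.1.2⟩, fun i => lt_of_le_of_lt ?_ (a.2 i)⟩
    have d : ∀ t, HasDerivAt (fun s => φ i (s, p.2)) (fderiv ℝ (φ i) (t, p.2) eT) t := fun t =>
      ((sm i).differentiable one_ne_zero _).hasFDerivAt.comp_hasDerivAt t
        ((hasDerivAt_id t).prodMk (hasDerivAt_const t p.2))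
    exact (strictMonoOn_of_deriv_pos (convex_Icc 0 p.1)
      (fun t _ => (d t).continuousAt.continuousWithinAt) fun t k => (d t).deriv ▸ ((H _ (sr p
        (lc T le_rfl a) t (Icc_subset_uIcc (interior_subset k)))).2.1 i).1).monotoneOn c
      (right_mem_Icc.2 a.1.1) c.2
  have fs : ∀ p ∈ lens φ T, p.1 = 0 → 0 < (fderiv ℝ b p eT).1 := fun p a z => by
    have c := lc T le_rfl a
    have k := e p a
    rw [z_eq z] at c k ⊢
    exact db_fst L.isOpen L.met S (s4 c) (og c) k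
  refine ⟨b, Ω, R.isOpen, (lc T le_rfl).trans s4, fun p a => (st_sub _ (s1 a)).1, R.sb, R.maps,
    fun p a z => by rw [z_eq z] at a ⊢; exact (S.eq _ a).1, fun p a => ?_⟩
  have c := lc T le_rfl a
  obtain ⟨b1, b2⟩ := bd p c (s4 c)
  refine ⟨b1, ?_, det_pos (L := fun s => fderiv ℝ b (s, p.2)) a.1.1 (fun s k => ?_)
    (fun s k => ?_) ?_, fs p a, iso_eq L.isOpen L.met L'.met R.toFr (s4 c) (og c) (e p a)⟩
  · rw [show fderiv ℝ b p = E p ∘L (EE g p).inverse from
      ContinuousLinearMap.ext (db_eq L'.met R.toFr (s4 c) (e p a))]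
    refine (ContinuousLinearMap.opNorm_comp_le _ _).trans ((mul_le_mul b2
      (hC _ (nice_KK L.isOpen L.met (sub c) (H p c).1).1).2.1 (norm_nonneg _)
      (by positivity)).trans ?_)
    linarith [pow_le_pow_right₀ C1 (show 2 ≤ 5 by norm_num), pow_pos (one_pos.trans_le C1) 5]
  · exact ((at_fd (R.sb.contDiffAt (R.isOpen.mem_nhds (s4 (lc T le_rfl (dn p a s k)))))
      ).continuousAt.comp (f := fun s => (s, p.2)) (by fun_prop)).continuousWithinAt
  · have c := lc T le_rfl (dn p a s k)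
    rw [show fderiv ℝ b (s, p.2) = E _ ∘L (EE g _).inverse from
      ContinuousLinearMap.ext (db_eq L'.met R.toFr (s4 c) (e _ (dn p a s k)))]
    exact (Fr.inv L'.met R.toFr (s4 c)).injective.comp
      (EE_inv L.isOpen L.met (og c)).inverse.injective
  · have c := dn p a 0 (left_mem_Icc.2 a.1.1)
    exact det_pos0 (fun v => S.d1 (s4 (lc T le_rfl c))) (fs _ c rfl)

end Vale.Agent.P354YC
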