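import Vale.Agent.P354UR.Roll
import Vale.Agent.P354XK.GC

/-!
The curvature as a form with values in endomorphisms, its covariant derivative, and the identities
of Bianchi.
-/

set_option maxSynthPendingDepth 3

open scoped ContDiff
open Set Filter Topology

noncomputable section

namespace Vale.Agent.P354YC

open Vale.Agent.P354n (R4)
open Vale.Agent.P354R (Vac)
open Vale.Agent.P354RC
open Vale.Agent.P354XD (dh_eq dC_eq gm_symm)
open Vale.Agent.P354XK (d2sym)
open Vale.Agent.P354XU (L4)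
open Vale.Agent.P354UR (GB GB_ap GB_cd)
open ContinuousLinearMap (compL)

/-- Forms of degree one and two with values in endomorphisms. -/
abbrev W1 : Type := R4 →L[ℝ] L4
abbrev W2 : Type := R4 →L[ℝ] R4 →L[ℝ] L4

/-- The trace. -/
def tr (f : R4 → R4) : ℝ := ∑ i, cv i (f (bs i))

theorem lin_bs {F : Type} [AddCommGroup F] [Module ℝ F] {f : R4 → F} (a : IsLinearMap ℝ f)
    (x : R4) : f x = ∑ i, cv i x • f (bs i) := by
  conv_lhs => rw [← sum_bs x]
  simp only [Fin.sum_univ_four, a.map_add, a.map_smul]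

theorem tr_comm {f k : R4 → R4} (a : IsLinearMap ℝ f) (b : IsLinearMap ℝ k) :
    tr (fun x => f (k x)) = tr fun x => k (f x) := by
  unfold tr
  simp only [fun i => lin_bs a (k (bs i)), fun i => lin_bs b (f (bs i)), map_sum, map_smul,
    smul_eq_mul]
  rw [Finset.sum_comm]
  simp only [mul_comm]

/-- The curvature of a connection form. -/
def cu (G : R4 → W1) (y : R4) : W2 :=
  (fderiv ℝ G y + (compL ℝ R4 R4 R4).bilinearComp (G y) (G y)) -
    (fderiv ℝ G y + (compL ℝ R4 R4 R4).bilinearComp (G y) (G y)).flip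

theorem cu_ap (G : R4 → W1) (y a b c : R4) : cu G y a b c =
    (fderiv ℝ G y a b c + G y a (G y b c)) - (fderiv ℝ G y b a c + G y b (G y a c)) := rfl

theorem cu_alt (G : R4 → W1) (y a b c : R4) : cu G y a b c = -cu G y b a c := by
  rw [cu_ap, cu_ap, neg_sub]

variable {G : R4 → W1} {g : R4 → R4 → R4 → ℝ} {h : R4 → B2} {D : Set R4} {y : R4}

theorem bc_cd {F : Type} [NormedAddCommGroup F] [NormedSpace ℝ F] {V : Type} [NormedAddCommGroup V]
    [NormedSpace ℝ V] {T : R4 → V →L[ℝ] V →L[ℝ] F} {A B : R4 → R4 →L[ℝ] V}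
    (hT : ContDiffAt ℝ ∞ T y) (hA : ContDiffAt ℝ ∞ A y) (hB : ContDiffAt ℝ ∞ B y) :
    ContDiffAt ℝ ∞ (fun z => (T z).bilinearComp (A z) (B z)) y :=
  (ContinuousLinearMap.flipₗᵢ ℝ R4 R4 F).contDiff.contDiffAt.comp y
    (((ContinuousLinearMap.flipₗᵢ ℝ R4 V F).contDiff.contDiffAt.comp y (hT.clm_comp hA)).clm_comp hB)

theorem cu_cd (k : ContDiffAt ℝ ∞ G y) : ContDiffAt ℝ ∞ (cu G) y :=
  have a := (at_fd k).add (bc_cd (contDiffAt_const (c := compL ℝ R4 R4 R4)) k k)
  a.sub (at_flip a)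

theorem cd3 {T : R4 → W2} (k : ContDiffAt ℝ ∞ T y) {a b c : R4 → R4} (ha : ContDiffAt ℝ ∞ a y)
    (hb : ContDiffAt ℝ ∞ b y) (hc : ContDiffAt ℝ ∞ c y) :
    ContDiffAt ℝ ∞ (fun z => T z (a z) (b z) (c z)) y := ((k.clm_apply ha).clm_apply hb).clm_apply hc

theorem fd3 {T : R4 → W2} (k : ContDiffAt ℝ ∞ T y) {a b c : R4 → R4} (ha : ContDiffAt ℝ ∞ a y)
    (hb : ContDiffAt ℝ ∞ b y) (hc : ContDiffAt ℝ ∞ c y) (w : R4) :
    fderiv ℝ (fun z => T z (a z) (b z) (c z)) y w = fderiv ℝ T y w (a y) (b y) (c y) +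
      T y (fderiv ℝ a y w) (b y) (c y) + T y (a y) (fderiv ℝ b y w) (c y) +
      T y (a y) (b y) (fderiv ℝ c y w) := by
  rw [fd_ap ((k.clm_apply ha).clm_apply hb) hc, fd_ap (k.clm_apply ha) hb, fd_ap k ha]
  rfl

theorem fd30 {T : R4 → W2} (k : ContDiffAt ℝ ∞ T y) (a b c w : R4) :
    fderiv ℝ (fun z => T z a b c) y w = fderiv ℝ T y w a b c := by
  rw [fd3 k contDiffAt_const contDiffAt_const contDiffAt_const]
  simp

theorem fd20 (k : ContDiffAt ℝ ∞ G y) (a b w : R4) :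
    fderiv ℝ (fun z => G z a b) y w = fderiv ℝ G y w a b := by
  rw [fd_ap0 (k.clm_apply contDiffAt_const), fd_ap0 k]

theorem fd_cu (k : ContDiffAt ℝ ∞ G y) (w a b c : R4) : fderiv ℝ (cu G) y w a b c =
    (fderiv ℝ (fderiv ℝ G) y w a b c + (fderiv ℝ G y w a (G y b c) + G y a (fderiv ℝ G y w b c))) -
    (fderiv ℝ (fderiv ℝ G) y w b a c + (fderiv ℝ G y w b (G y a c) + G y b (fderiv ℝ G y w a c))) := by
  have c0 : ∀ a : R4, ContDiffAt ℝ ∞ (fun _ : R4 => a) y := fun _ => contDiffAt_const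
  have k1 := fun a b => cd3 (at_fd k) (c0 a) (c0 b) (c0 c)
  have k2 := fun a b => (k.clm_apply (c0 a)).clm_apply ((k.clm_apply (c0 b)).clm_apply (c0 c))
  have e : ∀ a b, fderiv ℝ (fun z => fderiv ℝ G z a b c + G z a (G z b c)) y w = _ := fun a b => by
    rw [fderiv_fun_add (at_df (k1 a b)) (at_df (k2 a b)), add_apply, fd30 (at_fd k),
      fd_ap (k.clm_apply (c0 a)) ((k.clm_apply (c0 b)).clm_apply (c0 c)), fd_ap0 k, fd20 k]
  rw [← fd30 (cu_cd k)]
  simp only [cu_ap]
  rw [fderiv_fun_sub (at_df ((k1 a b).add (k2 a b))) (at_df ((k1 b a).add (k2 b a))), sub_apply, e, e]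

/-- The covariant derivative of the curvature. -/
def dcu (G : R4 → W1) (y w a b c : R4) : R4 :=
  fderiv ℝ (cu G) y w a b c + G y w (cu G y a b c) - cu G y (G y w a) b c - cu G y a (G y w b) c -
    cu G y a b (G y w c)

theorem dcu_l1 (a b c : R4) : IsLinearMap ℝ fun w => dcu G y w a b c :=
  ⟨fun _ _ => by simp only [dcu, map_add, add_apply]; abel,
    fun _ _ => by simp only [dcu, map_smul, smul_apply, smul_add, smul_sub]⟩

theorem dcu_l2 (w b c : R4) : IsLinearMap ℝ fun a => dcu G y w a b c :=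
  ⟨fun _ _ => by simp only [dcu, map_add, add_apply]; abel,
    fun _ _ => by simp only [dcu, map_smul, smul_apply, smul_add, smul_sub]⟩

/-- The second identity of Bianchi. -/
theorem dcu_cyc (k : ContDiffAt ℝ ∞ G y) (s : ∀ a b, G y a b = G y b a) (w a b c : R4) :
    dcu G y w a b c + dcu G y a b w c + dcu G y b w a c = 0 := by
  simp only [dcu, fd_cu k]
  rw [cu_alt G y (G y w a), cu_alt G y (G y a b), cu_alt G y (G y b w), s a w, s b a, s w b,
    sym2 k a w, sym2 k b a, sym2 k w b]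
  simp only [cu_ap G y a b, cu_ap G y b w, cu_ap G y w a, map_add, map_sub]
  abel

theorem dcu_alt (k : ContDiffAt ℝ ∞ G y) (w a b c : R4) : dcu G y w a b c = -dcu G y w b a c := by
  simp only [dcu, fd_cu k]
  rw [cu_alt G y a b, cu_alt G y (G y w a), cu_alt G y a (G y w b), cu_alt G y a b, map_neg]
  abel

section
variable (r : Rp g h D) (hy : y ∈ D)
include r hy

theorem cu_rm (a b c d : R4) : h y (cu (GB h) y a b c) d = Rm h y a b c d := by
  have e : ∀ a b, fderiv ℝ (GB h) y a b c = fderiv ℝ (fun z => Gm h z b c) y a := fun a b => by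
    rw [← fd20 (GB_cd r hy)]
    simp only [GB_ap]
  simp only [cu_ap, e, GB_ap, Rm, dC_eq r hy, map_sub, sub_apply]
  ring

theorem rm_pair (a b c d : R4) : Rm h y a b c d = Rm h y c d a b := by
  simp only [Rm, dC]
  rw [sym2 (r.at hy) b a, sym2 (r.at hy) d c, sym2 (r.at hy) c a, sym2 (r.at hy) c b,
    sym2 (r.at hy) d a, sym2 (r.at hy) d b, d2sym r hy a c d b, d2sym r hy b c d a,
    d2sym r hy a d c b, d2sym r hy b d c a, gm_symm r hy d a, gm_symm r hy c b, gm_symm r hy c a,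
    gm_symm r hy d b, r.symm y hy (Gm h y a d)]
  ring

theorem cu_pair (a b c d : R4) : h y (cu (GB h) y a b c) d = h y (cu (GB h) y c d a) b := by
  rw [cu_rm r hy, cu_rm r hy, rm_pair r hy]

theorem dcu_pair (w a b c d : R4) :
    h y (dcu (GB h) y w a b c) d = h y (dcu (GB h) y w c d a) b := by
  have k := cu_cd (GB_cd r hy)
  have c0 : ∀ a : R4, ContDiffAt ℝ ∞ (fun _ : R4 => a) y := fun _ => contDiffAt_const
  have e : ∀ a b c d, fderiv ℝ (fun z => h z (cu (GB h) z a b c) d) y w = _ := fun a b c d => by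
    rw [fd_ap0 ((r.at hy).clm_apply (cd3 k (c0 a) (c0 b) (c0 c))),
      fd_ap (r.at hy) (cd3 k (c0 a) (c0 b) (c0 c)), fd30 k, add_apply, dh_eq r hy]
  have v : (fun z => h z (cu (GB h) z a b c) d) =ᶠ[𝓝 y] fun z => h z (cu (GB h) z c d a) b := by
    filter_upwards [r.op.mem_nhds hy] with z hz using cu_pair r hz a b c d
  have := e a b c d
  rw [v.fderiv_eq, e] at this
  simp only [dcu, map_add, map_sub, add_apply, sub_apply, GB_ap]
  linarith [cu_pair r hy (Gm h y w a) b c d, cu_pair r hy a (Gm h y w b) c d,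
    cu_pair r hy a b (Gm h y w c) d, cu_pair r hy a b c (Gm h y w d)]

theorem cu_tr (v : Vac g D) (b c : R4) : tr (fun a => cu (GB h) y a b c) = 0 := by
  rw [← r.vac.1 v y hy b c, Ric]
  refine Finset.sum_congr rfl fun i _ => ?_
  rw [← cu_rm r hy, r.symm y hy, r.inv hy]

theorem dcu_tr (v : Vac g D) (w b c : R4) : tr (fun a => dcu (GB h) y w a b c) = 0 := by
  have k := cu_cd (GB_cd r hy)
  have c0 : ∀ a : R4, ContDiffAt ℝ ∞ (fun _ : R4 => a) y := fun _ => contDiffAt_const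
  have c1 : ∀ i, ContDiffAt ℝ ∞ (fun _ : R4 => cv i) y := fun _ => contDiffAt_const
  have t := fun i => (c1 i).clm_apply (cd3 k (c0 (bs i)) (c0 b) (c0 c))
  have e : (fun z => ∑ i, cv i (cu (GB h) z (bs i) b c)) =ᶠ[𝓝 y] fun _ => 0 := by
    filter_upwards [r.op.mem_nhds hy] with z hz using cu_tr r hz v b c
  have e1 := congrArg (· w) (e.fderiv_eq (𝕜 := ℝ))
  rw [fderiv_fun_sum fun i _ => at_df (t i)] at e1
  simp only [sum_apply, fun i => fd_ap (c1 i) (cd3 k (c0 (bs i)) (c0 b) (c0 c)) w, fd30 k,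
    fderiv_fun_const, Pi.zero_apply, zero_apply,
    zero_add] at e1
  have e2 := tr_comm (GB h y w).isLinear (((cu (GB h) y).flip b).flip c).isLinear
  have e3 := cu_tr r hy v (GB h y w b) c
  have e4 := cu_tr r hy v b (GB h y w c)
  simp only [tr, dcu, map_add, map_sub, Finset.sum_add_distrib, Finset.sum_sub_distrib,
    ContinuousLinearMap.coe_coe, ContinuousLinearMap.flip_apply] at *
  linarith

end

end Vale.Agent.P354YC
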