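import Vale.Agent.P354YC.UnqP

/-!
Bounds for the coframe, the connection form and the curvature from bounds for the jets of the
metric, the map and the frame.
-/

set_option maxSynthPendingDepth 3
set_option linter.all false

open scoped ContDiff
open Set Filter Topology Asymptotics

noncomputable section

namespace Vale.Agent.P354YC

open Vale.Agent.P354n (R4 mink)
open Vale.Agent.P354R (Met Vac)
open Vale.Agent.P354RC
open Vale.Agent.P354XD (tb rp_tb)
open Vale.Agent.P354XE (Tw eT Bd)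
open Vale.Agent.P354XU
open Vale.Agent.P354UR (GB GB_ap GB_cd)

section
variable {ι U V : Type} [NormedAddCommGroup U] [NormedSpace ℝ U] [NormedAddCommGroup V]
  [NormedSpace ℝ V] {y : ι → R4} {k : ℕ}

/-- Families with bounded jets. -/
def Bk (y : ι → R4) : ℕ → (ι → R4 → V) → Prop
  | 0, f => (∀ i, ContDiffAt ℝ ∞ (f i) (y i)) ∧ Bo fun i => f i (y i)
  | k + 1, f => ((∀ i, ContDiffAt ℝ ∞ (f i) (y i)) ∧ Bo fun i => f i (y i)) ∧
      ∀ j, Bk y k fun i z => fderiv ℝ (f i) z (bs j)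

theorem Bk.z {f : ι → R4 → V} (h : Bk y k f) :
    (∀ i, ContDiffAt ℝ ∞ (f i) (y i)) ∧ Bo fun i => f i (y i) := by
  cases k
  · exact h
  · exact h.1

theorem Bk.mono {f : ι → R4 → V} (h : Bk y (k + 1) f) : Bk y k f := by
  induction k generalizing f with
  | zero => exact h.1
  | succ k ih => exact ⟨h.1, fun j => ih (h.2 j)⟩

theorem Bk.congr {f f' : ι → R4 → V} (h : Bk y k f) (e : ∀ i, f' i =ᶠ[𝓝 (y i)] f i) : Bk y k f' := by
  have a : ∀ {f f' : ι → R4 → V}, Bk y 0 f → (∀ i, f' i =ᶠ[𝓝 (y i)] f i) → Bk y 0 f' :=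
    fun h e => ⟨fun i => (h.1 i).congr_of_eventuallyEq (e i),
      h.2.congr_left fun i => (e i).self_of_nhds.symm⟩
  induction k generalizing f f' with
  | zero => exact a h e
  | succ k ih => exact ⟨a h.1 e, fun j => ih (h.2 j) fun i =>
      (e i).fderiv.mono fun z c => congrArg (fun T : R4 →L[ℝ] _ => T (bs j)) c⟩

theorem ev_df {f : R4 → V} {p : R4} (h : ContDiffAt ℝ ∞ f p) : ∀ᶠ z in 𝓝 p, DifferentiableAt ℝ f z :=
  ((h.of_le (show (1 : WithTop ℕ∞) ≤ ∞ by simp)).eventually (by simp)).mono fun _ c =>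
    c.differentiableAt one_ne_zero

theorem Bk.c (x : V) : Bk y k fun _ _ => x := by
  induction k generalizing x with
  | zero => exact ⟨fun _ => contDiffAt_const, Bo.c x⟩
  | succ k ih => exact ⟨⟨fun _ => contDiffAt_const, Bo.c x⟩, fun j =>
      (ih 0).congr fun i => Eventually.of_forall fun z => by simp⟩

theorem Bk.add {f f' : ι → R4 → V} (h : Bk y k f) (h' : Bk y k f') :
    Bk y k fun i z => f i z + f' i z := by
  induction k generalizing f f' with
  | zero => exact ⟨fun i => (h.1 i).add (h'.1 i), IsBigO.add h.2 h'.2⟩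
  | succ k ih =>
    refine ⟨⟨fun i => (h.1.1 i).add (h'.1.1 i), IsBigO.add h.1.2 h'.1.2⟩, fun j =>
      (ih (h.2 j) (h'.2 j)).congr fun i => ?_⟩
    filter_upwards [ev_df (h.1.1 i), ev_df (h'.1.1 i)] with z a b
    rw [fderiv_fun_add a b, add_apply]

theorem Bk.ap {F : ι → R4 → U →L[ℝ] V} {x : ι → R4 → U} (h : Bk y k F) (h' : Bk y k x) :
    Bk y k fun i z => F i z (x i z) := by
  induction k generalizing F x with
  | zero => exact ⟨fun i => (h.1 i).clm_apply (h'.1 i), Bo.ap h.2 h'.2⟩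
  | succ k ih =>
    refine ⟨⟨fun i => (h.1.1 i).clm_apply (h'.1.1 i), Bo.ap h.1.2 h'.1.2⟩, fun j =>
      ((ih h.mono (h'.2 j)).add (ih (h.2 j) h'.mono)).congr fun i => ?_⟩
    filter_upwards [ev_df (h.1.1 i), ev_df (h'.1.1 i)] with z a b
    rw [fderiv_clm_apply a b]
    rfl

theorem Bk.cl (T : U →L[ℝ] V) {x : ι → R4 → U} (h : Bk y k x) : Bk y k fun i z => T (x i z) :=
  (Bk.c T).ap h

theorem Bk.sub {f f' : ι → R4 → V} (h : Bk y k f) (h' : Bk y k f') :
    Bk y k fun i z => f i z - f' i z :=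
  (h.add (h'.cl (-ContinuousLinearMap.id ℝ V))).congr fun _ => Eventually.of_forall fun _ =>
    sub_eq_add_neg _ _

theorem Bk.sum {κ : Type} (s : Finset κ) {f : κ → ι → R4 → V} (h : ∀ a, Bk y k (f a)) :
    Bk y k fun i z => ∑ a ∈ s, f a i z := by
  classical
  induction s using Finset.induction_on with
  | empty => simpa using Bk.c (0 : V)
  | insert a s m ih => simpa only [Finset.sum_insert m] using (h a).add ih

theorem Bk.solve {F : ι → R4 → U →L[ℝ] V} {J : ι → V →L[ℝ] U} (hJ : Bo J)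
    (e : ∀ i u, J i (F i (y i) u) = u) {x : ι → R4 → U} {w : ι → R4 → V} (h : Bk y k F)
    (hw : Bk y k w) (s : ∀ i, ContDiffAt ℝ ∞ (x i) (y i))
    (q : ∀ i, ∀ᶠ z in 𝓝 (y i), F i z (x i z) = w i z) : Bk y k x := by
  induction k generalizing x w with
  | zero => exact ⟨s, (hJ.ap hw.2).congr_left fun i => by rw [← (q i).self_of_nhds, e]⟩
  | succ k ih =>
    have a := ih h.mono hw.mono s q
    refine ⟨a.z, fun j => ih h.mono ((hw.2 j).sub ((h.2 j).ap a))
      (fun i => (at_fd (s i)).clm_apply contDiffAt_const) fun i => ?_⟩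
    filter_upwards [ev_df (h.1.1 i), ev_df (s i), (q i).eventually_nhds] with z a b c
    rw [← EventuallyEq.fderiv_eq c, fderiv_clm_apply a b]
    simp

theorem Bk.of_jt {f : ι → R4 → V} {B : ℝ} (s : ∀ i, ContDiffAt ℝ ∞ (f i) (y i))
    (h : ∀ i, Jt k (f i) (y i) B) : Bk y k f := by
  have z : ∀ {k} {f : ι → R4 → V}, (∀ i, Jt k (f i) (y i) B) → Bo fun i => f i (y i) := fun h =>
    Bo.of fun i => by simpa using h i 0 (Nat.zero_le _)
  induction k generalizing f with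
  | zero => exact ⟨s, z h⟩
  | succ k ih =>
    refine ⟨⟨s, z h⟩, fun j => ih (fun i => (at_fd (s i)).clm_apply contDiffAt_const) fun i m a => ?_⟩
    refine (norm_iteratedFDeriv_clm_apply_const (at_fd (s i)) ENat.LEInfty.out).trans ?_
    rw [norm_iteratedFDeriv_fderiv, show ‖bs j‖ = 1 by fin_cases j <;> simp [bs, Prod.norm_def], one_mul]
    exact h i _ (by omega)

theorem Bk.d1 {f : ι → R4 → V} (h : Bk y (k + 1) f) : Bo fun i => fderiv ℝ (f i) (y i) :=
  o_bs fun j => (h.2 j).z.2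

theorem Bk.d2 {f : ι → R4 → V} (h : Bk y (k + 2) f) : Bo fun i => fderiv ℝ (fderiv ℝ (f i)) (y i) :=
  o_bs fun l => o_bs fun j => ((h.2 j).2 l).z.2.congr_left fun i => fd_ap0 (at_fd (h.1.1 i)) _ _

end

variable {ι : Type} {g : ι → Tw} {D Ω : ι → Set R4} {b : ι → R4 → R4} {E : ι → R4 → L4}
  {p y : ι → R4} {B c0 : ℝ} {k : ℕ}

theorem bk_tb (hD : ∀ i, IsOpen (D i)) (m : ∀ i, Met (g i) (D i)) (hy : ∀ i, y i ∈ D i)
    (h : ∀ i, Bd k (g i) (y i) B) : Bk y k fun i => tb (g i) :=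
  Bk.sum _ fun a => Bk.sum _ fun c => (Bk.of_jt (B := B) (f := fun i z => g i z (bs a) (bs c))
    (fun i => ((m i).smooth _ _).contDiffAt ((hD i).mem_nhds (hy i))) fun i j hj => by
      have n : ∀ j, ‖bs j‖ = 1 := fun j => by fin_cases j <;> simp [bs, Prod.norm_def]
      simpa [n] using h i j hj (bs a) (bs c)).cl
        ((ContinuousLinearMap.id ℝ ℝ).smulRight ((cv a).smulRight (cv c)))

theorem bk_GB (hD : ∀ i, IsOpen (D i)) (m : ∀ i, Met (g i) (D i)) (hy : ∀ i, y i ∈ D i)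
    (h : ∀ i, Bd (k + 1) (g i) (y i) B) (c : 0 < c0)
    (n : ∀ i v, ∃ w, ‖w‖ ≤ 1 ∧ c0 * ‖v‖ ≤ g i (y i) v w) : Bk y k fun i => GB (tb (g i)) := by
  have r := fun i => rp_tb (hD i) (m i)
  have t := bk_tb hD m hy h
  have iv := fun i => inv_of_inj ((r i).nd _ (hy i))
  have J : Bo fun i => (tb (g i) (y i)).inverse := Bo.of (C := c0⁻¹) fun i =>
    ContinuousLinearMap.opNorm_le_bound _ (by positivity) fun l => by
      obtain ⟨w, a, e⟩ := n i ((tb (g i) (y i)).inverse l)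
      rw [(r i).eq _ (hy i), (r i).inv (hy i)] at e
      rw [← div_eq_inv_mul, le_div_iff₀' c]
      exact e.trans ((le_abs_self _).trans ((l.le_of_opNorm_le_of_le le_rfl a).trans_eq (mul_one _)))
  have d := fun a c e => ((t.2 a).ap (Bk.c (bs c))).ap (Bk.c (bs e))
  refine Bk.sum _ fun a => Bk.sum _ fun c => Bk.cl (ContinuousLinearMap.smulRightL ℝ R4 L4 (cv a))
    (Bk.cl (ContinuousLinearMap.smulRightL ℝ R4 R4 (cv c)) (Bk.solve J
      (fun i => (iv i).inverse_apply_self) t.mono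
        (w := fun i z => ∑ e, (ContinuousLinearMap.id ℝ ℝ).smulRight ((1 / 2 : ℝ) • cv e)
          (fderiv ℝ (tb (g i)) z (bs a) (bs c) (bs e) + fderiv ℝ (tb (g i)) z (bs c) (bs a) (bs e) -
            fderiv ℝ (tb (g i)) z (bs e) (bs a) (bs c)))
        (Bk.sum _ fun e => (((d a c e).add (d c a e)).sub (d e a c)).cl _)
        (fun i => (r i).gm_cd (hy i) contDiffAt_const contDiffAt_const) fun i => ?_))
  filter_upwards [(hD i).mem_nhds (hy i)] with z hz
  refine ContinuousLinearMap.ext fun x => ?_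
  rw [clm_bs, sum_apply]
  refine Finset.sum_congr rfl fun e _ => ?_
  rw [(r i).gm hz, C1_ap]
  simp only [ContinuousLinearMap.smulRight_apply, smul_apply, smul_eq_mul,
    ContinuousLinearMap.id_apply]
  ring

theorem a3 {T : ι → W2} {u v z : ι → R4} (a : Bo T) (b : Bo u) (c : Bo v) (d : Bo z) :
    Bo fun i => T i (u i) (v i) (z i) := Bo.ap (Bo.ap (a.ap b) c) d

theorem a2 {T : ι → W1} {u v : ι → R4} (a : Bo T) (b : Bo u) (c : Bo v) :
    Bo fun i => T i (u i) (v i) := Bo.ap (a.ap b) c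

theorem bo_cu {G : ι → R4 → W1} (k : Bk y 2 G) : (Bo fun i => cu (G i) (y i)) ∧
    Bo fun i => fderiv ℝ (cu (G i)) (y i) := by
  have G0 := k.z.2
  have c := fun u : R4 => Bo.c (ι := ι) u
  refine ⟨o_bs fun u => o_bs fun v => o_bs fun z => ?_,
    o_bs fun w => o_bs fun u => o_bs fun v => o_bs fun z => ?_⟩
  · have a := fun u v => (a3 k.d1 (c u) (c v) (c (bs z))).add (a2 G0 (c u) (a2 G0 (c v) (c (bs z))))
    exact ((a (bs u) (bs v)).sub (a (bs v) (bs u))).congr_left fun i => (cu_ap ..).symm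
  · have G1 : Bo _ := o_ap0 k.d1 (bs w)
    have a := fun u v => (a3 (o_ap0 k.d2 (bs w)) (c u) (c v) (c (bs z))).add
      ((a2 G1 (c u) (a2 G0 (c v) (c (bs z)))).add (a2 G0 (c u) (a2 G1 (c v) (c (bs z)))))
    exact ((a (bs u) (bs v)).sub (a (bs v) (bs u))).congr_left fun i =>
      (fd_cu (k.z.1 i) _ _ _ _).symm

theorem bo_dcu {G : ι → R4 → W1} (k : Bk y 2 G) {w u v z : ι → R4} (hw : Bo w) (hu : Bo u)
    (hv : Bo v) (hz : Bo z) : Bo fun i => dcu (G i) (y i) (w i) (u i) (v i) (z i) :=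
  have c := bo_cu k
  have G := k.z.2
  ((((a3 (c.2.ap hw) hu hv hz).add (a2 G hw (a3 c.1 hu hv hz))).sub
    (a3 c.1 (a2 G hw hu) hv hz)).sub (a3 c.1 hu (a2 G hw hv) hz)).sub (a3 c.1 hu hv (a2 G hw hz))

section
variable (hD : ∀ i, IsOpen (D i)) (m : ∀ i, Met (g i) (D i))
  (F : ∀ i, Fr (g i) (D i) (Ω i) (b i) (E i)) (hp : ∀ i, p i ∈ Ω i)
  (kG : Bk (fun i => b i (p i)) 2 fun i => GB (tb (g i))) (kb : Bk p 2 b) (kE : Bk p 2 E)
  (J : Bo fun i => (E i (p i)).inverse)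
include kb J

theorem bo_th : Bo fun i => th (b i) (E i) (p i) := o_bs fun j => J.ap (o_ap0 kb.d1 (bs j))

include kG kE

theorem bo_om : Bo fun i => omL (g i) (b i) (E i) (p i) := o_bs fun u => o_bs fun v =>
  (J.ap ((o_ap0 (o_ap0 kE.d1 (bs u)) (bs v)).add
    (a2 kG.z.2 (o_ap0 kb.d1 (bs u)) (o_ap0 kE.z.2 (bs v))))).congr_left fun i => (omL_ap _ _).symm

include m F hp

theorem bo_dth : Bo fun i => fderiv ℝ (th (b i) (E i)) (p i) := o_bs fun u => o_bs fun v => by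
  refine ((J.ap ((o_ap0 (o_ap0 kb.d2 (bs u)) (bs v)).add (a2 kG.z.2 (o_ap0 kb.d1 (bs u))
    (o_ap0 kb.d1 (bs v))))).sub (a2 (bo_om kG kb kE J) (Bo.c (bs u))
      (o_ap0 (bo_th kb J) (bs v)))).congr_left fun i => ?_
  rw [d2b (m i) (F i) (hp i), (P354UR.Fr.inv (F i) (m i) (hp i)).inverse_apply_self,
    add_sub_cancel_right]

include hD

theorem bo_dom : Bo fun i => fderiv ℝ (omL (g i) (b i) (E i)) (p i) :=
  o_bs fun u => o_bs fun v => o_bs fun z => by
    have G := kG.z.2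
    have d := fun u => o_ap0 kb.d1 u
    have e := o_ap0 kE.z.2 (bs z)
    have e1 := fun u => a2 kE.d1 (Bo.c u) (Bo.c (bs z))
    have o := bo_om kG kb kE J
    refine ((J.ap (((a3 kG.d1 (d (bs u)) (d (bs v)) e).add (a2 G (d (bs u)) (a2 G (d (bs v)) e))).add
      (((a3 kE.d2 (Bo.c (bs u)) (Bo.c (bs v)) (Bo.c (bs z))).add
        (a2 G (a2 kb.d2 (Bo.c (bs u)) (Bo.c (bs v))) e)).add
          ((a2 G (d (bs u)) (e1 (bs v))).add (a2 G (d (bs v)) (e1 (bs u))))))).sub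
      (a2 o (Bo.c (bs u)) (a2 o (Bo.c (bs v)) (Bo.c (bs z))))).congr_left fun i => ?_
    rw [← d_om (hD i) (m i) (F i) (hp i), (P354UR.Fr.inv (F i) (m i) (hp i)).inverse_apply_self,
      add_sub_cancel_right]

end

theorem bnd_of (hD : ∀ i, IsOpen (D i)) (m : ∀ i, Met (g i) (D i)) (vc : ∀ i, Vac (g i) (D i))
    (F : ∀ i, Fr (g i) (D i) (Ω i) (b i) (E i)) (hp : ∀ i, p i ∈ Ω i)
    (h : ∀ i, Bd 3 (g i) (b i (p i)) B) (c : 0 < c0)
    (n : ∀ i v, ∃ w, ‖w‖ ≤ 1 ∧ c0 * ‖v‖ ≤ g i (b i (p i)) v w) (jb : ∀ i, Jt 2 (b i) (p i) B)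
    (jE : ∀ i, Jt 2 (E i) (p i) B) : Bnd (fun i => cd (g i) (Ω i) (b i) (E i)) p := by
  have hy := fun i => (F i).maps (hp i)
  have kG := bk_GB hD m hy h c n
  have kb := Bk.of_jt (fun i => P354UR.Fr.atb (F i) (hp i)) jb
  have kE := Bk.of_jt (fun i => P354UR.Fr.atE (F i) (hp i)) jE
  have e := fun u => o_ap0 kE.z.2 u
  have J : Bo fun i => (E i (p i)).inverse := o_bs fun j => o_mink fun l =>
    (Bo.ap (o_ap0 (bk_tb hD m hy h).z.2 (bs j)) (e (bs l))).congr_left fun i =>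
      (mink_inv (hD i) (m i) (F i) (hp i) _ _).symm
  have r : Bo fun i => rhL (g i) (b i) (E i) (p i) := o_bs fun u => o_bs fun v => o_bs fun z =>
    (J.ap (a3 (bo_cu kG).1 (e (bs u)) (e (bs v)) (e (bs z)))).congr_left fun i => (rhL_ap _ _ _).symm
  have s : ∀ w u v z, Bo fun i => sgL (g i) (b i) (E i) (p i) w u v z := fun w u v z =>
    J.ap (bo_dcu kG (e w) (e u) (e v) (e z))
  exact ⟨fun i => car (hD i) (m i) (vc i) (F i), hp, bo_th kb J, bo_om kG kb kE J, r, s,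
    bo_dth m F hp kG kb kE J, bo_dom hD m F hp kG kb kE J⟩

end Vale.Agent.P354YC
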