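import Vale.Agent.P354YC.Bia

/-!
The structure equations of Cartan and the identities of Bianchi in a frame along a map.
-/

set_option maxSynthPendingDepth 3

open scoped ContDiff
open Set Filter Topology

noncomputable section

namespace Vale.Agent.P354YC

open Vale.Agent.P354n (R4 mink)
open Vale.Agent.P354R (Met Vac)
open Vale.Agent.P354RC
open Vale.Agent.P354XD (tb rp_tb gm_symm)
open Vale.Agent.P354XE (Tw eT)
open Vale.Agent.P354XU
open Vale.Agent.P354UR (GB GB_ap GB_cd mB mB_ap fd_fr)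
open ContinuousLinearMap (compL)

/-- The connection form, the curvature and its covariant derivative in the frame E along b. -/
def omL (g : Tw) (b : R4 → R4) (E : R4 → L4) (p : R4) : W1 :=
  compL ℝ R4 R4 R4 (E p).inverse ∘L (fderiv ℝ E p +
    (compL ℝ R4 R4 R4).flip (E p) ∘L (GB (tb g) (b p) ∘L fderiv ℝ b p))
def rhL (g : Tw) (b : R4 → R4) (E : R4 → L4) (p : R4) : W2 :=
  compL ℝ R4 L4 L4 (compL ℝ R4 R4 R4 (E p).inverse ∘L (compL ℝ R4 R4 R4).flip (E p)) ∘L
    (cu (GB (tb g)) (b p)).bilinearComp (E p) (E p)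
def sgL (g : Tw) (b : R4 → R4) (E : R4 → L4) (p w u v z : R4) : R4 :=
  (E p).inverse (dcu (GB (tb g)) (b p) (E p w) (E p u) (E p v) (E p z))

/-- The equations of Cartan and Bianchi for a vacuum metric. -/
structure Car (Ω : Set R4) (θ : R4 → L4) (γ : R4 → W1) (ρ : R4 → W2)
    (σ : R4 → R4 → R4 → R4 → R4 → R4) : Prop where
  op : IsOpen Ω
  sθ : ∀ p ∈ Ω, ContDiffAt ℝ ∞ θ p
  sγ : ∀ p ∈ Ω, ContDiffAt ℝ ∞ γ p
  sρ : ∀ p ∈ Ω, ContDiffAt ℝ ∞ ρ p
  sσ : ∀ p ∈ Ω, ∀ w u v z, ContinuousAt (fun p => σ p w u v z) p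
  lin : ∀ p u v z, IsLinearMap ℝ fun w => σ p w u v z
  tor : ∀ p ∈ Ω, ∀ u v, fderiv ℝ θ p u v + γ p u (θ p v) = fderiv ℝ θ p v u + γ p v (θ p u)
  cur : ∀ p ∈ Ω, ∀ u v z, cu γ p u v z = ρ p (θ p u) (θ p v) z
  bia : ∀ p ∈ Ω, ∀ w u v z, fderiv ℝ ρ p w u v z = σ p (θ p w) u v z - γ p w (ρ p u v z) +
    ρ p (γ p w u) v z + ρ p u (γ p w v) z + ρ p u v (γ p w z)
  skw : ∀ p ∈ Ω, ∀ w u v, mink (γ p w u) v + mink u (γ p w v) = 0
  alt : ∀ p u v z, ρ p u v z = -ρ p v u z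
  par : ∀ p ∈ Ω, ∀ u v z w, mink (ρ p u v z) w = mink (ρ p z w u) v
  ric : ∀ p ∈ Ω, ∀ v z, tr (fun u => ρ p u v z) = 0
  cyc : ∀ p ∈ Ω, ∀ w u v z, σ p w u v z + σ p u v w z + σ p v w u z = 0
  div : ∀ p ∈ Ω, ∀ v z, -σ p (bs 0) (bs 0) v z + σ p (bs 1) (bs 1) v z + σ p (bs 2) (bs 2) v z +
    σ p (bs 3) (bs 3) v z = 0

variable {g : Tw} {D Ω : Set R4} {p : R4} {b c : R4 → R4} {E A : R4 → L4}

theorem omL_ap (u v : R4) : omL g b E p u v = (E p).inverse
    (fderiv ℝ E p u v + GB (tb g) (b p) (fderiv ℝ b p u) (E p v)) := rfl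

theorem omL_eq (u v : R4) : omL g b E p u v = om g b E u v p := by rw [omL_ap, GB_ap, om]

theorem rhL_ap (u v z : R4) : rhL g b E p u v z =
    (E p).inverse (cu (GB (tb g)) (b p) (E p u) (E p v) (E p z)) := rfl

theorem mink_tr (f : R4 → R4) : tr f =
    -mink (f (bs 0)) (bs 0) + mink (f (bs 1)) (bs 1) + mink (f (bs 2)) (bs 2) +
      mink (f (bs 3)) (bs 3) := by
  simp [tr, Fin.sum_univ_four, cv, bs, mink, P354n.cu, P354n.cv, P354n.c1, P354n.c2]

theorem tr_conj {e : L4} (i : e.IsInvertible) {f : R4 → R4} (l : IsLinearMap ℝ f) :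
    tr (fun u => e.inverse (f (e u))) = tr f := by
  have := tr_comm (f := fun u => e.inverse (f u)) (k := e)
    ⟨fun _ _ => by rw [l.map_add, map_add], fun _ _ => by rw [l.map_smul, map_smul]⟩ e.isLinear
  simpa only [i.self_apply_inverse] using this

theorem abs_cd {S : R4 → R4 →L[ℝ] W2} {G : R4 → W1} {T : R4 → W2} {w u v z : R4 → R4}
    (k2 : ContDiffAt ℝ ∞ S p) (k1 : ContDiffAt ℝ ∞ G p) (k : ContDiffAt ℝ ∞ T p)
    (hw : ContDiffAt ℝ ∞ w p) (hu : ContDiffAt ℝ ∞ u p) (hv : ContDiffAt ℝ ∞ v p)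
    (hz : ContDiffAt ℝ ∞ z p) : ContDiffAt ℝ ∞ (fun p => S p (w p) (u p) (v p) (z p) +
      G p (w p) (T p (u p) (v p) (z p)) - T p (G p (w p) (u p)) (v p) (z p) -
      T p (u p) (G p (w p) (v p)) (z p) - T p (u p) (v p) (G p (w p) (z p))) p :=
  have k3 := k1.clm_apply hw
  ((((cd3 (k2.clm_apply hw) hu hv hz).add (k3.clm_apply (cd3 k hu hv hz))).sub
    (cd3 k (k3.clm_apply hu) hv hz)).sub (cd3 k hu (k3.clm_apply hv) hz)).sub
      (cd3 k hu hv (k3.clm_apply hz))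

theorem w2_lin (T : W2) (v z : R4) : IsLinearMap ℝ fun u => T u v z :=
  ((T.flip v).flip z).isLinear

theorem abs_rh {T ρ : R4 → W2} (hT : ContDiffAt ℝ ∞ T (b p)) (hb : ContDiffAt ℝ ∞ b p)
    (hE : ContDiffAt ℝ ∞ E p) (hρ : ContDiffAt ℝ ∞ ρ p) (w : R4) {u v z : R4}
    (e : ∀ᶠ q in 𝓝 p, E q (ρ q u v z) = T (b q) (E q u) (E q v) (E q z)) :
    fderiv ℝ E p w (ρ p u v z) + E p (fderiv ℝ ρ p w u v z) =
      fderiv ℝ T (b p) (fderiv ℝ b p w) (E p u) (E p v) (E p z) +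
      T (b p) (fderiv ℝ E p w u) (E p v) (E p z) + T (b p) (E p u) (fderiv ℝ E p w v) (E p z) +
      T (b p) (E p u) (E p v) (fderiv ℝ E p w z) := by
  have c0 : ∀ a : R4, ContDiffAt ℝ ∞ (fun _ : R4 => a) p := fun _ => contDiffAt_const
  have a1 := fd_ap hE (cd3 hρ (c0 u) (c0 v) (c0 z)) w
  have a2 := fd3 (T := fun q => T (b q)) (hT.comp p hb) (hE.clm_apply (c0 u)) (hE.clm_apply (c0 v))
    (hE.clm_apply (c0 z)) w
  rwa [fd30 hρ, EventuallyEq.fderiv_eq e, a2, fd_comp hT hb, fd_ap0 hE, fd_ap0 hE, fd_ap0 hE,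
    eq_comm] at a1

section
variable (hD : IsOpen D) (m : Met g D) (F : Fr g D Ω b E) (hp : p ∈ Ω)
include hD m F hp

omit hD in
theorem Ei_cd : ContDiffAt ℝ ∞ (fun p => (E p).inverse) p :=
  (P354UR.Fr.inv F m hp).contDiffAt_map_inverse.comp p (P354UR.Fr.atE F hp)

omit hD in
theorem th_cd : ContDiffAt ℝ ∞ (th b E) p := (Ei_cd m F hp).clm_comp (at_fd (P354UR.Fr.atb F hp))

theorem Gb_cd : ContDiffAt ℝ ∞ (fun p => GB (tb g) (b p)) p :=
  (GB_cd (rp_tb hD m) (F.maps hp)).comp p (P354UR.Fr.atb F hp)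

theorem cub_cd : ContDiffAt ℝ ∞ (fun p => cu (GB (tb g)) (b p)) p :=
  (cu_cd (GB_cd (rp_tb hD m) (F.maps hp))).comp p (P354UR.Fr.atb F hp)

theorem omL_cd : ContDiffAt ℝ ∞ (omL g b E) p :=
  (contDiffAt_const.clm_apply (Ei_cd m F hp)).clm_comp ((at_fd (P354UR.Fr.atE F hp)).add
    ((contDiffAt_const.clm_apply (P354UR.Fr.atE F hp)).clm_comp
      ((Gb_cd hD m F hp).clm_comp (at_fd (P354UR.Fr.atb F hp)))))

theorem rhL_cd : ContDiffAt ℝ ∞ (rhL g b E) p :=
  (contDiffAt_const.clm_apply ((contDiffAt_const.clm_apply (Ei_cd m F hp)).clm_comp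
    (contDiffAt_const.clm_apply (P354UR.Fr.atE F hp)))).clm_comp
      (bc_cd (cub_cd hD m F hp) (P354UR.Fr.atE F hp) (P354UR.Fr.atE F hp))

theorem sgL_cd (w u v z : R4) : ContDiffAt ℝ ∞ (fun p => sgL g b E p w u v z) p := by
  have hE := fun a : R4 => (P354UR.Fr.atE F hp).clm_apply (contDiffAt_const (c := a))
  have k := cub_cd hD m F hp
  have k1 := Gb_cd hD m F hp
  have k2 : ContDiffAt ℝ ∞ (fun p => fderiv ℝ (cu (GB (tb g))) (b p)) p :=
    ContDiffAt.comp (g := fderiv ℝ (cu (GB (tb g)))) p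
      (at_fd (cu_cd (GB_cd (rp_tb hD m) (F.maps hp)))) (P354UR.Fr.atb F hp)
  unfold sgL dcu
  exact (Ei_cd m F hp).clm_apply (abs_cd k2 k1 k (hE w) (hE u) (hE v) (hE z))

omit hD in
theorem E_th (u : R4) : E p (th b E p u) = fderiv ℝ b p u :=
  (P354UR.Fr.inv F m hp).self_apply_inverse _

omit hD in
theorem dE_eq (u v : R4) : fderiv ℝ E p u v =
    E p (omL g b E p u v) - GB (tb g) (b p) (fderiv ℝ b p u) (E p v) := by
  rw [omL_ap, (P354UR.Fr.inv F m hp).self_apply_inverse, add_sub_cancel_right]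

omit hD in
theorem E_inj {u v : R4} (e : E p u = E p v) : u = v := (P354UR.Fr.inv F m hp).injective e

theorem on_tb (u v : R4) : tb g (b p) (E p u) (E p v) = mink u v :=
  ((rp_tb hD m).eq _ (F.maps hp) _ _).symm.trans (F.on p hp u v)

theorem mink_inv (u v : R4) : mink ((E p).inverse u) v = tb g (b p) u (E p v) := by
  rw [← on_tb hD m F hp, (P354UR.Fr.inv F m hp).self_apply_inverse]

omit hD in
theorem d2b (u v : R4) : fderiv ℝ (fderiv ℝ b) p u v +
    GB (tb g) (b p) (fderiv ℝ b p u) (fderiv ℝ b p v) =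
      E p (fderiv ℝ (th b E) p u v + omL g b E p u (th b E p v)) := by
  have e : (fun q => fderiv ℝ b q v) =ᶠ[𝓝 p] fun q => E q (th b E q v) := by
    filter_upwards [F.isOpen.mem_nhds hp] with q a using (E_th m F a v).symm
  rw [← fd_ap0 (at_fd (P354UR.Fr.atb F hp)), e.fderiv_eq, fd_ap (P354UR.Fr.atE F hp)
    ((th_cd m F hp).clm_apply contDiffAt_const), fd_ap0 (th_cd m F hp), dE_eq m F hp, E_th m F hp,
    map_add]
  abel

omit hD in
theorem kk_eq (u v : R4) : kk g b E u v p =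
    -mink eT (fderiv ℝ (th b E) p u v + omL g b E p u (th b E p v)) := by
  rw [kk, ← GB_ap, d2b m F hp, F.on p hp]

theorem d_om (u v z : R4) : E p (fderiv ℝ (omL g b E) p u v z + omL g b E p u (omL g b E p v z)) =
    fderiv ℝ (GB (tb g)) (b p) (fderiv ℝ b p u) (fderiv ℝ b p v) (E p z) +
      GB (tb g) (b p) (fderiv ℝ b p u) (GB (tb g) (b p) (fderiv ℝ b p v) (E p z)) +
      (fderiv ℝ (fderiv ℝ E) p u v z + GB (tb g) (b p) (fderiv ℝ (fderiv ℝ b) p u v) (E p z) +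
        (GB (tb g) (b p) (fderiv ℝ b p u) (fderiv ℝ E p v z) +
          GB (tb g) (b p) (fderiv ℝ b p v) (fderiv ℝ E p u z))) := by
  have hE := P354UR.Fr.atE F hp
  have hb := P354UR.Fr.atb F hp
  have c0 : ∀ a : R4, ContDiffAt ℝ ∞ (fun _ : R4 => a) p := fun _ => contDiffAt_const
  have e : (fun q => E q (omL g b E q v z)) =ᶠ[𝓝 p] fun q =>
      fderiv ℝ E q v z + GB (tb g) (b q) (fderiv ℝ b q v) (E q z) := by
    filter_upwards [F.isOpen.mem_nhds hp] with q a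
    rw [dE_eq m F a, sub_add_cancel]
  have k1 := (Gb_cd hD m F hp).clm_apply ((at_fd hb).clm_apply (c0 v))
  have := congrArg (· u) (e.fderiv_eq (𝕜 := ℝ))
  beta_reduce at this
  rw [fd_ap hE (((omL_cd hD m F hp).clm_apply (c0 v)).clm_apply (c0 z)), fd20 (omL_cd hD m F hp),
    fderiv_fun_add (at_df (((at_fd hE).clm_apply (c0 v)).clm_apply (c0 z)))
      (at_df (k1.clm_apply (hE.clm_apply (c0 z)))), add_apply, fd20 (at_fd hE),
    fd_ap k1 (hE.clm_apply (c0 z)), fd_ap (Gb_cd hD m F hp) ((at_fd hb).clm_apply (c0 v)),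
    fd_comp (GB_cd (rp_tb hD m) (F.maps hp)) hb, fd_ap0 (at_fd hb), fd_ap0 hE,
    dE_eq m F hp u (omL g b E p v z), show E p (omL g b E p v z) = _ from e.self_of_nhds, map_add,
    add_apply] at this
  rw [map_add]
  linear_combination (exp := 1) this

theorem d_rh (w u v z : R4) : fderiv ℝ (rhL g b E) p w u v z =
    sgL g b E p (th b E p w) u v z - omL g b E p w (rhL g b E p u v z) +
    rhL g b E p (omL g b E p w u) v z + rhL g b E p u (omL g b E p w v) z +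
    rhL g b E p u v (omL g b E p w z) := by
  have i2 : ∀ q ∈ Ω, ∀ u v z, E q (rhL g b E q u v z) =
      cu (GB (tb g)) (b q) (E q u) (E q v) (E q z) := fun q a u v z => by
    rw [rhL_ap, (P354UR.Fr.inv F m a).self_apply_inverse]
  have a1 := abs_rh (cu_cd (GB_cd (rp_tb hD m) (F.maps hp))) (P354UR.Fr.atb F hp)
    (P354UR.Fr.atE F hp) (rhL_cd hD m F hp) w
    (mem_of_superset (F.isOpen.mem_nhds hp) fun q a => i2 q a u v z)
  rw [dE_eq m F hp w u, dE_eq m F hp w v, dE_eq m F hp w z,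
    dE_eq m F hp w (rhL g b E p u v z)] at a1
  refine E_inj m F hp ?_
  rw [map_add, map_add, map_add, map_sub, sgL, (P354UR.Fr.inv F m hp).self_apply_inverse,
    i2 p hp, i2 p hp, i2 p hp, dcu, E_th m F hp]
  simp only [map_sub, sub_apply, i2 p hp] at a1
  linear_combination (exp := 1) a1

end

theorem car (hD : IsOpen D) (m : Met g D) (vc : Vac g D) (F : Fr g D Ω b E) :
    Car Ω (th b E) (omL g b E) (rhL g b E) (sgL g b E) := by
  have r := rp_tb hD m
  have kG := fun p hp => GB_cd r (F.maps (hp : p ∈ Ω))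
  have sy : ∀ p ∈ Ω, ∀ u v, GB (tb g) (b p) u v = GB (tb g) (b p) v u := fun p hp u v => by
    rw [GB_ap, GB_ap, gm_symm r (F.maps hp)]
  have cyc : ∀ p ∈ Ω, ∀ w u v z, sgL g b E p w u v z + sgL g b E p u v w z +
      sgL g b E p v w u z = 0 := fun p hp w u v z => by
    rw [sgL, sgL, sgL, ← map_add, ← map_add, dcu_cyc (kG p hp) (sy p hp), map_zero]
  refine ⟨F.isOpen, fun p => th_cd m F, fun p => omL_cd hD m F, fun p => rhL_cd hD m F,
    fun p hp w u v z => ?_, fun p u v z => ?_, fun p hp u v => E_inj m F hp ?_,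
    fun p hp u v z => E_inj m F hp ?_, fun p hp => d_rh hD m F hp, fun p hp w u v => ?_,
    fun p u v z => by rw [rhL_ap, cu_alt, map_neg, rhL_ap], fun p hp u v z w => ?_,
    fun p hp v z => ?_, cyc, fun p hp v z => P354UR.mink_nd fun d => ?_⟩
  · exact (sgL_cd hD m F hp w u v z).continuousAt
  · exact ⟨fun _ _ => by rw [sgL, map_add, (dcu_l1 _ _ _).map_add, map_add]; rfl,
      fun _ _ => by rw [sgL, map_smul, (dcu_l1 _ _ _).map_smul, map_smul]; rfl⟩
  · rw [← d2b m F hp, ← d2b m F hp, sym2 (P354UR.Fr.atb F hp), sy p hp]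
  · rw [cu_ap, map_sub, d_om hD m F hp, d_om hD m F hp, rhL_ap,
      (P354UR.Fr.inv F m hp).self_apply_inverse, E_th m F hp, E_th m F hp, cu_ap,
      sym2 (P354UR.Fr.atb F hp) v u, sym2 (P354UR.Fr.atE F hp) v u]
    abel
  · have e : (fun q => (tb g (b q)).bilinearComp (E q) (E q)) =ᶠ[𝓝 p] fun _ => mB := by
      filter_upwards [F.isOpen.mem_nhds hp] with q a
      refine ContinuousLinearMap.ext fun u => ContinuousLinearMap.ext fun v => ?_
      rw [mB_ap, ← on_tb hD m F a]; rfl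
    have := (fd_fr r (P354UR.Fr.atb F hp) (P354UR.Fr.atE F hp) (F.maps hp) w u v).1
    rw [e.fderiv_eq] at this
    rw [omL_ap, omL_ap, mink_inv hD m F hp, ← on_tb hD m F hp,
      (P354UR.Fr.inv F m hp).self_apply_inverse, GB_ap, GB_ap, ← this]
    simp
  · rw [rhL_ap, rhL_ap, mink_inv hD m F hp, mink_inv hD m F hp, cu_pair r (F.maps hp)]
  · simp only [rhL_ap]
    exact (tr_conj (P354UR.Fr.inv F m hp) (w2_lin _ _ _)).trans (cu_tr r (F.maps hp) vc _ _)
  · have t : ∀ w u v, tr (fun a => sgL g b E p w a u v) = 0 := fun w u v =>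
      (tr_conj (P354UR.Fr.inv F m hp) (dcu_l2 _ _ _)).trans (dcu_tr r (F.maps hp) vc _ _ _)
    have pr : ∀ w a u v z, mink (sgL g b E p w a u v) z = mink (sgL g b E p w v z a) u :=
      fun w a u v z => by
        rw [sgL, sgL, mink_inv hD m F hp, mink_inv hD m F hp, dcu_pair r (F.maps hp)]
    have al : ∀ w a u v z, mink (sgL g b E p w a u v) z = -mink (sgL g b E p w u a v) z :=
      fun w a u v z => by
        rw [sgL, sgL, mink_inv hD m F hp, mink_inv hD m F hp, dcu_alt (kG p hp), map_neg,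
          neg_apply]
    have k : ∀ a, mink (sgL g b E p a a v z) d =
        mink (sgL g b E p d a z v) a - mink (sgL g b E p z a d v) a := fun a => by
      have := congrArg (mB · v) (cyc p hp a z d a)
      simp only [map_add, add_apply, mB_ap] at this
      have z0 : mink 0 v = 0 := by rw [← mB_ap]; simp
      rw [pr a a v z d]
      linarith [al z d a a v, pr z a d a v, al z a v a d, pr z v a a d, pr d a z a v, al d a v a z,
        pr d v a a z, pr z a d v a, pr d a z v a]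
    have t1 := t d z v
    have t2 := t z d v
    rw [mink_tr] at t1 t2
    simp only [← mB_ap, map_add, map_neg, add_apply, neg_apply]
    simp only [mB_ap, k]
    linarith

theorem th_eT (m : Met g D) (R : Rol g D Ω c A b E) (hp : p ∈ Ω) : th b E p eT = c p :=
  E_inj m R.toFr hp (by rw [E_th m R.toFr hp, R.db p hp])

theorem om_eT (m : Met g D) (R : Rol g D Ω c A b E) (hp : p ∈ Ω) : omL g b E p eT = A p :=
  ContinuousLinearMap.ext fun v => E_inj m R.toFr hp (by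
    rw [← R.dE p hp, dE_eq m R.toFr hp, R.db p hp, GB_ap, sub_add_cancel])

end Vale.Agent.P354YC
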