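import Vale.Agent.P354YC.Bnd
import Vale.Agent.P354UR.Sym2

/-!
CSL: Cauchy stability in C0 for targets with bounds.
-/

set_option maxSynthPendingDepth 3
set_option linter.all false

open scoped ContDiff
open Set Filter Topology Asymptotics

noncomputable section

namespace Vale.Agent.P354YC

open Vale.Agent.P354n (R4 mink)
open Vale.Agent.P354R (Met Vac)
open Vale.Agent.P354RC
open Vale.Agent.P354XE (Tw eT)
open Vale.Agent.P354H (X3)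
open Vale.Agent.P354XU
open Vale.Agent.P354UR (HZ Ln Dp Mb Dc CSL)

theorem lin1 {Y κ : Type} [NormedAddCommGroup Y] [NormedSpace ℝ Y] [Fintype κ]
    [FiniteDimensional ℝ Y] {B : Y →L[ℝ] Y →L[ℝ] ℝ} {e : R4 → L4} {φ : R4 → ℝ} {O K : Set R4}
    (h : HZ φ (En (κ := κ) B e) O K) (L M : ℝ) {e1 ε : ℝ} (he : 0 < e1) (hε : 0 < ε) :
    ∃ δ > 0, ∀ v ≤ 0, ∀ (Z : R4 → Y × (κ → S6)) (O' : Set R4), IsOpen O' → Ln φ v ⊆ O' →
      (∀ q ∈ O', ContDiffAt ℝ ∞ Z q) → (∀ p ∈ Ln φ v,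
        ∑ μ, En B e μ p (fderiv ℝ Z p (bs μ)) (Z p) ≤ L * ‖Z p‖ ^ 2 ∧ ‖fderiv ℝ Z p‖ ≤ M) →
      (∀ p ∈ Ln φ v, p.1 = 0 → ‖Z p‖ ≤ δ) → ∀ p ∈ Ln φ (v - e1), ‖(Z p).1‖ ≤ ε := by
  obtain ⟨δ, d0, k⟩ := h.lin L M he hε
  exact ⟨δ, d0, fun v v0 Z O' a b c d f p m => (norm_fst_le _).trans (k v v0 Z O' a b
    (fun q a => ((c q a).of_le (by simp)).contDiffWithinAt)
    (fun q a => ⟨(d q a).1.trans (le_add_of_nonneg_right (sq_nonneg _)), (d q a).2⟩) f p m)⟩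

/-- The targets. -/
structure Tg (c : R4 → R4) (A : R4 → L4) (K : Set R4) (B c0 : ℝ) where
  g : Tw
  D : Set R4
  Ω : Set R4
  b : R4 → R4
  E : R4 → L4
  q : R4
  op : IsOpen D
  m : Met g D
  vc : Vac g D
  R : Rol g D Ω c A b E
  mem : q ∈ Ω
  mK : q ∈ K
  bd : Mb 3 B c0 g (b q) ∧ Jt 2 b q B ∧ Jt 2 E q B

variable {φ : R4 → ℝ} {g : Tw} {D Ω K : Set R4} {c b : R4 → R4} {A E : R4 → L4} {B c0 : ℝ}

section
variable (a1 : IsOpen D) (a2 : Met g D) (a3 : Vac g D) (a4 : Rol g D Ω c A b E) (a5 : Dp φ K Ω b E)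
  (hc : 0 < c0)
include a1 a2 a3 a4 a5 hc

theorem tg_fam {κ : Type} (t : κ → Tg c A K B c0) {q : κ → R4} (e : ∀ i, (t i).q = q i) :
    Fam (fun i => cd (t i).g (t i).Ω (t i).b (t i).E) (fun _ => cd g Ω b E) q
      fun _ q => (th b E q).inverse := by
  obtain rfl : (fun i => (t i).q) = q := funext e
  have I : (cd g Ω b E).Is := car a1 a2 a3 a4.toFr
  exact ⟨bnd_of (fun i => (t i).op) (fun i => (t i).m) (fun i => (t i).vc) (fun i => (t i).R.toFr)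
    (fun i => (t i).mem) (fun i => (t i).bd.1.1) hc (fun i => (t i).bd.1.2)
    (fun i => (t i).bd.2.1) fun i => (t i).bd.2.2, bnd_cpt I a5.cpt a5.dom fun i => (t i).mK,
    fun i => gauge a2 a4 (t i).m (t i).R (a5.dom (t i).mK) (t i).mem,
    fun i => (th_inv a2 a4.toFr (a5.dom (t i).mK) (a5.inj _ (t i).mK)).self_apply_inverse,
    bo_cpt a5.cpt (fun i => (t i).mK) fun r k =>
      (thi_cd a2 a4.toFr (a5.dom k) (a5.inj r k)).continuousAt⟩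

theorem tg_ini (a6 : Adp Ω b E) : ∃ C, ∀ (t : Tg c A K B c0) x δ, t.q = (0, x) →
    Dc g t.g b t.b E t.E x δ → ‖ZZ (cd t.g t.Ω t.b t.E) (cd g Ω b E) (0, x)‖ ≤ C * ‖δ‖ := by
  have := (tg_fam a1 a2 a3 a4 a5 hc (κ := {z : Tg c A K B c0 × X3 × ℝ //
    z.1.q = (0, z.2.1) ∧ Dc g z.1.g b z.1.b E z.1.E z.2.1 z.2.2}) (fun i => i.1.1)
      fun i => i.2.1).ini' (n := fun i => i.1.2.2) (fun i => a6 _ (a5.dom (i.2.1 ▸ i.1.1.mK)))
        (fun i j l => k_ev a2 a4.toFr i.1.1.m i.1.1.R.toFr (a5.dom (i.2.1 ▸ i.1.1.mK))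
          (i.2.1 ▸ i.1.1.mem) _ _) fun i => i.2.2
  obtain ⟨C, hC⟩ := isBigO_top.1 this
  refine ⟨C, fun t x δ a k => ?_⟩
  have := hC ⟨(t, x, δ), a, k⟩
  dsimp only at this
  exact this

theorem tg_dZ : ∃ M, ∀ t : Tg c A K B c0,
    ‖fderiv ℝ (ZZ (cd t.g t.Ω t.b t.E) (cd g Ω b E)) t.q‖ ≤ M := by
  have F := tg_fam (B := B) a1 a2 a3 a4 a5 hc id fun _ => rfl
  obtain ⟨M, hM⟩ := isBigO_top.1 (F.l.dZ F.r)
  exact ⟨M * ‖(1 : ℝ)‖, hM⟩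

omit a1 a3 hc in
theorem tg_hz {Q : L4 × W1 →L[ℝ] L4 × W1 →L[ℝ] ℝ} (Q1 : ∀ y y', Q y y' = Q y' y)
    (Q2 : ∀ y ≠ 0, 0 < Q y y) : HZ φ (En (κ := Fin 4 × Fin 4) Q fun q => (th b E q).inverse)
      {q | ContDiffAt ℝ 1 (fun q => (th b E q).inverse) q} K :=
  have iv := fun q (a : q ∈ K) => th_inv a2 a4.toFr (a5.dom a) (a5.inj q a)
  ⟨cd_open, a5.cpt, fun q a => thi_cd a2 a4.toFr (a5.dom a) (a5.inj q a), a5.sub, a5.sm,
    En_cd fun q a => ContDiffAt.contDiffWithinAt a, fun μ q _ => En_symm Q1 μ, fun q a z k =>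
      En_pos Q2 (a5.dt q a) (fun u k k' => a5.cau q a ((th b E q).inverse u)
        (by rwa [(iv q a).self_apply_inverse]) (by rwa [(iv q a).self_apply_inverse])) k⟩

end

set_option maxRecDepth 20000 in
/-- **CSL.** -/
theorem csl : CSL := by
  intro φ g D Ω c A b E K a1 a2 a3 a4 a5 a6 B c0 hc e1 he ε hε
  obtain ⟨Q, Q1, Q2⟩ := ex_form (Y := L4 × W1)
  have I : (cd g Ω b E).Is := car a1 a2 a3 a4.toFr
  obtain ⟨L, hL⟩ := (tg_fam (B := B) a1 a2 a3 a4 a5 hc id fun _ => rfl).est Q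
  obtain ⟨M, hM⟩ := tg_dZ (B := B) a1 a2 a3 a4 a5 hc
  obtain ⟨δ, d0, k⟩ := lin1 (tg_hz a2 a4 a5 Q1 Q2) L M he hε
  obtain ⟨C, hC⟩ := tg_ini (B := B) a1 a2 a3 a4 a5 hc a6
  refine ⟨δ / (|C| + 1), by positivity, fun v v0 g' D' Ω' b' E' b1 b2 b3 b4 b5 _ b7 b8 p hp => ?_⟩
  have I' : (cd g' Ω' b' E').Is := car b1 b2 b3 b4.toFr
  have s : Ln φ v ⊆ K := (P354UR.ln_mono v0).trans a5.sub
  have := k v v0 (ZZ (cd g' Ω' b' E') (cd g Ω b E)) _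
    (b4.isOpen.inter a4.isOpen) (fun q a => ⟨b5 a, a5.dom (s a)⟩) (fun q a => ZZ_cd I' I a.1 a.2)
    (fun q a => ⟨?_, ?_⟩) (fun q a z => ?_) p hp
  · exact (norm_fst_le _).trans this
  · have := hL ⟨g', D', Ω', b', E', q, b1, b2, b3, b4, b5 a, s a, b7 q a⟩
    dsimp only [id] at this
    exact this
  · have := hM ⟨g', D', Ω', b', E', q, b1, b2, b3, b4, b5 a, s a, b7 q a⟩
    dsimp only at this
    exact this
  · have q0 := z_eq z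
    have := hC ⟨g', D', Ω', b', E', q, b1, b2, b3, b4, b5 a, s a, b7 q a⟩ q.2 _ q0 (b8 _ (q0 ▸ a))
    dsimp only at this
    rw [q0]
    refine this.trans ?_
    rw [Real.norm_of_nonneg (by positivity), ← mul_div_assoc, div_le_iff₀ (by positivity), mul_comm]
    gcongr
    linarith [le_abs_self C]

end Vale.Agent.P354YC
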