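import Vale.Agent.P354XE.Defs
import Vale.Agent.P354XJ.Iso

/-!
Phase 3, block E12, piece COL: the collar of a spacelike slice. Exact statements.
-/

open scoped ContDiff
open Set Filter Topology

noncomputable section

namespace Vale.Agent.P354YC

open Vale.Agent.P354n (R4 Spc IsConn IsIsom IsFutureCurve)
open Vale.Agent.P354I (X Dat pd IsDev)
open Vale.Agent.P354R (Pull)
open Vale.Agent.P354J (PDy)
open Vale.Agent.P354XE (Tw Lor Ind)
open Vale.Agent.P354XJ (one)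

/-- The data induced by g along J at the point y are d. -/
def IndAt (g : Tw) (Xf : R4 → R4) (J : X → R4) (d : Dat) (y : X) : Prop :=
  ∃ G n, IsConn g G (J y) ∧ g (J y) n n = -1 ∧ g (J y) n (Xf (J y)) < 0 ∧ ∀ i k,
    g (J y) (pd i J y) n = 0 ∧ g (J y) (pd i J y) (pd k J y) = d.h y i k ∧
    -g (J y) n (pd i (pd k J) y + G (J y) (pd i J y) (pd k J y)) = d.K y i k

/-- GU: local geometric uniqueness for the vacuum equations. -/
def GU : Prop :=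
  ∀ (g g' : Tw) (D D' : Set R4) (Xf Xf' : R4 → R4) (J J' : X → R4) (d : Dat) (O : Set X),
    Lor g D Xf → Lor g' D' Xf' → PDy d → IsOpen O → O ⊆ {0}ᶜ → ContDiffOn ℝ ∞ J O →
    ContDiffOn ℝ ∞ J' O → MapsTo J O D → MapsTo J' O D' →
    (∀ y ∈ O, IndAt g Xf J d y ∧ IndAt g' Xf' J' d y) → ∀ y ∈ O, ∃ W ψ, J y ∈ W ∧ W ⊆ D ∧
      Pull ψ g W g' D' ∧ g' (J' y) (fderiv ℝ ψ (J y) (Xf (J y))) (Xf' (J' y)) < 0 ∧
      ∀ᶠ z in 𝓝 y, ψ (J z) = J' z

/-- RIG: local isometries are determined by their first jet at a point. -/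
def RIG : Prop :=
  ∀ (ψ φ : R4 → R4) (g g' : Tw) (U D' : Set R4), Pull ψ g U g' D' → Pull φ g U g' D' →
    IsPreconnected U → ∀ p ∈ U, ψ p = φ p → fderiv ℝ ψ p = fderiv ℝ φ p → EqOn ψ φ U

/-- J embeds the cylinder in D as a slice with the data d; f vanishes on the slice and increases
to the future. -/
structure Slc (g : Tw) (D : Set R4) (Xf : R4 → R4) (J : X → R4) (d : Dat) (f : R4 → ℝ) :
    Prop where
  lor : Lor g D Xf
  pd : PDy d
  sm : ContDiffOn ℝ ∞ J {0}ᶜ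
  maps : MapsTo J {0}ᶜ D
  emb : IsEmbedding fun y : ({0}ᶜ : Set X) => J y
  ind : Ind g Xf J d
  lev : ∀ y ≠ 0, ContDiffAt ℝ 1 f (J y) ∧ f (J y) = 0 ∧ 0 < fderiv ℝ f (J y) (Xf (J y))

/-- τ vanishes on the slice and increases along future curves. -/
structure Tim (M : Spc) (j : X → M.pt) (τ : M.pt → ℝ) : Prop where
  zero : ∀ y ≠ 0, τ (j y) = 0
  mono : ∀ c, IsFutureCurve M 0 (Icc 0 1) c → τ (c 0) < τ (c 1)

/-- The collar U of the slice and its isometric embedding κ in M. -/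
structure Col (g : Tw) (D : Set R4) (Xf : R4 → R4) (J : X → R4) (f : R4 → ℝ) (M : Spc)
    (j : X → M.pt) (τ : M.pt → ℝ) (U : Set R4) (hU : IsOpen U) (κ : U → M.pt) : Prop where
  sub : U ⊆ D
  mem : MapsTo J {0}ᶜ U
  emb : IsOpenEmbedding κ
  iso : IsIsom (M := one U hU g Xf) κ
  eq : ∀ y (h : y ≠ 0), κ ⟨J y, mem h⟩ = j y
  pos : ∀ p : U, 0 < τ (κ p) ↔ 0 < f p
  neg : ∀ p : U, τ (κ p) < 0 ↔ f p < 0
  zero : ∀ p ∈ U, f p = 0 ↔ p ∈ J '' {0}ᶜ
  inc : ∀ p ∈ U, ContDiffAt ℝ 1 f p ∧ ∀ w, g p w w < 0 → g p w (Xf p) < 0 → 0 < fderiv ℝ f p w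

/-- COL. -/
def COL : Prop :=
  ∀ g D Xf J d f M j τ, Slc g D Xf J d f → IsDev d M j → Tim M j τ →
    ∃ U hU κ, Col g D Xf J f M j τ U hU κ

end Vale.Agent.P354YC
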