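import Vale.Agent.P354YC.Bia

/-!
A calculus of bounds for families, and the energy operator of a transport system coupled to
systems of Maxwell type.
-/

set_option maxSynthPendingDepth 3
set_option linter.all false

open scoped ContDiff
open Set Filter Topology Asymptotics

noncomputable section

namespace Vale.Agent.P354YC

open Vale.Agent.P354n (R4 mink)
open Vale.Agent.P354RC
open Vale.Agent.P354XE (eT)
open Vale.Agent.P354XU (L4)
open Vale.Agent.P354UR (mB mB_ap)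
open ContinuousLinearMap (compL proj fst snd)

section
variable {ι U V : Type} [NormedAddCommGroup U] [NormedSpace ℝ U] [NormedAddCommGroup V]
  [NormedSpace ℝ V] {n : ι → ℝ}

theorem clm_bs (F : R4 →L[ℝ] V) (x : R4) : F x = ∑ i, cv i x • F (bs i) := lin_bs F.isLinear x

/-- Bounded families. -/
abbrev Bo (f : ι → V) : Prop := f =O[⊤] fun _ => (1 : ℝ)

omit [NormedSpace ℝ V] in
theorem Bo.c (x : V) : Bo fun _ : ι => x := isBigO_const_one ℝ x ⊤

omit [NormedSpace ℝ V] in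
theorem Bo.of {f : ι → V} {C : ℝ} (h : ∀ i, ‖f i‖ ≤ C) : Bo f :=
  IsBigO.of_bound C (Eventually.of_forall fun i => by simpa using h i)

theorem o_ap {a b : ι → ℝ} {F : ι → U →L[ℝ] V} {x : ι → U} (hF : F =O[⊤] a) (hx : x =O[⊤] b) :
    (fun i => F i (x i)) =O[⊤] fun i => a i * b i :=
  (IsBigO.of_norm_le fun i => (F i).le_opNorm (x i)).trans (hF.norm_left.mul hx.norm_left)

theorem Bo.ap {F : ι → U →L[ℝ] V} {x : ι → U} (hF : Bo F) (hx : x =O[⊤] n) :
    (fun i => F i (x i)) =O[⊤] n := by simpa only [one_mul] using o_ap hF hx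

theorem o_apb {F : ι → U →L[ℝ] V} {x : ι → U} (hF : F =O[⊤] n) (hx : Bo x) :
    (fun i => F i (x i)) =O[⊤] n := by simpa only [mul_one] using o_ap hF hx

theorem o_ap0 {F : ι → U →L[ℝ] V} (hF : F =O[⊤] n) (x : U) : (fun i => F i x) =O[⊤] n :=
  o_apb hF (Bo.c x)

theorem o_smul {a : ι → ℝ} {x : ι → V} (ha : a =O[⊤] n) (hx : Bo x) :
    (fun i => a i • x i) =O[⊤] n := by simpa only [smul_eq_mul, mul_one] using ha.smul hx

theorem Bo.smul {a : ι → ℝ} {x : ι → V} (ha : Bo a) (hx : x =O[⊤] n) :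
    (fun i => a i • x i) =O[⊤] n := by simpa only [smul_eq_mul, one_mul] using IsBigO.smul ha hx

theorem o_cv {x : ι → R4} (h : ∀ j, (fun i => cv j (x i)) =O[⊤] n) : x =O[⊤] n :=
  (IsBigO.fun_sum (s := Finset.univ) fun j _ => o_smul (h j) (Bo.c (bs j))).congr_left fun i =>
    sum_bs (x i)

theorem o_bs {F : ι → R4 →L[ℝ] V} (h : ∀ j, (fun i => F i (bs j)) =O[⊤] n) : F =O[⊤] n :=
  (IsBigO.fun_sum (s := Finset.univ) fun j _ =>
    (Bo.c (ContinuousLinearMap.smulRightL ℝ R4 V (cv j))).ap (h j)).congr_left fun i =>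
      ContinuousLinearMap.ext fun x => by
        rw [clm_bs (F i) x, sum_apply]; rfl

theorem o_lin {f : ι → R4 → V} {x : ι → R4} (l : ∀ i, IsLinearMap ℝ (f i))
    (h : ∀ j, Bo fun i => f i (bs j)) (hx : x =O[⊤] n) : (fun i => f i (x i)) =O[⊤] n :=
  (IsBigO.fun_sum (s := Finset.univ) fun j _ => o_smul ((Bo.c (cv j)).ap hx) (h j)).congr_left
    fun i => (lin_bs (l i) (x i)).symm

theorem o_mink {x : ι → R4} (h : ∀ j, (fun i => mink (x i) (bs j)) =O[⊤] n) : x =O[⊤] n :=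
  o_cv fun j => by
    fin_cases j
    · exact (h 0).neg_left.congr_left fun i => by
        simp [mink, cv, bs, P354n.cu, P354n.cv, P354n.c1, P354n.c2]
    · exact (h 1).congr_left fun i => by simp [mink, cv, bs, P354n.cu, P354n.cv, P354n.c1, P354n.c2]
    · exact (h 2).congr_left fun i => by simp [mink, cv, bs, P354n.cu, P354n.cv, P354n.c1, P354n.c2]
    · exact (h 3).congr_left fun i => by simp [mink, cv, bs, P354n.cu, P354n.cv, P354n.c1, P354n.c2]

theorem o_mk {x y : ι → R4} (hx : x =O[⊤] n) (hy : Bo y) : (fun i => mink (x i) (y i)) =O[⊤] n := by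
  simpa only [mB_ap] using o_apb ((Bo.c mB).ap hx) hy

theorem Bo.mk {x y : ι → R4} (hx : Bo x) (hy : y =O[⊤] n) :
    (fun i => mink (x i) (y i)) =O[⊤] n := by
  simpa only [mB_ap] using Bo.ap ((Bo.c mB).ap hx) hy

/-- Two bounded families whose difference is of order n. -/
structure Df (n : ι → ℝ) (f' f : ι → V) : Prop where
  l : Bo f'
  r : Bo f
  d : (fun i => f' i - f i) =O[⊤] n

omit [NormedSpace ℝ V] in
theorem Df.rf {f : ι → V} (h : Bo f) : Df n f f :=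
  ⟨h, h, by simpa only [sub_self] using isBigO_zero _ _⟩

omit [NormedSpace ℝ V] in
theorem Df.add {f' f k' k : ι → V} (a : Df n f' f) (b : Df n k' k) :
    Df n (fun i => f' i + k' i) fun i => f i + k i :=
  ⟨IsBigO.add a.l b.l, IsBigO.add a.r b.r, (a.d.add b.d).congr_left fun _ => by abel⟩

omit [NormedSpace ℝ V] in
theorem Df.sub {f' f k' k : ι → V} (a : Df n f' f) (b : Df n k' k) :
    Df n (fun i => f' i - k' i) fun i => f i - k i :=
  ⟨IsBigO.sub a.l b.l, IsBigO.sub a.r b.r, (a.d.sub b.d).congr_left fun _ => by abel⟩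

theorem Df.ap {F' F : ι → U →L[ℝ] V} {x' x : ι → U} (a : Df n F' F) (b : Df n x' x) :
    Df n (fun i => F' i (x' i)) fun i => F i (x i) :=
  ⟨a.l.ap b.l, a.r.ap b.r, ((o_apb a.d b.l).add (a.r.ap b.d)).congr_left fun _ => by
    rw [sub_apply, map_sub]; abel⟩

theorem Df.ap0 {F' F : ι → U →L[ℝ] V} (a : Df n F' F) (x : U) :
    Df n (fun i => F' i x) fun i => F i x := a.ap (.rf (Bo.c x))

end

/-- The electric and the magnetic field. -/
abbrev S6 : Type := Fin 6 → ℝ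

/-- The symmetric product of two coordinates. -/
def p6 (i : Fin 6) : S6 →L[ℝ] ℝ := proj i
def sy (i j : Fin 6) : S6 →L[ℝ] S6 →L[ℝ] ℝ := (p6 i).smulRight (p6 j) + (p6 j).smulRight (p6 i)

/-- The components of the energy current. -/
def mq : Fin 4 → S6 →L[ℝ] S6 →L[ℝ] ℝ :=
  ![∑ i, (p6 i).smulRight (p6 i), sy 1 5 - sy 2 4, sy 2 3 - sy 0 5, sy 0 4 - sy 1 3]

/-- The energy current. -/
def mv (x y : S6) : R4 := ∑ a, mq a x y • bs a

theorem mq0 (x y : S6) : mq 0 x y =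
    x 0 * y 0 + x 1 * y 1 + x 2 * y 2 + x 3 * y 3 + x 4 * y 4 + x 5 * y 5 := by
  simp [mq, p6, Fin.sum_univ_six]
theorem mq1 (x y : S6) : mq 1 x y = x 1 * y 5 + x 5 * y 1 - (x 2 * y 4 + x 4 * y 2) := rfl
theorem mq2 (x y : S6) : mq 2 x y = x 2 * y 3 + x 3 * y 2 - (x 0 * y 5 + x 5 * y 0) := rfl
theorem mq3 (x y : S6) : mq 3 x y = x 0 * y 4 + x 4 * y 0 - (x 1 * y 3 + x 3 * y 1) := rfl

theorem mq_symm (a : Fin 4) (x y : S6) : mq a x y = mq a y x := by
  fin_cases a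
  · exact (mq0 x y).trans (Eq.trans (by ring) (mq0 y x).symm)
  · exact (mq1 x y).trans (Eq.trans (by ring) (mq1 y x).symm)
  · exact (mq2 x y).trans (Eq.trans (by ring) (mq2 y x).symm)
  · exact (mq3 x y).trans (Eq.trans (by ring) (mq3 y x).symm)

theorem mv_eq (x y : S6) : mv x y = (mq 0 x y, mq 1 x y, mq 2 x y, mq 3 x y) := by
  simp [mv, Fin.sum_univ_four, bs]

theorem mv_cau {x : S6} (h : x ≠ 0) : mink (mv x x) (mv x x) ≤ 0 ∧ 0 < (mv x x).1 := by
  rw [mv_eq]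
  simp only [mink, P354n.cu, P354n.cv, P354n.c1, P354n.c2, mq0, mq1, mq2, mq3]
  refine ⟨by linarith [mul_self_nonneg (x 0 * x 3 + x 1 * x 4 + x 2 * x 5),
    mul_self_nonneg (x 0 * x 0 + x 1 * x 1 + x 2 * x 2 - (x 3 * x 3 + x 4 * x 4 + x 5 * x 5))], ?_⟩
  obtain ⟨i, hi⟩ := Function.ne_iff.1 h
  have := Finset.single_le_sum (f := fun i => x i * x i) (fun i _ => mul_self_nonneg _)
    (Finset.mem_univ i)
  rw [Fin.sum_univ_six] at this
  exact (mul_self_pos.2 hi).trans_le this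

theorem mq_sum (G : Fin 4 → S6) (x : S6) : ∑ a, mq a (G a) x =
    (G 0 0 - G 2 5 + G 3 4) * x 0 + (G 0 1 - G 3 3 + G 1 5) * x 1 + (G 0 2 - G 1 4 + G 2 3) * x 2 +
    (G 0 3 + G 2 2 - G 3 1) * x 3 + (G 0 4 + G 3 0 - G 1 2) * x 4 +
    (G 0 5 + G 1 1 - G 2 0) * x 5 := by
  rw [Fin.sum_univ_four, mq0, mq1, mq2, mq3]
  ring

section
variable {Y κ : Type} [NormedAddCommGroup Y] [NormedSpace ℝ Y] [Fintype κ]
  {B : Y →L[ℝ] Y →L[ℝ] ℝ} {e : R4 → L4} {p : R4}

/-- The energy operator. -/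
def En (B : Y →L[ℝ] Y →L[ℝ] ℝ) (e : R4 → L4) (μ : Fin 4) (p : R4) :
    Y × (κ → S6) →L[ℝ] Y × (κ → S6) →L[ℝ] ℝ :=
  (bs μ).1 • B.bilinearComp (fst ℝ _ _) (fst ℝ _ _) + ∑ a, cv μ (e p (bs a)) •
    ∑ k, (mq a).bilinearComp (proj k ∘L snd ℝ _ _) (proj k ∘L snd ℝ _ _)

theorem En_ap (μ : Fin 4) (z w : Y × (κ → S6)) : En B e μ p z w =
    (bs μ).1 * B z.1 w.1 + ∑ a, cv μ (e p (bs a)) * ∑ k, mq a (z.2 k) (w.2 k) := by
  simp only [En, add_apply, smul_apply, sum_apply, smul_eq_mul]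
  rfl

theorem En_cd {O : Set R4} (h : ContDiffOn ℝ 1 e O) (μ : Fin 4) :
    ContDiffOn ℝ 1 (En (κ := κ) B e μ) O :=
  contDiffOn_const.add (ContDiffOn.sum fun _ _ =>
    ((cv μ).contDiff.comp_contDiffOn (h.clm_apply contDiffOn_const)).smul contDiffOn_const)

theorem En_symm (s : ∀ y y', B y y' = B y' y) (μ : Fin 4) (z w : Y × (κ → S6)) :
    En B e μ p z w = En B e μ p w z := by
  simp only [En_ap, s z.1, fun a k => mq_symm a (z.2 k)]

theorem En_xi (ξ : R4 →L[ℝ] ℝ) (z : Y × (κ → S6)) : ∑ μ, ξ (bs μ) * En B e μ p z z =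
    ξ eT * B z.1 z.1 + ∑ k, ξ (e p (mv (z.2 k) (z.2 k))) := by
  have a : ∀ x, ξ x = ∑ μ, ξ (bs μ) * cv μ x := fun x => by
    simpa only [smul_eq_mul, mul_comm] using clm_bs ξ x
  simp only [En_ap, mul_add, Finset.sum_add_distrib, mv, map_sum, map_smul, smul_eq_mul]
  congr 1
  · simp [Fin.sum_univ_four, bs, eT]
    left; rfl
  · simp only [fun k => a (e p (bs k)), Finset.mul_sum]
    rw [Finset.sum_comm]
    refine (Finset.sum_congr rfl fun _ _ => Finset.sum_comm).trans (Finset.sum_comm.trans ?_)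
    exact Finset.sum_congr rfl fun _ _ => Finset.sum_congr rfl fun _ _ =>
      Finset.sum_congr rfl fun _ _ => by ring

theorem En_pos (hB : ∀ y ≠ 0, 0 < B y y) {ξ : R4 →L[ℝ] ℝ} (h0 : 0 < ξ eT)
    (h : ∀ q, mink q q ≤ 0 → 0 < q.1 → 0 < ξ (e p q)) {z : Y × (κ → S6)} (hz : z ≠ 0) :
    0 < ∑ μ, ξ (bs μ) * En B e μ p z z := by
  have a : ∀ x : S6, x ≠ 0 → 0 < ξ (e p (mv x x)) := fun x k => h _ (mv_cau k).1 (mv_cau k).2
  have a0 : ∀ x : S6, 0 ≤ ξ (e p (mv x x)) := fun x => by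
    rcases eq_or_ne x 0 with rfl | k
    · simp [mv]
    · exact (a x k).le
  rw [En_xi]
  by_cases k : z.1 = 0
  · obtain ⟨j, hj⟩ := Function.ne_iff.1 (show z.2 ≠ 0 from fun c => hz (Prod.ext k c))
    simpa [k] using Finset.sum_pos' (fun i _ => a0 _) ⟨j, Finset.mem_univ _, a _ hj⟩
  · exact add_pos_of_pos_of_nonneg (mul_pos h0 (hB _ k)) (Finset.sum_nonneg fun _ _ => a0 _)

theorem En_sum (d : R4 →L[ℝ] Y × (κ → S6)) (z : Y × (κ → S6)) :
    ∑ μ, En B e μ p (d (bs μ)) z =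
      B (d eT).1 z.1 + ∑ k, ∑ a, mq a ((d (e p (bs a))).2 k) (z.2 k) := by
  simp only [En_ap, Finset.sum_add_distrib]
  congr 1
  · simp [Fin.sum_univ_four, bs, eT]
    rfl
  · simp only [fun a => clm_bs d (e p (bs a)), Prod.snd_sum, Finset.sum_apply,
      Prod.smul_snd, Pi.smul_apply, map_sum, map_smul, sum_apply, smul_apply, smul_eq_mul,
      Finset.mul_sum, ContinuousLinearMap.coe_coe]
    rw [Finset.sum_comm]
    exact (Finset.sum_congr rfl fun _ _ => Finset.sum_comm).trans Finset.sum_comm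

theorem ex_form [FiniteDimensional ℝ Y] :
    ∃ B : Y →L[ℝ] Y →L[ℝ] ℝ, (∀ y y', B y y' = B y' y) ∧ ∀ y ≠ 0, 0 < B y y :=
  ⟨(innerSL ℝ).bilinearComp (toEuclidean (E := Y)).toContinuousLinearMap
    (toEuclidean (E := Y)).toContinuousLinearMap, fun y y' =>
      real_inner_comm (toEuclidean y') (toEuclidean y), fun y k =>
      (real_inner_self_pos (x := toEuclidean y)).2 (by simpa using k)⟩

end

end Vale.Agent.P354YC
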