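import Vale.Agent.P354YC.Car
import Vale.Agent.P354YC.Mxw

/-!
The difference of two solutions of the equations of Cartan and Bianchi in the same gauge solves a
symmetric hyperbolic inequality, with a constant which is uniform for bounded families.
-/

set_option maxSynthPendingDepth 3
set_option linter.all false

open scoped ContDiff
open Set Filter Topology Asymptotics

noncomputable section

namespace Vale.Agent.P354YC

open Vale.Agent.P354n (R4 mink)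
open Vale.Agent.P354RC
open Vale.Agent.P354XE (eT)
open Vale.Agent.P354XU (L4)
open ContinuousLinearMap (pi apply)

/-- The data of the structure equations. -/
structure Cd where
  Ω : Set R4
  θ : R4 → L4
  γ : R4 → W1
  ρ : R4 → W2
  σ : R4 → R4 → R4 → R4 → R4 → R4

abbrev Cd.Is (C : Cd) : Prop := Car C.Ω C.θ C.γ C.ρ C.σ

/-- The six pairs. -/
def pa : Fin 6 → Fin 4 := ![1, 2, 3, 2, 3, 1]
def pc : Fin 6 → Fin 4 := ![0, 0, 0, 3, 1, 2]

/-- The components of a curvature form, and the unknowns. -/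
def ev {V : Type} [NormedAddCommGroup V] [NormedSpace ℝ V] (a : R4) : (R4 →L[ℝ] V) →L[ℝ] V :=
  apply ℝ V a
def ev3 {V : Type} [NormedAddCommGroup V] [NormedSpace ℝ V] (a b c : R4) :
    (R4 →L[ℝ] R4 →L[ℝ] R4 →L[ℝ] V) →L[ℝ] V := (ev c).comp ((ev b).comp (ev a))
def T3 : W2 →L[ℝ] (Fin 4 × Fin 4 → S6) :=
  pi fun k => pi fun s => (cv k.2).comp (ev3 (bs (pa s)) (bs (pc s)) (bs k.1))
abbrev VV : Type := (L4 × W1) × (Fin 4 × Fin 4 → S6)
def ZZ (C' C : Cd) (p : R4) : VV := ((C'.θ p - C.θ p, C'.γ p - C.γ p), T3 (C'.ρ p - C.ρ p))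

theorem T3_ap (T : W2) (k : Fin 4 × Fin 4) (s : Fin 6) :
    T3 T k s = cv k.2 (T (bs (pa s)) (bs (pc s)) (bs k.1)) := rfl

theorem ZZ_cd {C' C : Cd} {p : R4} (a : C'.Is) (b : C.Is) (m' : p ∈ C'.Ω) (m : p ∈ C.Ω) :
    ContDiffAt ℝ ∞ (ZZ C' C) p :=
  (((a.sθ p m').sub (b.sθ p m)).prodMk ((a.sγ p m').sub (b.sγ p m))).prodMk
    (T3.contDiff.contDiffAt.comp p ((a.sρ p m').sub (b.sρ p m)))

theorem ZZ_fd {C' C : Cd} {p : R4} (a : C'.Is) (b : C.Is) (m' : p ∈ C'.Ω) (m : p ∈ C.Ω) (u : R4) :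
    fderiv ℝ (ZZ C' C) p u = ((fderiv ℝ C'.θ p u - fderiv ℝ C.θ p u,
      fderiv ℝ C'.γ p u - fderiv ℝ C.γ p u), T3 (fderiv ℝ C'.ρ p u - fderiv ℝ C.ρ p u)) :=
  congrArg (· u) ((((at_df (a.sθ p m')).hasFDerivAt.sub (at_df (b.sθ p m)).hasFDerivAt).prodMk
    ((at_df (a.sγ p m')).hasFDerivAt.sub (at_df (b.sγ p m)).hasFDerivAt)).prodMk
      (T3.hasFDerivAt.comp p ((at_df (a.sρ p m')).hasFDerivAt.sub
        (at_df (b.sρ p m)).hasFDerivAt))).fderiv

theorem Car.dalt {C : Cd} (a : C.Is) {p : R4} (m : p ∈ C.Ω) (w u v z : R4) :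
    fderiv ℝ C.ρ p w u v z = -fderiv ℝ C.ρ p w v u z := by
  rw [← fd30 (a.sρ p m), ← fd30 (a.sρ p m), funext fun q => a.alt q u v z, fderiv_fun_neg, neg_apply]

variable {ι : Type} {C' C : ι → Cd} {p : ι → R4} {e : ι → R4 → L4} {n : ι → ℝ}

theorem o_T3 {T : ι → W2} (al : ∀ i u v z, T i u v z = -T i v u z)
    (h : ∀ k s, (fun i => T3 (T i) k s) =O[⊤] n) : T =O[⊤] n :=
  o_bs fun a => o_bs fun b => o_bs fun c => o_cv fun d => by
    have : ∀ a b : Fin 4, a = b ∨ (∃ s, pa s = a ∧ pc s = b) ∨ ∃ s, pa s = b ∧ pc s = a := by decide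
    rcases this a b with rfl | ⟨s, rfl, rfl⟩ | ⟨s, rfl, rfl⟩
    · refine (isBigO_zero _ _).congr_left fun i => ?_
      have := congrArg (cv d) (al i (bs a) (bs a) (bs c))
      rw [map_neg] at this
      linarith
    · exact h (c, d) s
    · exact (h (c, d) s).neg_left.congr_left fun i => by rw [al, map_neg, T3_ap]

/-- A bounded family of solutions. -/
structure Bnd (C : ι → Cd) (p : ι → R4) : Prop where
  is : ∀ i, (C i).Is
  mem : ∀ i, p i ∈ (C i).Ω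
  θ : Bo fun i => (C i).θ (p i)
  γ : Bo fun i => (C i).γ (p i)
  ρ : Bo fun i => (C i).ρ (p i)
  σ : ∀ w u v z, Bo fun i => (C i).σ (p i) w u v z
  dθ : Bo fun i => fderiv ℝ (C i).θ (p i)
  dγ : Bo fun i => fderiv ℝ (C i).γ (p i)

theorem Bnd.dρ (b : Bnd C p) : Bo fun i => fderiv ℝ (C i).ρ (p i) :=
  o_bs fun w => o_bs fun u => o_bs fun v => o_bs fun z => by
    have g := o_ap0 b.γ (bs w)
    exact (((((o_lin (fun i => (b.is i).lin (p i) _ _ _) (fun j => b.σ _ (bs u) (bs v) (bs z))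
      (o_ap0 b.θ (bs w))).sub (Bo.ap g (o_ap0 (o_ap0 (o_ap0 b.ρ (bs u)) (bs v)) (bs z)))).add
      (o_ap0 (o_ap0 (Bo.ap b.ρ (o_ap0 g (bs u))) (bs v)) (bs z))).add
      (o_ap0 (Bo.ap (o_ap0 b.ρ (bs u)) (o_ap0 g (bs v))) (bs z))).add
      (Bo.ap (o_ap0 (o_ap0 b.ρ (bs u)) (bs v)) (o_ap0 g (bs z)))).congr_left fun i =>
        ((b.is i).bia _ (b.mem i) _ _ _ _).symm

theorem Bnd.dZ (b' : Bnd C' p) (b : Bnd C p) : Bo fun i => fderiv ℝ (ZZ (C' i) (C i)) (p i) :=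
  o_bs fun w => ((((o_ap0 b'.dθ (bs w)).sub (o_ap0 b.dθ (bs w))).prod_left
    ((o_ap0 b'.dγ (bs w)).sub (o_ap0 b.dγ (bs w)))).prod_left
      ((Bo.c T3).ap ((o_ap0 b'.dρ (bs w)).sub (o_ap0 b.dρ (bs w))))).congr_left fun i =>
        (ZZ_fd (b'.is i) (b.is i) (b'.mem i) (b.mem i) _).symm

/-- Two bounded families in the same gauge; e is the frame of the second one. -/
structure Fam (C' C : ι → Cd) (p : ι → R4) (e : ι → R4 → L4) : Prop where
  l : Bnd C' p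
  r : Bnd C p
  ga : ∀ i, ∀ᶠ q in 𝓝 (p i), (C' i).θ q eT = (C i).θ q eT ∧ (C' i).γ q eT = (C i).γ q eT
  inv : ∀ i u, (C i).θ (p i) (e i (p i) u) = u
  be : Bo fun i => e i (p i)

namespace Fam
variable (F : Fam C' C p e)
include F

theorem d1 (i : ι) (v : R4) :
    fderiv ℝ (C' i).θ (p i) v eT = fderiv ℝ (C i).θ (p i) v eT := by
  rw [← fd_ap0 ((F.l.is i).sθ _ (F.l.mem i)), ← fd_ap0 ((F.r.is i).sθ _ (F.r.mem i)),
    EventuallyEq.fderiv_eq ((F.ga i).mono fun _ a => a.1)]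

theorem d2 (i : ι) (v : R4) :
    fderiv ℝ (C' i).γ (p i) v eT = fderiv ℝ (C i).γ (p i) v eT := by
  rw [← fd_ap0 ((F.l.is i).sγ _ (F.l.mem i)), ← fd_ap0 ((F.r.is i).sγ _ (F.r.mem i)),
    EventuallyEq.fderiv_eq ((F.ga i).mono fun _ a => a.2)]

section
variable (t : Df n (fun i => (C' i).θ (p i)) fun i => (C i).θ (p i))
  (g : Df n (fun i => (C' i).γ (p i)) fun i => (C i).γ (p i))
  (r : Df n (fun i => (C' i).ρ (p i)) fun i => (C i).ρ (p i))
include t g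

theorem e1 : (fun i => fderiv ℝ (C' i).θ (p i) eT - fderiv ℝ (C i).θ (p i) eT) =O[⊤] n :=
  o_bs fun v => (((g.ap0 (bs v)).ap (t.ap0 eT)).sub ((g.ap0 eT).ap (t.ap0 (bs v)))).d.congr_left
    fun i => by
      have a := (F.l.is i).tor _ (F.l.mem i) eT (bs v)
      have b := (F.r.is i).tor _ (F.r.mem i) eT (bs v)
      rw [F.d1] at a
      rw [sub_apply]
      linear_combination (exp := 1) b - a

include r

theorem e2 : (fun i => fderiv ℝ (C' i).γ (p i) eT - fderiv ℝ (C i).γ (p i) eT) =O[⊤] n :=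
  o_bs fun v => o_bs fun z => (((((r.ap (t.ap0 eT)).ap (t.ap0 (bs v))).ap0 (bs z)).sub
    ((g.ap0 eT).ap ((g.ap0 (bs v)).ap0 (bs z)))).add
      ((g.ap0 (bs v)).ap ((g.ap0 eT).ap0 (bs z)))).d.congr_left fun i => by
      have a := (F.l.is i).cur _ (F.l.mem i) eT (bs v) (bs z)
      have b := (F.r.is i).cur _ (F.r.mem i) eT (bs v) (bs z)
      rw [cu_ap] at a b
      rw [F.d2] at a
      rw [sub_apply, sub_apply]
      linear_combination (exp := 1) b - a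

theorem e3 (w u v z : R4) : (fun i => fderiv ℝ (C' i).ρ (p i) (e i (p i) w) u v z -
    fderiv ℝ (C i).ρ (p i) (e i (p i) w) u v z -
      ((C' i).σ (p i) w u v z - (C i).σ (p i) w u v z)) =O[⊤] n := by
  have x := o_ap0 F.be w
  have k := g.ap (.rf x)
  refine ((o_lin (fun i => (F.l.is i).lin (p i) u v z) (fun j => F.l.σ _ u v z) (o_apb t.d x)).add
    ((((((r.ap (k.ap0 u)).ap0 v).ap0 z).sub (k.ap (((r.ap0 u).ap0 v).ap0 z))).add
      (((r.ap0 u).ap (k.ap0 v)).ap0 z)).add (((r.ap0 u).ap0 v).ap (k.ap0 z))).d).congr_left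
        fun i => ?_
  rw [(F.l.is i).bia _ (F.l.mem i), (F.r.is i).bia _ (F.r.mem i), F.inv, sub_apply,
    ((F.l.is i).lin _ _ _ _).map_sub, F.inv]
  abel

end

theorem est (B : L4 × W1 →L[ℝ] L4 × W1 →L[ℝ] ℝ) : ∃ L, ∀ i,
    ∑ μ, En B (e i) μ (p i) (fderiv ℝ (ZZ (C' i) (C i)) (p i) (bs μ)) (ZZ (C' i) (C i) (p i)) ≤
      L * ‖ZZ (C' i) (C i) (p i)‖ ^ 2 := by
  obtain ⟨n, hn⟩ : ∃ n : ι → ℝ, n = fun i => ‖ZZ (C' i) (C i) (p i)‖ := ⟨_, rfl⟩
  have z1 : (fun i => (ZZ (C' i) (C i) (p i)).1) =O[⊤] n :=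
    hn ▸ IsBigO.of_norm_le fun i => norm_fst_le _
  have z2 : ∀ k s, (fun i => (ZZ (C' i) (C i) (p i)).2 k s) =O[⊤] n := fun k s =>
    hn ▸ IsBigO.of_norm_le fun i =>
      ((norm_le_pi_norm _ s).trans (norm_le_pi_norm _ k)).trans (norm_snd_le _)
  have t : Df n (fun i => (C' i).θ (p i)) fun i => (C i).θ (p i) :=
    ⟨F.l.θ, F.r.θ, z1.prod_left_fst⟩
  have g : Df n (fun i => (C' i).γ (p i)) fun i => (C i).γ (p i) :=
    ⟨F.l.γ, F.r.γ, z1.prod_left_snd⟩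
  have r : Df n (fun i => (C' i).ρ (p i)) fun i => (C i).ρ (p i) :=
    ⟨F.l.ρ, F.r.ρ, o_T3 (fun i u v z => by
      simp only [sub_apply]
      rw [(F.l.is i).alt, (F.r.is i).alt]
      abel) z2⟩
  have a1 := o_ap ((Bo.c B).ap ((F.e1 t g).prod_left (F.e2 t g r))) z1
  have a2 : ∀ k : Fin 4 × Fin 4, (fun i => ∑ a, mq a (T3 (fderiv ℝ (C' i).ρ (p i) (e i (p i) (bs a)) -
      fderiv ℝ (C i).ρ (p i) (e i (p i) (bs a))) k) ((ZZ (C' i) (C i) (p i)).2 k)) =O[⊤]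
        fun i => n i * n i := fun k => by
    obtain ⟨G, hG⟩ : ∃ G : Fin 4 → Fin 4 → Fin 4 → ι → ℝ, G = fun w u v i =>
      cv k.2 (fderiv ℝ (C' i).ρ (p i) (e i (p i) (bs w)) (bs u) (bs v) (bs k.1) -
        fderiv ℝ (C i).ρ (p i) (e i (p i) (bs w)) (bs u) (bs v) (bs k.1)) := ⟨_, rfl⟩
    have al : ∀ w u v i, G w u v i = -G w v u i := fun w u v i => by
      rw [hG]
      beta_reduce
      rw [Car.dalt (F.l.is i) (F.l.mem i), Car.dalt (F.r.is i) (F.r.mem i), map_sub, map_sub,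
        map_neg, map_neg]
      ring
    have h := fun w u v => (Bo.c (cv k.2)).ap (F.e3 t g r (bs w) (bs u) (bs v) (bs k.1))
    have cy : ∀ w u v, (fun i => G w u v i + G u v w i + G v w u i) =O[⊤] n := fun w u v =>
      (((h w u v).add (h u v w)).add (h v w u)).congr_left fun i => by
        have a := congrArg (cv k.2) ((F.l.is i).cyc _ (F.l.mem i) (bs w) (bs u) (bs v) (bs k.1))
        have b := congrArg (cv k.2) ((F.r.is i).cyc _ (F.r.mem i) (bs w) (bs u) (bs v) (bs k.1))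
        simp only [hG, map_add, map_sub, map_zero] at a b ⊢
        linarith
    have dv : ∀ v, (fun i => -G 0 0 v i + G 1 1 v i + G 2 2 v i + G 3 3 v i) =O[⊤] n := fun v =>
      ((((h 0 0 v).neg_left.add (h 1 1 v)).add (h 2 2 v)).add (h 3 3 v)).congr_left fun i => by
        have a := congrArg (cv k.2) ((F.l.is i).div _ (F.l.mem i) (bs v) (bs k.1))
        have b := congrArg (cv k.2) ((F.r.is i).div _ (F.r.mem i) (bs v) (bs k.1))
        simp only [hG, map_add, map_sub, map_neg, map_zero] at a b ⊢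
        linarith
    refine (((((((dv 1).mul (z2 k 0)).add ((dv 2).mul (z2 k 1))).add ((dv 3).mul (z2 k 2))).add
      ((cy 0 2 3).mul (z2 k 3))).add ((cy 0 3 1).mul (z2 k 4))).add
        ((cy 0 1 2).mul (z2 k 5))).congr_left fun i => ?_
    have q : ∀ a s, T3 (fderiv ℝ (C' i).ρ (p i) (e i (p i) (bs a)) -
        fderiv ℝ (C i).ρ (p i) (e i (p i) (bs a))) k s = G a (pa s) (pc s) i := fun a s => by
      rw [hG, T3_ap, sub_apply, sub_apply, sub_apply]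
    rw [mq_sum]
    simp only [q, show pa 0 = 1 from rfl, show pa 1 = 2 from rfl, show pa 2 = 3 from rfl,
      show pa 3 = 2 from rfl, show pa 4 = 3 from rfl, show pa 5 = 1 from rfl, show pc 0 = 0 from rfl,
      show pc 1 = 0 from rfl, show pc 2 = 0 from rfl, show pc 3 = 3 from rfl,
      show pc 4 = 1 from rfl, show pc 5 = 2 from rfl]
    rw [al 0 0 1, al 0 0 2, al 0 0 3, al 2 2 1, al 3 3 2, al 1 1 3, al 3 0 2, al 1 0 3, al 2 0 1,
      show G 1 1 1 i = 0 by linarith [al 1 1 1 i], show G 2 2 2 i = 0 by linarith [al 2 2 2 i],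
      show G 3 3 3 i = 0 by linarith [al 3 3 3 i]]
    ring
  obtain ⟨L, hL⟩ := isBigO_top.1 (a1.add (IsBigO.fun_sum (s := Finset.univ) fun k _ => a2 k))
  refine ⟨L, fun i => ?_⟩
  have := (le_abs_self _).trans (hL i)
  rw [En_sum]
  simp only [ZZ_fd (F.l.is i) (F.r.is i) (F.l.mem i) (F.r.mem i)]
  rwa [hn, Real.norm_of_nonneg (mul_self_nonneg _), ← sq] at this

end Fam

end Vale.Agent.P354YC
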