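import Vale.Agent.P354SC.Defs
import Vale.Agent.P354YO.Ob

/-!
HYN, first part: the assembly of Hy, and the difference to the Kerr metric.
-/

set_option linter.all false
set_option maxSynthPendingDepth 3

open scoped ContDiff
open Set Filter Topology

noncomputable section

namespace Vale.Agent.P354YC.Hn

open Vale.Agent.P354n (R4)
open Vale.Agent.P354R (Met Del)
open Vale.Agent.P354XD (tb)
open Vale.Agent.P354XE hiding Om
open Vale.Agent.P354XA (linL lin_eq rd_lin psi psi_cd psi_deriv lo1 pb_lin gin_bil)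
open Vale.Agent.P354SA (Th Tq ps e0 e1 ey dv gm)
open Vale.Agent.P354SC Vale.Agent.P354YI Vale.Agent.P354YO

section
variable {V : Type} [NormedAddCommGroup V] [NormedSpace ℝ V] {z : R4} {f : R4 → V}

theorem dL_inv {r : ℝ} (h : r ≠ 0) (v : R4) : dL r (dL r⁻¹ v) = v := by
  simp [mul_inv_cancel_left₀ h]

theorem sm_of (h : z.2.1 ≠ 0) (k : ContDiffAt ℝ ∞ (fun ξ => f (ds z ξ)) 0) : ContDiffAt ℝ ∞ f z := by
  have := at_comp (f := fun x => dL z.2.1⁻¹ (x - z)) (x := z) (by rwa [sub_self, map_zero])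
    ((dL _).contDiff.contDiffAt.comp z (contDiffAt_id.sub contDiffAt_const))
  simpa only [ds, dL_inv h, add_sub_cancel] using this

theorem fd_ds (k : ContDiffAt ℝ ∞ f z) : ∀ᶠ ξ in 𝓝 (0 : R4), ∀ v,
    fderiv ℝ f (ds z ξ) (dL z.2.1 v) = fderiv ℝ (fun ξ => f (ds z ξ)) ξ v := by
  filter_upwards [fd_comp (G := f) (by rw [ds_zero]; exact k) (ds_cd z).contDiffAt] with ξ e v
  rw [e, (ds_fd z ξ).fderiv]
  rfl

theorem ev_ds {P : R4 → Prop} (h : ∀ᶠ x in 𝓝 z, P x) : ∀ᶠ ξ in 𝓝 (0 : R4), P (ds z ξ) :=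
  (ds_cd z).continuous.continuousAt.eventually (by rw [ds_zero]; exact h)

end

section
variable {J : Type} {z : J → R4} {n : ℕ} {f : J → R4 → ℝ} {ν : J → ℝ}

theorem o_dv (r0 : ∀ j, (z j).2.1 ≠ 0) (h : Oj (n + 1) 0 (fun j ξ => f j (ds (z j) ξ)) ν) (v : R4) :
    Oj n 0 (fun j ξ => dv (dL (z j).2.1 v) (f j) (ds (z j) ξ)) ν :=
  (h.fd.apl (Oj.cst v)).congr fun j => (fd_ds (sm_of (r0 j) (h.sm j))).mono fun _ e => e v

theorem o_dv0 (r0 : ∀ j, (z j).2.1 ≠ 0) (h : Oj (n + 1) 0 (fun j ξ => f j (ds (z j) ξ)) ν) {v : R4}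
    (hv : v.2.1 = 0) : Oj n 0 (fun j ξ => dv v (f j) (ds (z j) ξ)) ν :=
  (o_dv r0 h v).congr' fun j ξ => by
    rw [show dL (z j).2.1 v = v by rw [dL_ap, hv, mul_zero, ← hv]]

theorem c3_of (r0 : ∀ j, (z j).2.1 ≠ 0) (h : Oj n 0 (fun j ξ => f j (ds (z j) ξ)) ν) :
    ∀ᶠ K in atTop, ∀ j c, ν j ≤ c → C3 n 1 (f j) (z j) (K * c) := by
  obtain ⟨C, c0, hC⟩ := h.bd
  filter_upwards [eventually_ge_atTop C] with K k j c e
  refine ⟨sm_of (r0 j) (h.sm j), ?_⟩
  simp only [d3, one_mul]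
  exact (hC j).mono le_rfl (mul_le_mul k e (h.nn j) (c0.trans k))

theorem g0_cd (b c : Fin 2) : ContDiff ℝ ∞ (g0 b c) := by
  unfold g0
  split_ifs
  · exact contDiff_const.div (qq_cd.pow 2) fun y => pow_ne_zero 2 (qq_pos y).ne'
  · exact contDiff_const

/-- The assembly of Hy for the shift zero. -/
theorem hy_of {μ E : ℝ} {M a : J → ℝ} {G : J → Tw} (h : Adm μ E M a z)
    (oA : Oj (n + 1) 0 (fun j ξ => G j (ds (z j) ξ) e1 e1) fun j => (z j).2.1⁻¹ ^ 3)
    (ox : Oj (n + 1) 0 (fun j ξ => G j (ds (z j) ξ) e1 (-1, 0, 0, 0) + 1) fun j => (z j).2.1⁻¹)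
    (oz : ∀ b, Oj (n + 1) 0 (fun j ξ => G j (ds (z j) ξ) e1 (ey b)) 1)
    (op : Oj (n + 1) 0 (fun j ξ => G j (ds (z j) ξ) (-1, 0, 0, 0) (-1, 0, 0, 0) + 1)
      fun j => (z j).2.1⁻¹)
    (ot : ∀ b, Oj (n + 1) 0 (fun j ξ => G j (ds (z j) ξ) (-1, 0, 0, 0) (ey b)) 1)
    (og : ∀ b c, Oj (n + 1) 0 (fun j ξ => G j (ds (z j) ξ) (ey b) (ey c) -
      (ds (z j) ξ).2.1 ^ 2 * g0 b c (ds (z j) ξ).2.2) fun j => (z j).2.1) :
    ∀ᶠ K in atTop, ∀ j e w d, 0 ≤ e → 0 ≤ w → 0 ≤ d → Hy n K e w d 1 (G j) 0 (z j) := by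
  have r0 := fun j => (h.r0 j).ne'
  have op' : Oj (n + 1) 0 (fun j ξ => φN (G j) 0 (ds (z j) ξ)) fun j => (z j).2.1⁻¹ := op
  have o1 : Oj n 0 (fun j ξ => (ds (z j) ξ).2.1 * dv e1 (φN (G j) 0) (ds (z j) ξ))
      fun j => (z j).2.1⁻¹ := (o_mulr Adm.o_x (o_dv r0 op' e1)).congr' fun j ξ => by
    rw [ds_r, show dL (z j).2.1 e1 = (z j).2.1 • e1 by simp [e1], dv, dv, map_smul, smul_eq_mul]
    ring
  have o2 : ∀ b c, Oj n 0 (fun j ξ => gm (G j) b c (ds (z j) ξ)) fun j => (z j).2.1 ^ 2 := fun b c =>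
    (((og b c).pred.mono le_rfl fun j => by nlinarith [h.r1 j]).add ((o_mull (o_mul h.o_r h.o_r)
      (h.o_fy (g0_cd b c))).mono le_rfl fun j => (sq _).ge)).congr' fun j ξ => by
        rw [gm]; ring
  have o3 : ∀ b c, Oj n 0 (fun j ξ => dv e0 (gm (G j) b c) (ds (z j) ξ)) fun j => (z j).2.1 :=
    fun b c => (o_dv0 (f := fun j x => gm (G j) b c x - x.2.1 ^ 2 * g0 b c x.2.2) r0 (og b c)
      (v := e0) rfl).congr fun j => ev_ds (P := fun x => dv e0 (gm (G j) b c) x =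
        dv e0 (fun x => gm (G j) b c x - x.2.1 ^ 2 * g0 b c x.2.2) x)
        ((P354YI.ev_dif (sm_of (r0 j) ((o2 b c).sm j))).mono fun x e => by
        have d : DifferentiableAt ℝ (fun y : ℝ × ℝ × ℝ => y.1 ^ 2 * g0 b c y.2) x.2 :=
          (differentiableAt_fst.pow 2).mul
            (((g0_cd b c).differentiable (by simp) _).comp _ differentiableAt_snd)
        have k := d.hasFDerivAt.comp x hasFDerivAt_snd
        rw [dv, dv, show fderiv ℝ (fun x : R4 => gm (G j) b c x - x.2.1 ^ 2 * g0 b c x.2.2) x = _ from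
          (e.hasFDerivAt.sub k).fderiv, sub_apply, ContinuousLinearMap.comp_apply,
          show ContinuousLinearMap.snd ℝ ℝ _ e0 = 0 from rfl, map_zero, sub_zero])
  filter_upwards [eventually_ge_atTop 0, c3_of (f := fun j x => G j x e1 e1) r0 oA.pred,
    c3_of (f := fun j x => G j x e1 (Nv 0 x) + 1) r0 ox.pred,
    eventually_all.2 fun b => c3_of (f := fun j x => G j x e1 (ey b)) r0 (oz b).pred,
    c3_of r0 op'.pred, c3_of (f := fun j x => x.2.1 * dv e1 (φN (G j) 0) x) r0 o1,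
    eventually_all.2 fun b => c3_of r0 (o_dv0 r0 op' (v := ey b) (by fin_cases b <;> rfl)),
    eventually_all.2 fun b => c3_of (f := fun j x => G j x (Nv 0 x) (ey b)) r0 (ot b).pred,
    eventually_all.2 fun b => c3_of r0
      (o_dv0 (f := fun j x => G j x (Nv 0 x) (ey b)) r0 (ot b) (v := e0) rfl),
    eventually_all.2 fun b => eventually_all.2 fun c => c3_of r0 (o2 b c),
    eventually_all.2 fun b => eventually_all.2 fun c => c3_of r0 (o3 b c),
    eventually_all.2 fun b => eventually_all.2 fun c =>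
      c3_of (f := fun j x => gm (G j) b c x - x.2.1 ^ 2 * g0 b c x.2.2) r0 (og b c)]
    with K k0 k1 k2 k3 k4 k5 k6 k7 k8 k9 k10 k11 j e w d he hw hd
  have p := h.r0 j
  have q : (z j).2.1 ^ 2 * (z j).2.1⁻¹ = (z j).2.1 := by field_simp
  refine ⟨fun b => ⟨contDiffAt_const, (jb_const n (0 : ℝ) 0).mono le_rfl (by
      rw [norm_zero]; positivity)⟩, k1 j _ le_rfl, k2 j _ (le_add_of_nonneg_right (by positivity)),
    fun b => mul_one K ▸ k3 b j 1 le_rfl, k4 j _ (le_add_of_nonneg_right (by positivity)),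
    k5 j _ (le_add_of_nonneg_right (by positivity)),
    fun b => k6 b j _ (le_add_of_nonneg_right (by positivity)),
    fun b => k7 b j _ (le_add_of_nonneg_right (by positivity)),
    fun b => k8 b j _ (le_add_of_nonneg_right (by positivity)), fun b c => k9 b c j _ le_rfl,
    fun b c => k10 b c j _ (by rw [mul_add, q]; exact le_add_of_nonneg_right (by positivity)),
    fun b c => ?_⟩
  have := (k11 b c j ((z j).2.1 ^ 2 * ((z j).2.1⁻¹ + e))
    (by rw [mul_add, q]; exact le_add_of_nonneg_right (by positivity))).2.zero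
  rwa [show d3 1 (z j) 0 = z j by ext <;> simp [d3]] at this

/-- The derivative of the chart for bounded radius. -/
theorem o_dTh {μ E ρ : ℝ} {M a c : J → ℝ} (h : Adm μ E M a z) (hρ : ∀ j, (z j).2.1 ≤ ρ) (σ : Bool) :
    Oj n 0 (fun j => fderiv ℝ fun ξ => Th (M j) (a j) σ (c j) (ds (z j) ξ)) 1 := by
  have r1 : ∀ {m}, Oj m 0 (fun j ξ => (ds (z j) ξ).2.1) 1 :=
    h.o_r.wt (c := ρ) (fun _ => zero_le_one) fun j => by simpa using hρ j
  have r2 : Oj n (0 : J → R4) (fun j _ => (z j).2.1) 1 :=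
    o_bd fun j => (abs_of_pos (h.r0 j)).trans_le (hρ j)
  have s := fun i => o_mull (r1 (m := n + 1)) (h.o_rt (om_cd σ) i)
  have l : Oj n 0 (fun j ξ => lo1 (M j) (a j) (ds (z j) ξ).2.1) 1 :=
    ((o_mull (o_sm 2 ((o_mull r1 r1).add (o_mull h.o_a h.o_a))) (h.o_Di.mono le_rfl fun j =>
      mul_le_one₀ (h.ri1 j) (inv_nonneg.2 (h.r0 j).le) (h.ri1 j))).sub (Oj.cst 1)).congr'
        fun j ξ => by rw [lo1]; ring
  have t := ((s 0).pair ((s 1).pair (s 2)))
  refine (((Oj.cst (ContinuousLinearMap.inl ℝ ℝ (ℝ × ℝ × ℝ))).cl (((o_mull l r2).smull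
    (Oj.cst cR)).sub (Oj.cst (.fst ℝ ℝ _)))).add
      ((Oj.cst (ContinuousLinearMap.inr ℝ ℝ (ℝ × ℝ × ℝ))).cl t.fd)).congr fun j => ?_
  filter_upwards [h.ev j, P354YI.ev_dif (t.sm j)] with ξ k1 k2
  have d := (psi_deriv (h.ha j) k1).comp_hasFDerivAt ξ (cR.hasFDerivAt.comp ξ (ds_fd _ ξ))
  have := ((((ds_fd (z j) ξ).fst.const_sub (c j)).add d).prodMk k2.hasFDerivAt).fderiv
  refine this.trans (ContinuousLinearMap.ext fun v => ?_)
  simp
  ring

end

theorem lin_le {q : Par} {ε : ℝ} (h : |q.l| ≤ ε) (h' : ∀ i j, |q.R i j| ≤ ε) : ‖linL q‖ ≤ 3 * ε := by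
  have e0 := (abs_nonneg _).trans h
  refine ContinuousLinearMap.opNorm_le_bound _ (by positivity) fun v => ?_
  have k : ∀ {x y}, |x| ≤ ε → |y| ≤ ‖v‖ → |x * y| ≤ ε * ‖v‖ := fun a b =>
    (abs_mul _ _).trans_le (mul_le_mul a b (abs_nonneg _) e0)
  have j := fun i => (abs_add_three _ _ _).trans (add_le_add (add_le_add
    (k (h' i 0) ((norm_fst_le v.2).trans (norm_snd_le v)))
    (k (h' i 1) ((norm_fst_le v.2.2).trans ((norm_snd_le v.2).trans (norm_snd_le v)))))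
    (k (h' i 2) ((norm_snd_le v.2.2).trans ((norm_snd_le v.2).trans (norm_snd_le v)))))
  rw [show linL q v = _ from lin_eq q v]
  exact max_le (by linarith [k h (norm_fst_le v), mul_nonneg e0 (norm_nonneg v),
    Real.norm_eq_abs (q.l * v.1)]) (max_le ((j 0).trans_eq (by ring))
      (max_le ((j 1).trans_eq (by ring)) ((j 2).trans_eq (by ring))))

theorem lin_nr {q : Par} {M a ε : ℝ} (h : q.Near M a ε) : ‖linL q - 1‖ ≤ 3 * ε := by
  refine le_of_eq_of_le (congrArg _ (ContinuousLinearMap.ext fun v => ?_))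
    (lin_le (q := ⟨0, 0, q.l - 1, q.R - 1⟩) h.2.2.1.le fun i j => (h.2.2.2.2 i j).le)
  change q.lin v - v = Par.lin _ v
  rw [lin_eq, lin_eq]
  ext <;> simp <;> ring

/-- The Kerr metrics in the two frames. -/
theorem kerr_bd (M a ρ : ℝ) (m : ℕ) : ∃ C, 0 ≤ C ∧ ∀ (q : Par) ε p, q.Near M a ε → 12 * ε * ρ ≤ 1 →
    1 ≤ rd p → rd p ≤ ρ → Bd m (pb q.lin (gin M a) - gin q.M q.a) p (C * ε) := by
  obtain ⟨C, c0, hC⟩ := pull_gin M a one_pos ρ m
  refine ⟨2 * C * (3 * |ρ|), by positivity, fun q ε p h e r1 r2 => ?_⟩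
  have ε0 : 0 < ε := (abs_nonneg _).trans_lt h.1
  have ρ1 := r1.trans r2
  have r0 := one_pos.trans_le r1
  have e3 : ε ≤ 3 * ε * ρ := by nlinarith
  have L := lin_nr h
  have s : ContDiffAt ℝ ∞ (fun y => q.lin y + (-((q.l - 1) * p.1)) • eT) p :=
    (linL q).contDiff.contDiffAt.add contDiffAt_const
  have k1 := hC _ M a p (3 * ε * ρ) s (Jb.congr (f := fun y => (linL q - 1) (y - (p.1, 0)))
    (Jb.succ (((linL q - 1).le_opNorm _).trans (mul_le_mul L ?_ (norm_nonneg _) (by positivity)))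
      (((jb_const m (linL q - 1) p).mono le_rfl (L.trans (by nlinarith))).congr (.of_forall fun y =>
        ((linL q - 1).hasFDerivAt.comp y ((hasFDerivAt_id y).sub_const _)).fderiv)))
    (.of_forall fun y => ?_)) (by linarith) (by linarith) (by simp; positivity) (by simp; positivity)
    r1 r2
  · have k2 := hC id q.M q.a p (3 * ε * ρ) contDiffAt_id (by
      simpa using (jb_const (m + 1) (0 : R4) p).mono le_rfl (by rw [norm_zero]; positivity))
      (by linarith) (by linarith) (h.1.le.trans e3) (h.2.1.le.trans e3) r1 r2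
    rw [show pb id (gin q.M q.a) = gin q.M q.a by funext x v w; simp [pb]] at k2
    rw [show pb (fun y => q.lin y + (-((q.l - 1) * p.1)) • eT) (gin M a) = pb q.lin (gin M a) by
      funext x v w; simp only [pb, gin_st, fderiv_add_const]] at k1
    refine bd_mono (bd_tri ((sb_gin (by rwa [rd_lin h.2.2.2.1])).pull (linL q).contDiff.contDiffAt)
      (sb_gin r0) (sb_gin r0) k1 (bd_symm k2)) le_rfl (le_of_eq ?_)
    rw [abs_of_pos (by linarith)]
    ring
  · refine (P354XA.norm_le _).trans ?_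
    rw [show rd (p - (p.1, 0)) = rd p by simp [rd, xs]]
    simpa using r2
  · change q.lin y + _ - y = q.lin _ - _
    rw [lin_eq, lin_eq]
    ext <;> simp [eT] <;> ring

end Vale.Agent.P354YC.Hn
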