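import Vale.Agent.P354YC.Rig
import Vale.Agent.P354XK.GC
import Vale.Agent.P354XJ.Col

/-!
Induced data under isometries; first jets of isometries along a slice.
-/

open scoped ContDiff
open Set Filter Topology Matrix

namespace Vale.Agent.P354YC

open Vale.Agent.P354n
open Vale.Agent.P354I (X Dat pd ee)
open Vale.Agent.P354R (Pull)
open Vale.Agent.P354XE (Tw Lor)
open Vale.Agent.P354RC
open Vale.Agent.P354XK (pd_cp pd_ap x_pd pd_congr)
open Vale.Agent.P354XJ (one_sp one_tgt bilin_of isOpen_tgt)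

variable {g g' : Tw} {D D' W : Set R4} {Xf Xf' ψ : R4 → R4} {J J' : X → R4} {d : Dat} {y : X}
  {p n : R4}

/-- The metric of a vacuum spacetime in a chart. -/
theorem lor_chart {M : Spc} (hM : IsSpacetime IsSmooth M) (hV : IsVacuum M) (e : M.Chart) :
    Lor (M.g e) (tgt e) (M.X e) :=
  ⟨isOpen_tgt e, ⟨fun _ hy a => ⟨(hM.up.bilin e hy).add_right a,
      fun t => (hM.up.bilin e hy).smul_right t a⟩, fun _ hy => hM.up.symm e hy,
      fun _ hy _ => hM.up.nondeg e hy, hM.regular e⟩, hV e, hM.signature e, hM.timelike e,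
    hM.continuous e⟩

theorem cone (h : Lor g D Xf) (hp : p ∈ D) {a t c : R4} (ht : g p t t < 0) (ha : g p a a < 0)
    (hat : g p a t < 0) (hc : g p c c ≤ 0) (hct : g p c t < 0) : g p a c < 0 :=
  (one_sp h).up.same_cone (⟨p, hp⟩ : D)
    ((one_tgt (hD := h.isOpen) (g := g) (T := Xf) (c := ⟨p, hp⟩)).symm.subset hp) ht ha hat hc hct

/-- Isometries which preserve the time orientation map future vectors to future vectors. -/
theorem fut_map (h : Lor g D Xf) (h' : Lor g' D' Xf') {q : R4} (hp : p ∈ D) (hq : q ∈ D')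
    {A : R4 → R4} (e : ∀ a b, g p a b = g' q (A a) (A b)) (o : g' q (A (Xf p)) (Xf' q) < 0)
    (h1 : g p n n < 0) (h2 : g p n (Xf p) < 0) : g' q (A n) (Xf' q) < 0 :=
  cone h' hq (t := A (Xf p)) (e _ _ ▸ h.tl p hp) (e _ _ ▸ h1) (e _ _ ▸ h2) (h'.tl q hq).le
    (h'.met.symm q hq _ _ ▸ o)

/-- Induced data are invariant under isometries. -/
theorem IndAt.pull (h : Lor g D Xf) (h' : Lor g' D' Xf') (P : Pull ψ g W g' D') (hD : J y ∈ D)
    (hW : J y ∈ W) (o : g' (ψ (J y)) (fderiv ℝ ψ (J y) (Xf (J y))) (Xf' (ψ (J y))) < 0)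
    (hJ : ContDiffAt ℝ ∞ J y) (e : ∀ᶠ z in 𝓝 y, ψ (J z) = J' z) (I : IndAt g Xf J d y) :
    IndAt g' Xf' J' d y := by
  obtain ⟨G, n, c, n1, n2, k⟩ := I
  obtain ⟨b, r⟩ := rp_of_met P.isOpen P.met
  have s := p_at P hW
  have e' : J' =ᶠ[𝓝 y] fun z => ψ (J z) := EventuallyEq.symm e
  have e1 : ∀ i, pd i J' y = fderiv ℝ ψ (J y) (pd i J y) := fun i =>
    (pd_congr e' i).trans (pd_cp s hJ i)
  have e2 : ∀ i k, pd i (pd k J') y = fderiv ℝ (fderiv ℝ ψ) (J y) (pd i J y) (pd k J y) +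
      fderiv ℝ ψ (J y) (pd i (pd k J) y) := fun i k => by
    rw [← pd_cp (at_fd s) hJ, ← pd_ap (c := fun z => fderiv ℝ ψ (J z))
      ((at_fd s).comp y hJ) (x_pd hJ k)]
    refine pd_congr ?_ i
    filter_upwards [e'.eventuallyEq_nhds,
      (hJ.of_le (m := 1) (by simp)).eventually (by simp),
      hJ.continuousAt.eventually_mem (P.open'.mem_nhds hW)] with z a1 a2 a3
    exact (pd_congr a1 k).trans (congrArg (· (ee k))
      (fderiv_fun_comp z (at_df (p_at P a3)) (a2.differentiableAt one_ne_zero)))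
  rw [IndAt, e'.self_of_nhds]
  refine ⟨Gm b, fderiv ℝ ψ (J y) n, (r.conn (P.maps hW)).2 fun _ _ => rfl, P.eq _ hW _ _ ▸ n1,
    fut_map h h' hD (P.maps hW) (P.eq _ hW) o (by rw [n1]; norm_num) n2, fun i j => ?_⟩
  rw [e1, e1, e2, ← P.eq _ hW, ← P.eq _ hW, ← (k i j).2.2, P.eq _ hW n, map_add,
    ((rp_pb P r).conn hW).1 c, Gm_pb P r hW]
  refine ⟨(k i j).1, (k i j).2.1, ?_⟩
  congr 2
  abel

section
variable {B : R4 → R4 → ℝ} {L : X →L[ℝ] R4} {H : Matrix (Fin 3) (Fin 3) ℝ}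

lemma sum_ee (u : X) : ∑ i, u i • ee i = u := by
  ext i
  simp [ee, Pi.single_apply]

lemma b_sum (hB : P354.Bilin B) (L : X →L[ℝ] R4) (u : X) (w : R4) :
    B (L u) w = ∑ i, u i * B (L (ee i)) w := by
  conv_lhs => rw [← sum_ee u]
  simp only [Fin.sum_univ_three, map_add, map_smul, hB.add_left, hB.smul_left]

/-- A spacelike three dimensional subspace with a normal n. -/
structure Sp (B : R4 → R4 → ℝ) (L : X →L[ℝ] R4) (n : R4) : Prop where
  bil : P354.Bilin B
  symm : ∀ a b, B a b = B b a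
  pos : ∀ u ≠ 0, 0 < B (L u) (L u)
  nor : ∀ u, B (L u) n = 0

theorem Sp.of (hB : P354.Bilin B) (s : ∀ a b, B a b = B b a) (hH : H.PosDef)
    (k : ∀ i j, B (L (ee i)) n = 0 ∧ B (L (ee i)) (L (ee j)) = H i j) : Sp B L n := by
  refine ⟨hB, s, fun u u0 => ?_, fun u => by simp [b_sum hB L u, fun i => (k i i).1]⟩
  refine (hH.dotProduct_mulVec_pos (x := u.ofLp) (by simpa using u0)).trans_eq ?_
  rw [b_sum hB]
  refine Finset.sum_congr rfl fun i _ => ?_
  rw [s, b_sum hB]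
  simp only [star_trivial, mulVec, dotProduct, s _ (L (ee i)), fun j => (k i j).2, mul_comm]

/-- Every vector is the sum of a tangent vector and a multiple of a transverse vector. -/
theorem Sp.surj (S : Sp B L n) {v : R4} (hv : B n v ≠ 0) :
    Function.Surjective (L.coprod ((ContinuousLinearMap.id ℝ ℝ).smulRight v)) := by
  refine (LinearMap.injective_iff_surjective_of_finrank_eq_finrank (f :=
    (L.coprod ((ContinuousLinearMap.id ℝ ℝ).smulRight v)).toLinearMap) (by simp)).1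
    ((injective_iff_map_eq_zero _).2 fun ⟨u, s⟩ k => ?_)
  replace k : L u + s • v = 0 := k
  have z : ∀ w, B 0 w = 0 := fun w => by simpa using S.bil.smul_left 0 0 w
  have k1 := S.bil.add_left (L u) (s • v) n
  rw [k, z, S.nor, S.bil.smul_left, S.symm v, zero_add] at k1
  obtain rfl : s = 0 := (mul_eq_zero.1 k1.symm).resolve_right hv
  rw [zero_smul, add_zero] at k
  by_contra k2
  have := S.pos u fun k3 => k2 (k3 ▸ rfl)
  rw [k, z] at this
  exact lt_irrefl _ this

/-- Two isometries which agree on the tangent space of the slice and map n to the same side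
agree. -/
theorem Sp.jet (S : Sp B L n) (n1 : B n n = -1) {B' : R4 → R4 → ℝ} (hB : P354.Bilin B')
    {A A' : R4 →L[ℝ] R4} (i : Function.Injective A') (e : ∀ a b, B a b = B' (A a) (A b))
    (e' : ∀ a b, B a b = B' (A' a) (A' b)) (k : ∀ u, A (L u) = A' (L u)) {T : R4}
    (o : B' (A n) T < 0) (o' : B' (A' n) T < 0) : A = A' := by
  have sj := S.surj (v := n) (by rw [n1]; norm_num)
  obtain ⟨w, hw⟩ := surj_of_inj i (A n)
  obtain ⟨⟨u, s⟩, rfl⟩ := sj w
  replace hw : A' (L u + s • n) = A n := hw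
  obtain rfl : u = 0 := by
    by_contra u0
    have k1 := S.nor u
    rw [e, k, ← hw, ← e', S.bil.add_right, S.bil.smul_right, S.nor] at k1
    linarith [S.pos u u0]
  rw [map_zero, zero_add, map_smul] at hw
  have k1 := e n n
  rw [← hw, hB.smul_left, hB.smul_right, ← e', n1] at k1
  rw [← hw, hB.smul_left] at o
  obtain rfl : s = 1 := by nlinarith [pos_of_mul_neg_left o o'.le]
  refine ContinuousLinearMap.ext fun w => ?_
  obtain ⟨⟨u, s⟩, rfl⟩ := sj w
  show A (L u + s • n) = A' (L u + s • n)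
  rw [map_add, map_add, map_smul, map_smul, k, ← hw, one_smul]

end

theorem IndAt.sp (h : Lor g D Xf) (hD : J y ∈ D) (hd : (d.h y).PosDef) (I : IndAt g Xf J d y) :
    ∃ n, g (J y) n n = -1 ∧ g (J y) n (Xf (J y)) < 0 ∧ Sp (g (J y)) (fderiv ℝ J y) n :=
  let ⟨_, n, _, n1, n2, k⟩ := I
  ⟨n, n1, n2, .of (bilin_of h hD) (h.met.symm _ hD) hd fun i j => ⟨(k i j).1, (k i j).2.1⟩⟩

end Vale.Agent.P354YC
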