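import Vale.Agent.P354YC.Est

/-!
On the slice t = 0 the unknowns are bounded by the differences of the data.
-/

set_option maxSynthPendingDepth 3
set_option linter.all false

open scoped ContDiff
open Set Filter Topology Asymptotics

noncomputable section

namespace Vale.Agent.P354YC

open Vale.Agent.P354n (R4 mink)
open Vale.Agent.P354RC
open Vale.Agent.P354XE (eT)
open Vale.Agent.P354XU (L4)
open Vale.Agent.P354UR (mB mB_ap)

theorem mink_symm (a b : R4) : mink a b = mink b a := by unfold mink; ring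

theorem bs0 : bs 0 = eT := rfl

variable {ι : Type} {n : ι → ℝ}

section
variable {Θ e : ι → L4} (inv : ∀ i u, Θ i (e i u) = u) (ad : ∀ i v, (Θ i (0, v)).1 = 0) (be : Bo e)
include inv ad be

theorem sp_ext {V : Type} [NormedAddCommGroup V] [NormedSpace ℝ V] {F : ι → R4 →L[ℝ] V}
    (h : ∀ l : Fin 3, (fun i => F i (Θ i (bs l.succ))) =O[⊤] n) (k : Fin 3) :
    (fun i => F i (bs k.succ)) =O[⊤] n := by
  have s : ∀ i u, (Θ i u).1 = u.1 * (Θ i eT).1 := fun i u => by
    have : u = u.1 • eT + (0, u.2) := by simp [eT]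
    conv_lhs => rw [this, map_add, map_smul, Prod.fst_add, ad, add_zero]
    rfl
  have z : ∀ i, cv 0 (e i (bs k.succ)) = 0 := fun i => by
    have a := s i (e i (bs k.succ))
    have b := s i (e i eT)
    rw [inv] at a b
    rw [show (bs k.succ).1 = 0 by fin_cases k <;> rfl] at a
    refine (mul_eq_zero.1 a.symm).resolve_right fun c => ?_
    rw [c, mul_zero] at b
    exact one_ne_zero b
  refine (IsBigO.fun_sum (s := Finset.univ) fun l _ =>
    Bo.smul ((Bo.c (cv (Fin.succ l))).ap (o_ap0 be (bs k.succ))) (h l)).congr_left fun i => ?_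
  conv_rhs => rw [← inv i (bs k.succ), clm_bs (Θ i), map_sum, Fin.sum_univ_succ, z]
  simp only [zero_smul, map_zero, zero_add, map_smul]

theorem skew_bd {M : ι → W1} (bΘ : Bo Θ) (sk : ∀ i u a b, mink (M i u a) b + mink a (M i u b) = 0)
    (h1 : ∀ j k : Fin 3, (fun i => M i (bs j.succ) (Θ i (bs k.succ)) -
      M i (bs k.succ) (Θ i (bs j.succ))) =O[⊤] n)
    (h2 : ∀ j k : Fin 3, (fun i => mink eT (M i (bs j.succ) (Θ i (bs k.succ)))) =O[⊤] n)
    (j : Fin 3) : (fun i => M i (bs j.succ)) =O[⊤] n := by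
  have t := fun j k l : Fin 3 => o_mk (h1 j k) (o_ap0 bΘ (bs l.succ))
  have w : ∀ k l : Fin 3, (fun i => mink (M i (bs j.succ) (Θ i (bs k.succ))) (Θ i (bs l.succ)))
      =O[⊤] n := fun k l =>
    ((((t j k l).sub (t k l j)).add (t l j k)).const_mul_left (1 / 2)).congr_left fun i => by
        have a := sk i (bs j.succ) (Θ i (bs k.succ)) (Θ i (bs l.succ))
        have b := sk i (bs k.succ) (Θ i (bs j.succ)) (Θ i (bs l.succ))
        have c := sk i (bs l.succ) (Θ i (bs k.succ)) (Θ i (bs j.succ))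
        rw [mink_symm (Θ i _)] at a b c
        simp only [← mB_ap, map_sub, sub_apply] at a b c ⊢
        linarith
  have s0 : ∀ k : Fin 3, (fun i => mink eT (M i (bs j.succ) (bs k.succ))) =O[⊤] n := fun k => by
    simpa only [ContinuousLinearMap.comp_apply, mB_ap] using sp_ext inv ad be
      (F := fun i => mB eT ∘L M i (bs j.succ)) (fun l => by
        simpa only [ContinuousLinearMap.comp_apply, mB_ap] using h2 j l) k
  refine o_bs fun a => o_mink fun b => ?_
  refine Fin.cases (Fin.cases ?_ (fun l => ?_) b) (fun k => Fin.cases ?_ (fun l => ?_) b) a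
  · refine (isBigO_zero _ _).congr_left fun i => ?_
    have a := sk i (bs j.succ) (bs 0) (bs 0)
    rw [mink_symm (bs 0)] at a
    linarith
  · exact (s0 l).neg_left.congr_left fun i => by
      rw [bs0]
      linarith [sk i (bs j.succ) eT (bs l.succ)]
  · exact (s0 k).congr_left fun i => mink_symm _ _
  · simpa only [mB_ap] using sp_ext inv ad be (F := fun i => mB (M i (bs j.succ) (bs k.succ)))
      (fun l => by
        simpa only [ContinuousLinearMap.comp_apply, ContinuousLinearMap.flip_apply, mB_ap] using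
          sp_ext inv ad be (F := fun i => mB.flip (Θ i (bs l.succ)) ∘L M i (bs j.succ)) (fun k => by
            simpa only [ContinuousLinearMap.comp_apply, ContinuousLinearMap.flip_apply, mB_ap]
              using w k l) k) l

end

theorem curv_bd {T : ι → W2} (al : ∀ i u v z, T i u v z = -T i v u z)
    (pr : ∀ i u v z w, mink (T i u v z) w = mink (T i z w u) v)
    (rc : ∀ i v z, tr (fun u => T i u v z) = 0)
    (h : ∀ j k : Fin 3, (fun i => T i (bs j.succ) (bs k.succ)) =O[⊤] n) : T =O[⊤] n := by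
  have a1 : ∀ i u v z w, mink (T i u v z) w = -mink (T i v u z) w := fun i u v z w => by
    rw [al, ← mB_ap, map_neg, neg_apply, mB_ap]
  have hA := fun (j k : Fin 3) (c d : Fin 4) => o_mk (o_ap0 (h j k) (bs c)) (Bo.c (bs d))
  have z : ∀ i z w, mink (T i (bs 0) (bs 0) z) w = 0 := fun i z w => by
    linarith [a1 i (bs 0) (bs 0) z w]
  have r : ∀ j k : Fin 3, (fun i => mink (T i (bs 0) (bs j.succ) (bs k.succ)) (bs 0)) =O[⊤] n :=
    fun j k => (((hA 0 j k.succ 1).add (hA 1 j k.succ 2)).add (hA 2 j k.succ 3)).congr_left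
      fun i => by
        have := rc i (bs j.succ) (bs k.succ)
        rw [mink_tr] at this
        exact (sub_eq_zero.1 (Eq.trans (by simp only [Fin.succ_zero_eq_one, Fin.succ_one_eq_two,
          show (2 : Fin 3).succ = 3 from rfl]; ring) this))
  have h0 : ∀ (j : Fin 3) (c d : Fin 4), (fun i => mink (T i (bs 0) (bs j.succ) (bs c)) (bs d))
      =O[⊤] n := fun j c d => by
    refine Fin.cases (Fin.cases ?_ (fun l => ?_) d) (fun k => Fin.cases (r j k) (fun l => ?_) d) c
    · exact (isBigO_zero _ _).congr_left fun i => by rw [pr, z]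
    · exact (r j l).neg_left.congr_left fun i => by rw [pr, a1, pr, neg_neg]
    · exact (hA k l 0 j.succ).congr_left fun i => pr _ _ _ _ _
  refine o_bs fun a => o_bs fun b => o_bs fun c => o_mink fun d => ?_
  refine Fin.cases (Fin.cases ?_ (fun l => h0 l c d) b) (fun k => Fin.cases ?_ (fun l => hA k l c d) b) a
  · exact (isBigO_zero _ _).congr_left fun i => (z ..).symm
  · exact (h0 k c d).neg_left.congr_left fun i => (a1 ..).symm

/-- The covariant derivative of the coframe, and the second fundamental form. -/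
def Cd.Q (C : Cd) (u v q : R4) : R4 := fderiv ℝ C.θ q u v + C.γ q u (C.θ q v)
def Cd.k (C : Cd) (u v q : R4) : ℝ := -mink eT (C.Q u v q)

section
variable {C : Cd} (a : C.Is) {p : R4} (m : p ∈ C.Ω)
include a m

theorem Car.Q_cd (u v : R4) : ContDiffAt ℝ ∞ (C.Q u v) p :=
  (((at_fd (a.sθ p m)).clm_apply contDiffAt_const).clm_apply contDiffAt_const).add
    (((a.sγ p m).clm_apply contDiffAt_const).clm_apply ((a.sθ p m).clm_apply contDiffAt_const))

theorem Car.dQ (w u v : R4) : fderiv ℝ (C.Q u v) p w = fderiv ℝ (fderiv ℝ C.θ) p w u v +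
    (fderiv ℝ C.γ p w u (C.θ p v) + C.γ p u (fderiv ℝ C.θ p w v)) := by
  have k1 := (a.sγ p m).clm_apply (contDiffAt_const (c := u))
  have k2 := (a.sθ p m).clm_apply (contDiffAt_const (c := v))
  unfold Cd.Q
  rw [fderiv_fun_add (at_df (((at_fd (a.sθ p m)).clm_apply contDiffAt_const).clm_apply
    contDiffAt_const)) (at_df (k1.clm_apply k2)), add_apply, fd20 (at_fd (a.sθ p m)), fd_ap k1 k2,
    fd_ap0 (a.sγ p m), fd_ap0 (a.sθ p m)]

theorem Car.dtor (u v : R4) : fderiv ℝ (C.Q u v) p = fderiv ℝ (C.Q v u) p :=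
  EventuallyEq.fderiv_eq (mem_of_superset (a.op.mem_nhds m) fun q b => a.tor q b u v)

theorem Car.k_cd (u v : R4) : ContDiffAt ℝ ∞ (C.k u v) p := by
  unfold Cd.k
  simpa only [mB_ap] using ((contDiffAt_const (c := mB eT)).clm_apply (Car.Q_cd a m u v)).neg

theorem Car.dk (w u v : R4) : fderiv ℝ (C.k u v) p w = -mink eT (fderiv ℝ (C.Q u v) p w) := by
  have := fd_ap (contDiffAt_const (c := mB eT)) (Car.Q_cd a m u v) w
  simp only [mB_ap, fderiv_fun_const, Pi.zero_apply, zero_apply, zero_add] at this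
  unfold Cd.k
  rw [fderiv_fun_neg, neg_apply, this]

theorem Car.dskw (w u x y : R4) :
    mink (fderiv ℝ C.γ p w u x) y + mink x (fderiv ℝ C.γ p w u y) = 0 := by
  have k := fun x => ((a.sγ p m).clm_apply (contDiffAt_const (c := u))).clm_apply
    (contDiffAt_const (c := x))
  have e : (fun q => mB y (C.γ q u x)) =ᶠ[𝓝 p] fun q => -mB x (C.γ q u y) := by
    filter_upwards [a.op.mem_nhds m] with q b
    rw [mB_ap, mB_ap, mink_symm]
    linarith [a.skw q b u x y]
  have := fd_ap (contDiffAt_const (c := mB y)) (k x) w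
  rw [e.fderiv_eq, fderiv_fun_neg, neg_apply, fd_ap contDiffAt_const (k y), fd20 (a.sγ p m),
    fd20 (a.sγ p m)] at this
  simp only [mB_ap, fderiv_fun_const, Pi.zero_apply, zero_apply, zero_add] at this
  rw [mink_symm]
  linarith

end

variable {C' C : ι → Cd} {p : ι → R4} {e : ι → R4 → L4}

/-- The unknowns on the slice. -/
theorem Fam.ini (F : Fam C' C p e) (ad : ∀ i v, ((C i).θ (p i) (0, v)).1 = 0)
    (a0 : ∀ j : Fin 3, (fun i => (C' i).θ (p i) (bs j.succ) - (C i).θ (p i) (bs j.succ)) =O[⊤] n)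
    (a1 : ∀ k j : Fin 3, (fun i => fderiv ℝ (C' i).θ (p i) (bs k.succ) (bs j.succ) -
      fderiv ℝ (C i).θ (p i) (bs k.succ) (bs j.succ)) =O[⊤] n)
    (a2 : ∀ l k j : Fin 3, (fun i =>
      fderiv ℝ (fderiv ℝ (C' i).θ) (p i) (bs l.succ) (bs k.succ) (bs j.succ) -
      fderiv ℝ (fderiv ℝ (C i).θ) (p i) (bs l.succ) (bs k.succ) (bs j.succ)) =O[⊤] n)
    (k0 : ∀ k j : Fin 3, (fun i => (C' i).k (bs k.succ) (bs j.succ) (p i) -
      (C i).k (bs k.succ) (bs j.succ) (p i)) =O[⊤] n)
    (k1 : ∀ l k j : Fin 3, (fun i => fderiv ℝ ((C' i).k (bs k.succ) (bs j.succ)) (p i) (bs l.succ) -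
      fderiv ℝ ((C i).k (bs k.succ) (bs j.succ)) (p i) (bs l.succ)) =O[⊤] n) :
    (fun i => ZZ (C' i) (C i) (p i)) =O[⊤] n := by
  have t : Df n (fun i => (C' i).θ (p i)) fun i => (C i).θ (p i) :=
    ⟨F.l.θ, F.r.θ, o_bs fun j => Fin.cases ((isBigO_zero _ _).congr_left fun i => by
      rw [sub_apply, bs0, (F.ga i).self_of_nhds.1, sub_self]) a0 j⟩
  have x := fun k j : Fin 3 => (a1 k j).add (Bo.ap (o_ap0 F.l.γ (bs k.succ)) (a0 j))
  have g : Df n (fun i => (C' i).γ (p i)) fun i => (C i).γ (p i) := by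
    refine ⟨F.l.γ, F.r.γ, o_bs fun j => Fin.cases ((isBigO_zero _ _).congr_left fun i => by
      rw [sub_apply, bs0, (F.ga i).self_of_nhds.2, sub_self]) (skew_bd F.inv ad F.be F.r.θ
        (fun i u a b => ?_) (fun j k => ((x k j).sub (x j k)).congr_left fun i => ?_)
          fun j k => ((k0 j k).add ((Bo.c eT).mk (x j k))).neg_left.congr_left fun i => ?_) j⟩
    · have := (F.l.is i).skw _ (F.l.mem i) u a b
      have := (F.r.is i).skw _ (F.r.mem i) u a b
      simp only [← mB_ap, map_sub, sub_apply] at *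
      linarith
    · have a := (F.l.is i).tor _ (F.l.mem i) (bs j.succ) (bs k.succ)
      have b := (F.r.is i).tor _ (F.r.mem i) (bs j.succ) (bs k.succ)
      simp only [map_sub, sub_apply]
      linear_combination (exp := 1) b - a
    · simp only [Cd.k, Cd.Q, ← mB_ap, map_sub, map_add, sub_apply]
      ring
  have d : ∀ l j : Fin 3, (fun i => (fderiv ℝ (C' i).γ (p i) (bs l.succ) -
      fderiv ℝ (C i).γ (p i) (bs l.succ)) (bs j.succ)) =O[⊤] n := fun l => by
    have y := fun k j : Fin 3 => ((a2 l k j).add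
      (Bo.ap (o_ap0 (o_ap0 F.l.dγ (bs l.succ)) (bs k.succ)) (a0 j))).add
        ((g.ap0 (bs k.succ)).ap ⟨o_ap0 (o_ap0 F.l.dθ (bs l.succ)) (bs j.succ),
          o_ap0 (o_ap0 F.r.dθ (bs l.succ)) (bs j.succ), a1 l j⟩).d
    refine skew_bd F.inv ad F.be F.r.θ (fun i u a b => ?_)
      (fun j k => ((y k j).sub (y j k)).congr_left fun i => ?_)
        fun j k => ((k1 l j k).add ((Bo.c eT).mk (y j k))).neg_left.congr_left fun i => ?_
    · have := Car.dskw (F.l.is i) (F.l.mem i) (bs l.succ) u a b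
      have := Car.dskw (F.r.is i) (F.r.mem i) (bs l.succ) u a b
      simp only [← mB_ap, map_sub, sub_apply] at *
      linarith
    · have a := Car.dQ (F.l.is i) (F.l.mem i) (bs l.succ) (bs j.succ) (bs k.succ)
      have b := Car.dQ (F.r.is i) (F.r.mem i) (bs l.succ) (bs j.succ) (bs k.succ)
      rw [Car.dtor (F.l.is i) (F.l.mem i), Car.dQ (F.l.is i) (F.l.mem i)] at a
      rw [Car.dtor (F.r.is i) (F.r.mem i), Car.dQ (F.r.is i) (F.r.mem i)] at b
      simp only [map_sub, sub_apply]
      linear_combination (exp := 1) a - b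
    · rw [Car.dk (F.l.is i) (F.l.mem i), Car.dk (F.r.is i) (F.r.mem i),
        Car.dQ (F.l.is i) (F.l.mem i), Car.dQ (F.r.is i) (F.r.mem i)]
      simp only [← mB_ap, map_sub, map_add, sub_apply]
      ring
  have r : (fun i => (C' i).ρ (p i) - (C i).ρ (p i)) =O[⊤] n := by
    refine curv_bd (fun i u v z => ?_) (fun i u v z w => ?_) (fun i v z => ?_) fun j k => ?_
    · simp only [sub_apply]
      rw [(F.l.is i).alt, (F.r.is i).alt]
      abel
    · have := (F.l.is i).par _ (F.l.mem i) u v z w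
      have := (F.r.is i).par _ (F.r.mem i) u v z w
      simp only [← mB_ap, map_sub, sub_apply] at *
      linarith
    · have := (F.l.is i).ric _ (F.l.mem i) v z
      have := (F.r.is i).ric _ (F.r.mem i) v z
      simp only [tr, map_sub, sub_apply, Finset.sum_sub_distrib] at *
      linarith
    refine sp_ext F.inv ad F.be (F := fun i => ((C' i).ρ (p i) - (C i).ρ (p i)) (bs j.succ))
      (fun k => o_bs fun z => ?_) k
    refine sp_ext F.inv ad F.be (F := fun i => ((((C' i).ρ (p i) - (C i).ρ (p i)).flip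
      ((C i).θ (p i) (bs k.succ))).flip (bs z))) (fun j => ?_) j
    refine ((((o_ap0 (d j k) (bs z)).sub (o_ap0 (d k j) (bs z))).add
      (((g.ap0 (bs j.succ)).ap ((g.ap0 (bs k.succ)).ap0 (bs z))).sub
        ((g.ap0 (bs k.succ)).ap ((g.ap0 (bs j.succ)).ap0 (bs z)))).d).sub
      ((((Df.rf F.l.ρ).ap (t.ap0 (bs j.succ))).ap (t.ap0 (bs k.succ))).ap0 (bs z)).d).congr_left
        fun i => ?_
    have a := (F.l.is i).cur _ (F.l.mem i) (bs j.succ) (bs k.succ) (bs z)
    have b := (F.r.is i).cur _ (F.r.mem i) (bs j.succ) (bs k.succ) (bs z)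
    rw [cu_ap] at a b
    simp only [ContinuousLinearMap.flip_apply, sub_apply]
    linear_combination (exp := 1) a - b
  exact (t.d.prod_left g.d).prod_left ((Bo.c T3).ap r)

end Vale.Agent.P354YC
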