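import Vale.Agent.P354YC.Defs
import Vale.Agent.P354RC.Pull
import Vale.Agent.P354XE.Iface

/-!
RIG: local isometries are determined by their first jet at a point.
-/

set_option maxSynthPendingDepth 3

open scoped ContDiff
open Set Filter Topology Metric Asymptotics

namespace Vale.Agent.P354YC

open Vale.Agent.P354n (R4)
open Vale.Agent.P354R (Pull)
open Vale.Agent.P354RC

theorem zero_of_bigO {E F : Type} [NormedAddCommGroup E] [NormedSpace ℝ E] [ProperSpace E]
    [NormedAddCommGroup F] [NormedSpace ℝ F] {w : E → F} {p : E}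
    (d : ∀ᶠ q in 𝓝 p, DifferentiableAt ℝ w q) (h : (fderiv ℝ w) =O[𝓝 p] w) (h0 : w p = 0) :
    ∀ᶠ q in 𝓝 p, w q = 0 := by
  obtain ⟨C, C0, hC⟩ := h.exists_pos
  obtain ⟨r, r0, hr⟩ := nhds_basis_closedBall.eventually_iff.1 ((d.and hC.bound).and
    (closedBall_mem_nhds p (show 0 < 1 / (2 * C) by positivity)))
  obtain ⟨q, hq, m⟩ := (isCompact_closedBall p r).exists_isMaxOn (nonempty_closedBall.2 r0.le)
    (f := fun q => ‖w q‖) fun q a => (hr a).1.1.continuousAt.norm.continuousWithinAt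
  have k := (convex_closedBall p r).norm_image_sub_le_of_norm_fderiv_le (C := C * ‖w q‖)
    (fun x a => (hr a).1.1) (fun x a => (hr a).1.2.trans (mul_le_mul_of_nonneg_left (m a) C0.le))
    (mem_closedBall_self r0.le) hq
  have k2 : C * ‖q - p‖ ≤ 1 / 2 := by
    have := mem_closedBall_iff_norm.1 (hr hq).2
    rw [le_div_iff₀ (by positivity)] at this ⊢
    linarith
  rw [h0, sub_zero] at k
  filter_upwards [closedBall_mem_nhds p r0] with x a
  exact norm_le_zero_iff.1 ((m a).trans (by nlinarith [norm_nonneg (w q)]))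

theorem bigO_clm {T F G : Type} [NormedAddCommGroup F] [NormedSpace ℝ F] [NormedAddCommGroup G]
    {l : Filter T} {u : T → R4 →L[ℝ] F} {w : T → G} (h : ∀ a, (fun t => u t a) =O[l] w) :
    u =O[l] w := by
  obtain ⟨C, -, hC⟩ := (Module.finBasis ℝ R4).exists_opNorm_le (F := F)
  refine .trans (.of_bound C (.of_forall fun t => ?_)) (IsBigO.sum (s := Finset.univ)
    fun i _ => (h (Module.finBasis ℝ R4 i)).norm_left)
  refine (hC (norm_nonneg _) fun i => ?_)
  rw [Finset.sum_apply]
  exact (Finset.single_le_sum (f := fun i => ‖u t (Module.finBasis ℝ R4 i)‖)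
    (fun _ _ => norm_nonneg _) (Finset.mem_univ i)).trans (le_abs_self _)

theorem rigS {ψ φ : R4 → R4} {g g' : P354XE.Tw} {U D' S : Set R4} (P : Pull ψ g U g' D')
    (Q : Pull φ g U g' D') (hS : IsPreconnected S) (sub : S ⊆ U) {p : R4} (hp : p ∈ S)
    (e0 : ψ p = φ p) (e1 : fderiv ℝ ψ p = fderiv ℝ φ p) : EqOn ψ φ S := by
  obtain ⟨h, r⟩ := rp_of_met P.isOpen P.met
  let w : R4 → R4 × (R4 →L[ℝ] R4) := fun q => (ψ q, fderiv ℝ ψ q) - (φ q, fderiv ℝ φ q)
  have j : ∀ {f : R4 → R4}, Pull f g U g' D' → ∀ q ∈ U,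
      HasFDerivAt (fun q => (f q, fderiv ℝ f q))
        ((fderiv ℝ f q).prod (fderiv ℝ (fderiv ℝ f) q)) q := fun P q hq =>
    (at_df (p_at P hq)).hasFDerivAt.prodMk (at_df (at_fd (p_at P hq))).hasFDerivAt
  have loc : ∀ q ∈ U, w q = 0 → ∀ᶠ z in 𝓝 q, w z = 0 := fun q hq e => by
    have n := P.open'.mem_nhds hq
    refine zero_of_bigO (mem_of_superset n fun z a => ((j P z a).sub (j Q z a)).differentiableAt)
      (bigO_clm fun a => ?_) e
    have w2 : ∀ {v : R4 → R4}, ContinuousAt v q →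
        (fun z => (fderiv ℝ ψ z - fderiv ℝ φ z) (v z)) =O[𝓝 q] w := fun {v} c =>
      .of_bound (‖v q‖ + 1) ((c.norm.eventually_lt_const (lt_add_one _)).mono fun z k =>
        (ContinuousLinearMap.le_opNorm _ _).trans ((mul_comm _ _).trans_le
          (mul_le_mul k.le (norm_snd_le (w z)) (norm_nonneg _) (by positivity))))
    refine (IsBigO.prod_left (w2 (v := fun _ => a) continuousAt_const)
      (bigO_clm (u := fun z => fderiv ℝ (fderiv ℝ ψ) z a - fderiv ℝ (fderiv ℝ φ) z a)
        fun b => ?_)).congr' (mem_of_superset n fun z k => ?_) .rfl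
    swap
    · exact congrArg (· a) ((j P z k).sub (j Q z k)).fderiv.symm
    have c : ContDiffAt ℝ 1 (fun x : R4 × (R4 →L[ℝ] R4) => Gm h x.1 (x.2 a) (x.2 b))
        (ψ q, fderiv ℝ ψ q) := by
      have k := ((at_fd (r.at (P.maps hq))).of_le (m := 1) (by simp)).comp
        (ψ q, fderiv ℝ ψ q) (f := fun x : R4 × (R4 →L[ℝ] R4) => x.1) contDiffAt_fst
      have u := fun a : R4 => (contDiffAt_snd (𝕜 := ℝ) (n := 1)
        (p := (ψ q, fderiv ℝ ψ q))).clm_apply (contDiffAt_const (c := a))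
      exact (((r.inv_cd (P.maps hq)).of_le (m := 1) (by simp)).comp
        (ψ q, fderiv ℝ ψ q) (f := fun x : R4 × (R4 →L[ℝ] R4) => x.1) contDiffAt_fst).clm_apply
        (((((k.clm_apply (u a)).clm_apply (u b)).add ((k.clm_apply (u b)).clm_apply (u a))).sub
          (((ContinuousLinearMap.flipₗᵢ ℝ R4 R4 ℝ).contDiff.contDiffAt.comp _
            (((ContinuousLinearMap.flipₗᵢ ℝ R4 R4 (R4 →L[ℝ] ℝ)).contDiff.contDiffAt.comp _
              k).clm_apply (u a))).clm_apply (u b))).const_smul _)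
    obtain ⟨K, t, ht, L⟩ := c.exists_lipschitzOnWith
    have t1 := (j P q hq).continuousAt.eventually_mem ht
    have t2 := (j Q q hq).continuousAt.eventually_mem (sub_eq_zero.1 e ▸ ht)
    refine ((w2 ((rp_pb P r).gm_cd hq (u := fun _ => a) (v := fun _ => b) contDiffAt_const
      contDiffAt_const).continuousAt).sub (.of_bound K ((t1.and t2).mono fun z k =>
        L.norm_sub_le k.1 k.2))).congr' (mem_of_superset n fun z k => ?_) .rfl
    have := Gm_pb Q r k a b
    rw [← ((rp_pb Q r).conn k).1 (((rp_pb P r).conn k).2 fun _ _ => rfl)] at this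
    simp only [mem_ofPred_eq, sub_apply, this, Gm_pb P r k]
    abel
  intro q hq
  refine congrArg Prod.fst (sub_eq_zero.1 (Eventually.self_of_nhds (p := fun z => w z = 0)
    (hS.subset_of_closure_inter_subset isOpen_setOfPred_eventually_nhds
      ⟨p, hp, loc p (sub hp) (sub_eq_zero.2 (Prod.ext e0 e1))⟩
      (fun z a => loc z (sub a.2) ?_) hq)))
  exact ((j P z (sub a.2)).sub (j Q z (sub a.2))).continuousAt.continuousWithinAt.mem_closure a.1
    (t := {0}) (fun x b => Eventually.self_of_nhds (p := fun z => w z = 0) b)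
    |> closure_singleton.subset

theorem rig : RIG := fun _ _ _ _ _ _ P Q hU _ hp e0 e1 => rigS P Q hU subset_rfl hp e0 e1

theorem rigE : P354XE.RIG := fun _ _ _ _ _ _ p q P Q s e0 e1 =>
  rigS P Q (convex_segment p q).isPreconnected s (left_mem_segment ℝ p q) e0 e1
    (right_mem_segment ℝ p q)

end Vale.Agent.P354YC
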